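import Vale.Agent.P092CP.Cp
import Vale.Agent.P092RG.Rad

/-!
P092, rank one, block A (helper90): the interfaces.

`Orb` is the output of A0, `Bim` the abstract bimodule on which A2 runs, `SING`, `GAPM` the inputs
proved by helper93 and `UB` the output of A1-A3.
-/

open scoped InnerProductSpace ENNReal NNReal
open MeasureTheory Filter Topology ContinuousLinearMap

namespace Vale.Agent.P092UB

open Vale.Agent.P092CP Vale.Agent.P092RG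
open Vale.Agent.P092.H793.Re (SLn)

/-- **A uniformly bounded orbit map** on the target, of norm at most `Λ`, whose kernel is almost
invariant in the norm of Schur multipliers. -/
structure Orb {G' : Type} [Group G'] [MeasurableSpace G'] (r : G' → ℝ) (c : ℝ) (D : ℝ → ℝ)
    (Λ : ℝ) where
  /-- the space of tests -/
  H : Type
  [i₁ : NormedAddCommGroup H]
  [i₂ : InnerProductSpace ℝ H]
  [i₃ : CompleteSpace H]
  [i₄ : SecondCountableTopology H]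
  /-- the auxiliary space -/
  H' : Type
  [j₁ : NormedAddCommGroup H']
  [j₂ : InnerProductSpace ℝ H']
  [j₃ : CompleteSpace H']
  [j₄ : SecondCountableTopology H']
  /-- the orbit map -/
  F : G' → H
  /-- the translation operators -/
  ρ : G' → H →L[ℝ] H
  /-- the left factor of the defect -/
  α : G' → G' → H'
  /-- the right factor of the defect -/
  β : G' → G' → H'
  mF : ∀ v, Measurable fun y => ⟪v, F y⟫_ℝ
  mα : ∀ h v, Measurable fun y => ⟪v, α h y⟫_ℝ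
  mβ : ∀ h v, Measurable fun y => ⟪v, β h y⟫_ℝ
  nρ : ∀ h, ‖ρ h‖ ≤ c
  cov : ∀ h y, F (h * y) = ρ h (F y)
  nF : ∀ y, ‖F y‖ ≤ Λ
  pt : ∀ y, ‖F y - F 1‖ ≤ D (r y)
  nα : ∀ h y, ‖α h y‖ ≤ D (r h)
  nβ : ∀ h y, ‖β h y‖ ≤ D (r h)
  lc : ∀ h y y', ⟪F (h * y), F (h * y')⟫_ℝ - ⟪F y, F y'⟫_ℝ = ⟪α h y, β h y'⟫_ℝ

attribute [instance] Orb.i₁ Orb.i₂ Orb.i₃ Orb.i₄ Orb.j₁ Orb.j₂ Orb.j₃ Orb.j₄

/-- the coordinates of the orbit map -/
noncomputable def Orb.co {G' : Type} [Group G'] [MeasurableSpace G'] {r : G' → ℝ} {c : ℝ}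
    {D : ℝ → ℝ} {Λ : ℝ} (O : Orb r c D Λ) (v : O.H) : G' → ℂ := fun y => (⟪v, O.F y⟫_ℝ : ℝ)

/-- the Hilbert-Schmidt norm of `T` is at most `s` -/
def HSle {H K : Type} [NormedAddCommGroup H] [InnerProductSpace ℝ H] [NormedAddCommGroup K]
    (T : H → K) (s : ℝ) : Prop :=
  ∀ (ι : Type) (v : ι → H), Orthonormal ℝ v → ∑' i, ‖T (v i)‖ₑ ^ 2 ≤ ENNReal.ofReal s ^ 2

variable {G G' K : Type} [Group G] [TopologicalSpace G] [MeasurableSpace G] [Group G']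
  [TopologicalSpace G'] [MeasurableSpace G'] [NormedAddCommGroup K] [InnerProductSpace ℂ K]
  [CompleteSpace K] {μ : Measure G} {μ' : Measure G'} {W : Set (K →L[ℂ] K)}

/-- the action `σ` of the source on operators -/
noncomputable abbrev sg (C : Cpl μ μ' W) (g : G) (x : K →L[ℂ] K) : K →L[ℂ] K :=
  C.s.π g * x * C.s.π g⁻¹

/-- **A bimodule** over `M = C.t.M`: a closed subspace of `ℓ²(I; K)` with the diagonal left action,
a bounded involution `J` (the right action is `J l(y*) J`) and a uniformly bounded action of `G`. -/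
structure Bim (C : Cpl μ μ' W) (c : ℝ) where
  /-- the space -/
  X : Type
  [i₁ : NormedAddCommGroup X]
  [i₂ : InnerProductSpace ℂ X]
  [i₃ : CompleteSpace X]
  /-- the index set -/
  I : Type
  [i₄ : Countable I]
  /-- the coordinates -/
  co : I → X →L[ℂ] K
  /-- the left action -/
  l : (K →L[ℂ] K) → X →L[ℂ] X
  /-- the involution -/
  J : X →L⋆[ℂ] X
  /-- the action of the source -/
  σ : G →* (X →L[ℂ] X)
  one_le : 1 ≤ c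
  nrm : ∀ ξ, HasSum (fun i => ‖co i ξ‖ ^ 2) (‖ξ‖ ^ 2)
  co_l : ∀ x, C.t.M x → ∀ i ξ, co i (l x ξ) = x (co i ξ)
  JJ : ∀ ξ, J (J ξ) = ξ
  nJ : ∀ ξ, ‖J ξ‖ ≤ c * ‖ξ‖
  lr : ∀ x y, C.t.M x → C.t.M y → ∀ ξ, l x (J (l y (J ξ))) = J (l y (J (l x ξ)))
  nσ : ∀ g ξ, ‖σ g ξ‖ ≤ c * ‖ξ‖
  cσ : ∀ ξ, Continuous fun g => σ g ξ
  σl : ∀ g x, C.t.M x → ∀ ξ, σ g (l x ξ) = l (sg C g x) (σ g ξ)
  σJ : ∀ g ξ, σ g (J ξ) = J (σ g ξ)

attribute [instance] Bim.i₁ Bim.i₂ Bim.i₃ Bim.i₄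

/-- the left density of `ξ` is at most `a²`: `‖x ξ‖² ≤ τ (x a² x*)` -/
def Bim.Dom {C : Cpl μ μ' W} {c : ℝ} (B : Bim C c) (ξ : B.X) (a : K →L[ℂ] K) : Prop :=
  ∀ x, C.t.M x → ‖B.l x ξ‖ ≤ ‖a (adjoint x C.t.Ω)‖

/-- the vector `(∫ σ_{γ q} a dp) Ω` -/
noncomputable def av (C : Cpl μ μ' W) {P : Type} [MeasurableSpace P] (p : Measure P) (γ : P → G)
    (a : K →L[ℂ] K) : K := ∫ q, sg C (γ q) a C.t.Ω ∂p

/-- **the singular piece** (three lines) -/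
def SING (C : Cpl μ μ' W) : Prop :=
  ∀ c : ℝ, ∃ c' : ℝ, 0 ≤ c' ∧ ∀ (B : Bim C c) (P : Type) [MeasurableSpace P] (p : Measure P)
    [IsProbabilityMeasure p] (γ : P → G) (z : P → B.X) (a b : K →L[ℂ] K), Measurable γ →
    AEStronglyMeasurable z p → C.t.M a → C.t.M b → 0 ≤ a → 0 ≤ b → (∀ q, B.Dom (z q) a) →
    (∀ q, B.Dom (B.J (z q)) b) →
    ‖∫ q, B.σ (γ q) (z q) ∂p‖ ^ 2 ≤ c' * (‖av C p γ a‖ * ‖av C p γ b‖)

variable {n : ℕ} {ρ : G →* SLn n} {w : Fin n → ℝ}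

/-- a left `K`-invariant bump function -/
structure Bump (μ : Measure G) (h : R1 ρ w) (φ : G → ℝ) (r₀ : ℝ) : Prop where
  cont : Continuous φ
  nonneg : ∀ g, 0 ≤ φ g
  supp : ∀ g, r₀ < h.rr g → φ g = 0
  int : ∫ g, φ g ∂μ = 1
  inv : ∀ κ ∈ h.K, ∀ g, φ (κ * g) = φ g

/-- **asymptotically unitary cocycles are contracted** by `m` -/
def COC (h : R1 ρ w) (m : Measure G) (δ : ℝ) : Prop :=
  ∀ (X : ℕ → Type) [∀ k, NormedAddCommGroup (X k)] [∀ k, InnerProductSpace ℂ (X k)]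
    [∀ k, CompleteSpace (X k)] (b : ∀ k, G → X k) (M : ℝ) (ω : G → ℝ),
    (∀ k g, ‖b k g‖ ≤ M * (1 + h.rr g)) → Tendsto ω (𝓝 1) (𝓝 0) →
    (∀ k g u, ‖b k (g * u) - b k g‖ ≤ ω u) → (∀ k, ∀ κ ∈ h.K, b k κ = 0) →
    (∀ g g', Tendsto (fun k => ‖b k g - b k g'‖ ^ 2 - ‖b k (g⁻¹ * g')‖ ^ 2) atTop (𝓝 0)) →
    ∀ x, ∀ ε > 0, ∀ᶠ k in atTop, ‖∫ g, (b k (x * g) - b k g) ∂m‖ ≤ δ * M + ε

/-- **the divergence identity** for `m * φ`, of cost `L`, carried by a measure whose gap on `L²(M)`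
beats the cost -/
def DIV (C : Cpl μ μ' W) (h : R1 ρ w) (φ : G → ℝ) (r₀ : ℝ) (m : Measure G) (δ : ℝ) : Prop :=
  ∀ x, h.rr x ≤ 1 → ∃ (P : Type) (_ : MeasurableSpace P) (p : Measure P) (γ : P → G)
    (ψ : P → G → ℝ) (L : ℝ), IsProbabilityMeasure p ∧ Measurable γ ∧
    Measurable (Function.uncurry ψ) ∧ 0 ≤ L ∧ (∀ q u, |ψ q u| ≤ L) ∧
    (∀ q u, r₀ < h.rr u → ψ q u = 0) ∧ (∀ q, ∫ u, ψ q u ∂μ = 0) ∧
    (∀ (X : Type) [NormedAddCommGroup X] [InnerProductSpace ℂ X] [CompleteSpace X] (f : G → X),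
      Continuous f → (∃ M, ∀ g, ‖f g‖ ≤ M) →
      ∫ g, ∫ u, φ u • (f (x * g * u) - f (g * u)) ∂μ ∂m =
        ∫ q, ∫ u, ψ q u • f (γ q * u) ∂μ ∂p) ∧
    ∀ a, C.t.M a → L * ‖av C p γ a - C.t.τ a • C.t.Ω‖ ≤ δ * ‖a C.t.Ω‖

/-- **the contracting measures** -/
def GAPM (C : Cpl μ μ' W) (h : R1 ρ w) : Prop :=
  ∃ φ r₀, Bump μ h φ r₀ ∧ ∀ δ > 0, ∃ m : Measure G, IsProbabilityMeasure m ∧ Integrable h.rr m ∧
    (∀ κ ∈ h.K, m.map (fun g => κ * g) = m) ∧ COC h m δ ∧ DIV C h φ r₀ m δ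

/-- the averaged position calculus `E_ν f = ∫ σ_g (m f) dν`, applied to a vector -/
noncomputable def Ev (C : Cpl μ μ' W) (ν : Measure G) (f : G' → ℂ) (ξ : K) : K :=
  ∫ g, sg C g (C.t.m f) ξ ∂ν

/-- **the output of A1-A3**: averages of bounded energy which stay close to the position -/
def UB (C : Cpl μ μ' W) (h : R1 ρ w) (r : G' → ℝ) : Prop :=
  ∀ (c : ℝ) (D : ℝ → ℝ), Monotone D → ∃ C₀ : ℝ, 0 ≤ C₀ ∧ ∀ ε > 0, ∃ C₁ : ℝ, ∀ (Λ : ℝ)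
    (O : Orb r c D Λ), ∃ ν : Measure G, IsProbabilityMeasure ν ∧
    (∀ κ ∈ h.K, ν.map (fun g => κ * g) = ν) ∧
    (∀ x, HSle (fun v => C.s.π x (Ev C ν (O.co v) (C.s.π x⁻¹ C.t.Ω)) - Ev C ν (O.co v) C.t.Ω)
      (C₀ * (1 + h.rr x))) ∧
    HSle (fun v => Ev C ν (O.co v) C.t.Ω - C.t.m (O.co v) C.t.Ω) (ε * Λ + C₁)

end Vale.Agent.P092UB
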