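import Vale.Agent.P092UB.Pcs

/-!
P092, rank one, block A (helper90): the contraction (A2) and its iteration (A3).
-/

set_option linter.unusedSectionVars false

open scoped InnerProductSpace ENNReal NNReal Pointwise
open MeasureTheory Filter Topology ContinuousLinearMap

namespace Vale.Agent.P092UB

open Vale.Agent.P092CP Vale.Agent.P092RG Vale.Agent.P092RK
open Vale.Agent.P092.H793.Re (SLn)

variable {G G' K : Type} [Group G] [TopologicalSpace G] [IsTopologicalGroup G]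
  [LocallyCompactSpace G] [SecondCountableTopology G] [T2Space G] [MeasurableSpace G] [BorelSpace G]
  [Group G'] [TopologicalSpace G'] [IsTopologicalGroup G'] [LocallyCompactSpace G']
  [SecondCountableTopology G'] [T2Space G'] [MeasurableSpace G'] [BorelSpace G']
  [NormedAddCommGroup K] [InnerProductSpace ℂ K] [CompleteSpace K] {μ : Measure G}
  [μ.IsHaarMeasure] {μ' : Measure G'} [μ'.IsHaarMeasure] {W : Set (K →L[ℂ] K)}
  {C : Cpl μ μ' W} {c : ℝ} {n : ℕ} {ρ : G →* SLn n} {w : Fin n → ℝ} {h : R1 ρ w}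
  {φ : G → ℝ} {L r₀ e δ : ℝ} {m : Measure G} {k : ℝ → ℝ}

/-- the measure of density `φ` -/
noncomputable def pm (μ : Measure G) (φ : G → ℝ) : Measure G :=
  μ.withDensity fun v => ENNReal.ofReal (φ v)

theorem Bump.prob (hφ : Bump μ h φ r₀) : IsProbabilityMeasure (pm μ φ) := ⟨by
  obtain ⟨L, hL⟩ := hφ.tb
  rw [pm, withDensity_apply _ MeasurableSet.univ, Measure.restrict_univ,
    ← ofReal_integral_eq_lintegral_ofReal hL.int' (Eventually.of_forall hφ.nonneg), hφ.int,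
    ENNReal.ofReal_one]⟩

section one

variable {B : Bim C c} {η : B.X} {V : Set B.X} {Nn : Set G → ℝ → ℝ}

theorem Zf_pm (hφ : Bump μ h φ r₀) : Zf B η φ = ∫ v, B.σ v η ∂pm μ φ := by
  rw [pm, integral_withDensity_eq_integral_toReal_smul hφ.cont.measurable.ennreal_ofReal
    (Eventually.of_forall fun _ => ENNReal.ofReal_lt_top)]
  simp only [ENNReal.toReal_ofReal (hφ.nonneg _), Zf]

theorem Vs.int (hV : Vs B Nn V) (hη : η ∈ V) (ν : Measure G) [IsProbabilityMeasure ν] :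
    ∫ g, B.σ g η ∂ν ∈ V :=
  hV.convex.integral_mem hV.closed (Eventually.of_forall fun g => hV.σ g η hη) (int_σ' B η)

theorem σ_int (ν : Measure G) [IsFiniteMeasure ν] (x : G) :
    B.σ x (∫ g, B.σ g η ∂ν) = ∫ g, B.σ (x * g) η ∂ν := by
  simp only [← integral_comp_comm _ (int_σ' B η), σ_σ]

theorem int_conv (ν ν' : Measure G) [IsProbabilityMeasure ν] [IsProbabilityMeasure ν'] :
    ∫ g, B.σ g η ∂(ν ∗ₘ ν') = ∫ g, B.σ g (∫ g', B.σ g' η ∂ν') ∂ν := by
  simp only [integral_mconv (int_σ' B η), σ_int]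

theorem TT_eq [IsFiniteMeasure m] (x : G) :
    TT B φ m η x = B.σ x (∫ g, B.σ g (Zf B η φ) ∂m) - ∫ g, B.σ g (Zf B η φ) ∂m := by
  rw [σ_int, ← integral_sub (int_σ B x _) (int_σ' B _)]
  simp only [TT, bb, sub_sub_sub_cancel_right]

theorem Zf_smul (s : ℝ) : Zf B (s • η) φ = s • Zf B η φ := by
  simp only [Zf, map_smul_of_tower, smul_comm _ s, integral_smul]

theorem TT_smul (s : ℝ) (x : G) : TT B φ m (s • η) x = s • TT B φ m η x := by
  simp only [TT, bb, Zf_smul, map_smul_of_tower, ← smul_sub, integral_smul]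

theorem bb_two (hφ : Bump μ h φ r₀) (hη : En h B η e) {x y : G} (hx : h.rr x ≤ 1)
    (hy : h.rr y ≤ 1) (g : G) :
    ‖bb B φ η (x * g) - bb B φ η (y * g)‖ ≤ e * (4 * c * (1 + r₀) * (2 + h.rr g)) := by
  have h0 : 0 ≤ 2 * c * e * (1 + r₀) :=
    mul_nonneg (mul_nonneg (by linarith [b_c B]) hη.nonneg) (by linarith [hφ.r_nonneg])
  refine (norm_sub_le _ _).trans ((add_le_add (bb_grow hφ hη _) (bb_grow hφ hη _)).trans ?_)
  nlinarith [mul_le_mul_of_nonneg_left (show (1 + h.rr (x * g)) + (1 + h.rr (y * g)) ≤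
    2 * (2 + h.rr g) by linarith [h.rr_mul_le x g, h.rr_mul_le y g]) h0]

theorem TT_le [IsFiniteMeasure m] (hφ : Bump μ h φ r₀) (hm : Integrable h.rr m)
    (hη : En h B η e) {x : G} (hx : h.rr x ≤ 1) :
    ‖TT B φ m η x‖ ≤ e * ∫ g, 4 * c * (1 + r₀) * (2 + h.rr g) ∂m := by
  rw [← integral_const_mul]
  refine norm_integral_le_of_norm_le ((((integrable_const _).add hm).const_mul _).const_mul _)
    (Eventually.of_forall fun g => ?_)
  simpa using bb_two hφ hη hx (y := 1) (by rw [h.rr_one]; exact zero_le_one) g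

theorem split {E F : K →L[ℂ] K} (hE : C.t.M E) (hF : C.t.M F) (T : B.X) :
    T = B.l 1 (rt B (1 - F) T) + B.J (B.l F (rt B (1 - E) (B.J T))) + B.l E (rt B F T) := by
  rw [J_lrt hF (C.t.M_one.sub hE), B.JJ, b_one, b_sub B C.t.M_one hE, b_one, rt_apply B T,
    b_sub B C.t.M_one hF, b_one, map_sub, B.JJ, ← rt_apply]
  abel

end one

theorem core [IsFiniteMeasure m] {c' : ℝ} (hc' : 0 ≤ c') (hS : ∀ (B : Bim C c) (P : Type)
      [MeasurableSpace P] (p : Measure P) [IsProbabilityMeasure p] (γ : P → G) (z : P → B.X)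
      (a b : K →L[ℂ] K), Measurable γ → AEStronglyMeasurable z p → C.t.M a → C.t.M b → 0 ≤ a →
      0 ≤ b → (∀ q, B.Dom (z q) a) → (∀ q, B.Dom (B.J (z q)) b) →
      ‖∫ q, B.σ (γ q) (z q) ∂p‖ ^ 2 ≤ c' * (‖av C p γ a‖ * ‖av C p γ b‖))
    (hφ : Bump μ h φ r₀) (hi : Integrable h.rr m) (hm : COC h m δ) (hm' : DIV C h φ r₀ m δ)
    (hδ : 0 ≤ δ) {B : ℕ → Bim C c} {η : ∀ j, (B j).X} {lev : ℕ → ℕ} {a b E F : ℕ → K →L[ℂ] K}
    {V : ∀ j, Set (B j).X} {Nn : ℕ → Set G → ℝ → ℝ} (hl : Tendsto lev atTop atTop)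
    (hE : ∀ j, Lv h (B j) k (lev j) (η j) (a j) (E j))
    (hF : ∀ j, Lv h (B j) k (lev j) ((B j).J (η j)) (b j) (F j))
    (hV : ∀ j, Vs (B j) (Nn j) (V j))
    (hs : ∀ j, Nn j {g | h.rr g ≤ lev j} (eps (lev j)) ≤ 1 / lev j)
    (hb : ∀ j g, bb (B j) φ (η j) g ∈ V j) {x : ℕ → G} {x₀ : G} (hx : ∀ j, h.rr (x j) ≤ 1)
    (h0 : h.rr x₀ ≤ 1) (hx' : Tendsto x atTop (𝓝 x₀)) {ε : ℝ} (hε : 0 < ε) : ∀ᶠ j in atTop,
      ‖TT (B j) φ m (η j) (x j)‖ ≤
        δ * ((1 + c) * (2 * c ^ 4 * (1 + r₀)) + √c' * c ^ 4 * k r₀) + (3 + c) * ε := by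
  obtain ⟨L, hL⟩ := hφ.tb
  have h1 := normal_piece hφ hm hl (fun j => (hE j).en) hF (x := fun _ => 1)
    (fun _ => C.t.M_one) (fun _ => norm_id_le) (fun j => ai_one (hE j).k0 (Real.sqrt_nonneg _))
    hV hs hb x₀ hε
  have h2 := normal_piece hφ hm hl (fun j => (hF j).en)
    (fun j => by rw [(B j).JJ]; exact hE j) (fun j => (hF j).cut.mem) (fun j => (hF j).cut.nE)
    (fun j => (hF j).ai) hV hs (fun j g => by rw [← bb_J hL]; exact (hV j).J _ (hb j g)) x₀ hε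
  have h3 := sing_piece hc' hS hφ hm' hδ hl hE hF h0 hε
  have h4 := tendsto_integral_filter_of_dominated_convergence (μ := m) (l := atTop)
    (F := fun j g => ‖bb (B j) φ (η j) (x j * g) - bb (B j) φ (η j) (x₀ * g)‖) (f := fun _ => 0)
    (fun g => c * (4 * c * (1 + r₀) * (2 + h.rr g)))
    (Eventually.of_forall fun j => (((bb_cont (B j)).comp (continuous_const_mul _)).sub
      ((bb_cont (B j)).comp (continuous_const_mul _))).norm.aestronglyMeasurable)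
    (Eventually.of_forall fun j => Eventually.of_forall fun g => by
      rw [norm_norm]; exact bb_two hφ (hE j).en (hx j) h0 g)
    ((((integrable_const _).add hi).const_mul _).const_mul _) (Eventually.of_forall fun g => ?_)
  · rw [integral_zero] at h4
    filter_upwards [h1, h2, h3, h4.eventually (gt_mem_nhds hε)] with j k1 k2 k3 k4
    have k5 : ‖TT (B j) φ m (η j) (x j) - TT (B j) φ m (η j) x₀‖ ≤ ε := by
      rw [TT, TT, ← integral_sub (int_bb _ _) (int_bb _ _)]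
      simp only [sub_sub_sub_cancel_right]
      exact (norm_integral_le_integral_norm _).trans k4.le
    have k6 := (((B j).nJ _).trans (mul_le_mul_of_nonneg_left k2 (b_c (B j))))
    rw [← TT_J hL] at k6
    have k7 := (congrArg norm (split (hE j).cut.mem (hF j).cut.mem _)).trans_le
      (norm_add₃_le.trans (add_le_add (add_le_add k1 k6) k3))
    linarith [norm_le_norm_add_norm_sub' (TT (B j) φ m (η j) (x j)) (TT (B j) φ m (η j) x₀)]
  · refine squeeze_zero (fun _ => norm_nonneg _)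
      (g := fun j => c * (c * c * om μ h φ ((x₀ * g)⁻¹ * (x j * g)))) (fun j => ?_) ?_
    · have k1 := bb_coc (B j) (φ := φ) (η := η j) (x₀ * g) ((x₀ * g)⁻¹ * (x j * g))
      rw [mul_inv_cancel_left] at k1
      rw [k1]
      exact ((B j).nσ _ _).trans (mul_le_mul_of_nonneg_left (bb_mod hφ (hE j).en _) (b_c (B j)))
    · have k1 := (hx'.mul_const g).const_mul (x₀ * g)⁻¹
      rw [inv_mul_cancel] at k1
      simpa using (((om_lim hφ).comp k1).const_mul (c * c)).const_mul c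

/-- **the contraction** (A2) -/
theorem contr (hS : SING C) (hG : GAPM C h) (c : ℝ) (N : Set G → ℝ → ℝ) :
    ∃ (ν : Measure G) (C₀ C₁ : ℝ), IsProbabilityMeasure ν ∧
      (∀ κ ∈ h.K, ν.map (fun g => κ * g) = ν) ∧ 0 ≤ C₀ ∧ 0 ≤ C₁ ∧
      ∀ (B : Bim C c) (V : Set B.X) (η : B.X) (e : ℝ), Vs B N V → η ∈ V → En h B η e →
        En h B (∫ g, B.σ g η ∂ν) (e / 2 + C₀) ∧ ‖∫ g, B.σ g η ∂ν - η‖ ≤ C₁ * e := by
  obtain ⟨φ, r₀, hφ, hG⟩ := hG
  obtain ⟨c', hc', hS⟩ := hS c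
  obtain ⟨ω, k, hω⟩ := exists_wt h μ
  set A := (1 + c) * (2 * c ^ 4 * (1 + r₀)) + √c' * c ^ 4 * k r₀ with hA
  obtain ⟨m, _, hi, hK, hm, hm'⟩ := hG (1 / (4 * (|A| + 1))) (by positivity)
  have := hφ.prob
  obtain ⟨L, hL⟩ := hφ.tb
  have key : ∃ C₀, 0 ≤ C₀ ∧ ∀ (B : Bim C c) (V : Set B.X) (η : B.X) (e : ℝ), Vs B N V → η ∈ V →
      En h B η e → ∀ x, h.rr x ≤ 1 → ‖TT B φ m η x‖ ≤ e / 2 + C₀ := by
    by_contra hc
    push Not at hc
    set M := ∫ g, 4 * c * (1 + r₀) * (2 + h.rr g) ∂m with hM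
    choose B V η e hV hη he x hx hlt using fun j : ℕ => hc ((|M| + 1) *
      (1 + 4 * j * |N {g | h.rr g ≤ j} (eps j)|)) (by positivity)
    have h1 : ∀ j : ℕ, 1 + 4 * j * |N {g | h.rr g ≤ j} (eps j)| ≤ e j := fun j => by
      refine le_of_mul_le_mul_left ?_ (show 0 < |M| + 1 by positivity)
      nlinarith [(hlt j).trans_le (TT_le hφ hi (he j) (hx j)), (he j).nonneg,
        mul_le_mul_of_nonneg_left (le_abs_self M) (he j).nonneg]
    have h2 : ∀ j, 1 ≤ e j := fun j => le_trans (le_add_of_nonneg_right (by positivity)) (h1 j)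
    have h3 : ∀ j, 0 < (e j)⁻¹ := fun j => inv_pos.2 (one_pos.trans_le (h2 j))
    have h4 : ∀ j, En h (B j) ((e j)⁻¹ • η j) 1 := fun j g hg => by
      rw [map_smul_of_tower, ← smul_sub, norm_smul, Real.norm_of_nonneg (h3 j).le]
      exact inv_mul_le_one_of_le₀ (he j g hg) (he j).nonneg
    have h5 : ∀ j, 1 ≤ j → ∀ ξ ∈ (e j)⁻¹ • V j, En h (B j) ξ c →
        ∃ a E, Lv h (B j) k j ξ a E := fun j hj ξ hξ hξ' => by
      obtain ⟨Λ, h6, h7⟩ := ((hV j).smul (h3 j)).lb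
      exact exists_lv hω hξ' h6 (fun g => h7 _ (((hV j).smul (h3 j)).σ g ξ hξ)) hj
    obtain ⟨x₀, h6, ψ, hψ, h7⟩ := (h.isCompact_ball 1).tendsto_subseq fun j => hx (j + 1)
    choose a E hE using fun i => h5 (ψ i + 1) le_add_self _ (Set.smul_mem_smul_set (hη _))
      ((h4 _).mono (B 0).one_le)
    choose b F hF using fun i => h5 (ψ i + 1) le_add_self _
      (((hV _).smul (h3 _)).J _ (Set.smul_mem_smul_set (hη _))) (by simpa using (h4 (ψ i + 1)).J)
    have hc := b_c (B 0)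
    have hco := (core hc' hS hφ hi hm hm' (by positivity)
      ((tendsto_add_atTop_nat 1).comp hψ.tendsto_atTop) hE hF
      (fun i => (hV (ψ i + 1)).smul (mul_pos two_pos (h3 (ψ i + 1)))) (fun i => ?_) (fun i g => ?_)
      (fun i => hx _) h6 h7 (ε := 1 / (4 * (3 + c))) (by positivity)).exists
    · obtain ⟨i, hi⟩ := hco
      have h8 := hlt (ψ i + 1)
      have h9 : 1 / (4 * (|A| + 1)) * A ≤ 1 / 4 := by
        rw [div_mul_eq_mul_div, div_le_div_iff₀ (by positivity) (by norm_num)]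
        linarith [le_abs_self A]
      have h10 : (3 + c) * (1 / (4 * (3 + c))) = 1 / 4 := by field_simp
      rw [TT_smul, norm_smul, Real.norm_of_nonneg (h3 _).le, ← hA, h10,
        inv_mul_le_iff₀ (one_pos.trans_le (h2 _))] at hi
      have h11 : 0 ≤ (|M| + 1) * (1 + 4 * ((ψ i + 1 : ℕ) : ℝ) *
        |N {g | h.rr g ≤ (ψ i + 1 : ℕ)} (eps (ψ i + 1))|) := by positivity
      nlinarith [(he (ψ i + 1)).nonneg]
    · have h8 := h1 (ψ i + 1)
      have h9 := h2 (ψ i + 1)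
      simp only [Function.comp]
      rw [le_div_iff₀ (by positivity), mul_pow, inv_pow, mul_comm (2 ^ 2 : ℝ), mul_assoc, mul_assoc,
        inv_mul_le_iff₀ (by positivity)]
      nlinarith [mul_le_mul_of_nonneg_left (le_abs_self (N {g | h.rr g ≤ (ψ i + 1 : ℕ)}
        (eps (ψ i + 1)))) (Nat.cast_nonneg (α := ℝ) (ψ i + 1))]
    · have h8 : Zf (B _) (η (ψ i + 1)) φ ∈ V _ := by
        rw [Zf_pm hφ]; exact (hV _).int (hη _) _
      rw [bb, Zf_smul, map_smul_of_tower]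
      exact (hV _).sub ((hV _).σ g _ h8) h8 _
  obtain ⟨C₀, h0, key⟩ := key
  have r0 := hφ.r_nonneg
  have i1 : Integrable (fun g => 1 + h.rr g) m := (integrable_const _).add hi
  refine ⟨m ∗ₘ pm μ φ, C₀, |c| * (1 + r₀) * (2 * ∫ g, 1 + h.rr g ∂m + 1),
    inferInstance, fun κ hκ => ?_, h0, ?_, fun B V η e hV hη he => ⟨fun x hx => ?_, ?_⟩⟩
  · rw [← Measure.dirac_mconv, ← Measure.mconv_assoc, Measure.dirac_mconv, hK κ hκ]
  · have : 0 ≤ ∫ g, 1 + h.rr g ∂m := integral_nonneg fun g => add_nonneg zero_le_one (h.rr_nonneg g)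
    positivity
  · rw [int_conv, ← Zf_pm hφ, ← TT_eq]
    exact key B V η e hV hη he x hx
  · have h1 : ‖∫ g, bb B φ η g ∂m‖ ≤ 2 * c * e * (1 + r₀) * ∫ g, 1 + h.rr g ∂m := by
      rw [← integral_const_mul]
      exact norm_integral_le_of_norm_le (i1.const_mul _) (Eventually.of_forall (bb_grow hφ he))
    have h2 : ‖∫ v, φ v • (B.σ v η - η) ∂μ‖ ≤ c * e * (1 + r₀) := by
      refine (norm_integral_le_of_norm_le (hL.int'.mul_const (c * e * (1 + r₀)))
        (Eventually.of_forall fun v => ?_)).trans_eq (by rw [integral_mul_const, hφ.int, one_mul])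
      rcases lt_or_ge r₀ (h.rr v) with h2 | h2
      · simp [hφ.supp v h2]
      rw [norm_smul, Real.norm_of_nonneg (hφ.nonneg v)]
      exact mul_le_mul_of_nonneg_left ((he.grow v).trans (mul_le_mul_of_nonneg_left
        (add_le_add le_rfl h2) (mul_nonneg (b_c B) he.nonneg))) (hφ.nonneg v)
    simp only [smul_sub] at h2
    rw [integral_sub (hL.int (B.cσ η)) (hL.int continuous_const), integral_smul_const, hφ.int,
      one_smul] at h2
    simp only [bb] at h1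
    rw [integral_sub (int_σ' B _) (integrable_const _), integral_const, probReal_univ,
      one_smul] at h1
    rw [int_conv, ← Zf_pm hφ, abs_of_nonneg (b_c B), ← sub_add_sub_cancel _ (Zf B η φ)]
    exact (norm_add_le _ _).trans ((add_le_add h1 h2).trans_eq (by ring))

/-- **the iteration** (A3) -/
theorem iter (hS : SING C) (hG : GAPM C h) (c : ℝ) (N : Set G → ℝ → ℝ) :
    ∃ C₀ C₁ C₂ : ℝ, 0 ≤ C₀ ∧ 0 ≤ C₁ ∧ ∀ (B : Bim C c) (V : Set B.X) (ξ : B.X) (e : ℝ),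
      Vs B N V → ξ ∈ V → En h B ξ e → ∃ ν : Measure G, IsProbabilityMeasure ν ∧
      (∀ κ ∈ h.K, ν.map (fun g => κ * g) = ν) ∧ En h B (∫ g, B.σ g ξ ∂ν) C₀ ∧
      ‖∫ g, B.σ g ξ ∂ν - ξ‖ ≤ C₁ * e + C₂ := by
  obtain ⟨ν, C₀, C₁, _, hK, h0, h1, key⟩ := contr hS hG c N
  refine ⟨2 * C₀ + 1, C₁ * (2 + 4 * C₀), C₁ * (4 * C₀), by positivity, by positivity,
    fun B V ξ e hV hξ he => ?_⟩
  have e0 := he.nonneg
  have h2 : ∀ j : ℕ, ∃ ν' : Measure G, IsProbabilityMeasure ν' ∧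
      (∀ κ ∈ h.K, ν'.map (fun g => κ * g) = ν') ∧
      En h B (∫ g, B.σ g ξ ∂ν') (2 * C₀ + e / 2 ^ (j + 1)) ∧
      ‖∫ g, B.σ g ξ ∂ν' - ξ‖ ≤ C₁ * (2 * C₀ * j + 2 * e - e / 2 ^ j) := fun j => by
    induction j with
    | zero =>
      obtain ⟨h3, h4⟩ := key B V ξ e hV hξ he
      exact ⟨ν, inferInstance, hK, h3.mono (by norm_num; linarith), h4.trans_eq (by norm_num; ring_nf; simp)⟩
    | succ j ih =>
      obtain ⟨ν', _, -, h3, h4⟩ := ih
      obtain ⟨h5, h6⟩ := key B V _ _ hV (hV.int hξ ν') h3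
      refine ⟨ν ∗ₘ ν', inferInstance, fun κ hκ => ?_, ?_, ?_⟩
      · rw [← Measure.dirac_mconv, ← Measure.mconv_assoc, Measure.dirac_mconv, hK κ hκ]
      · rw [int_conv]
        exact h5.mono (le_of_eq (by ring))
      · rw [int_conv, ← sub_add_sub_cancel _ (∫ g, B.σ g ξ ∂ν')]
        exact (norm_add_le _ _).trans ((add_le_add h6 h4).trans_eq (by push_cast; ring))
  obtain ⟨ν', _, h3, h4, h5⟩ := h2 ⌈e⌉₊
  have h6 : e ≤ 2 ^ (⌈e⌉₊ + 1) := (Nat.le_ceil e).trans (by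
    exact_mod_cast (Nat.lt_two_pow_self.trans (Nat.pow_lt_pow_succ one_lt_two)).le)
  refine ⟨ν', inferInstance, h3, h4.mono (add_le_add le_rfl (div_le_one_of_le₀ h6 (by positivity))),
    h5.trans ?_⟩
  rw [mul_assoc C₁, ← mul_add]
  refine mul_le_mul_of_nonneg_left ?_ h1
  have h7 : 0 ≤ e / 2 ^ ⌈e⌉₊ := by positivity
  nlinarith [mul_le_mul_of_nonneg_left (Nat.ceil_lt_add_one e0).le h0]

theorem rl_Ev (ν : Measure G) [IsProbabilityMeasure ν] {r : G' → ℝ} {D : ℝ → ℝ} {Λ : ℝ}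
    (O : Orb r c D Λ) (ξ : K) : RL fun v => Ev C ν (O.co v) ξ := by
  obtain ⟨w, e, -⟩ := exists_hilbertBasis ℝ O.H
  have := countable_of_on e.orthonormal
  have h1 := (bb_mc C.t O.mF O.nF e).rl
  obtain ⟨s, hs⟩ := h1.bdd
  have h2 : ∀ (T : K →L[ℂ] K) g, ‖sg C g T ξ‖ ≤ ‖T‖ * ‖ξ‖ := fun T g =>
    le_of_opNorm_le _ (C.s.norm_conj_le g T) ξ
  have h3 : ∀ T : K →L[ℂ] K, Integrable (fun g => sg C g T ξ) ν := fun T =>
    Integrable.of_bound (C.s.cont_conj T ξ).aestronglyMeasurable _ (Eventually.of_forall (h2 T))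
  refine ⟨fun u v => ?_, fun a v => ?_, s * ‖ξ‖, fun v => ?_⟩
  · rw [Ev, Ev, Ev, ← integral_add (h3 _) (h3 _)]
    refine integral_congr_ae (Eventually.of_forall fun g => ?_)
    simp only [sg, show C.t.m (O.co (u + v)) = C.t.m (O.co u) + C.t.m (O.co v) from h1.add u v,
      mul_add, add_mul, add_apply]
  · rw [Ev, Ev, ← integral_smul]
    refine integral_congr_ae (Eventually.of_forall fun g => ?_)
    simp only [sg, show C.t.m (O.co (a • v)) = (a : ℂ) • C.t.m (O.co v) from h1.smul a v,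
      mul_smul_comm, smul_mul_assoc, smul_apply]
  · refine (norm_integral_le_of_norm_le_const (Eventually.of_forall (h2 _))).trans ?_
    rw [probReal_univ, mul_one, mul_right_comm]
    exact mul_le_mul_of_nonneg_right (hs v) (norm_nonneg _)

theorem hsle_of {B : Bim C c} {H : Type} [NormedAddCommGroup H] [InnerProductSpace ℝ H]
    [CompleteSpace H] (e : HilbertBasis B.I ℝ H) {T : H → K} (hT : RL T) {ζ : B.X}
    (h1 : ∀ i, B.co i ζ = T (e i)) {s : ℝ} (h2 : ‖ζ‖ ≤ s) : HSle T s := fun _ _ hv => by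
  refine (hs_on hT hv e).trans ?_
  simp only [hs, ← h1]
  rw [tsum_enorm_sq (B.nrm ζ).summable, (B.nrm ζ).tsum_eq, ← enorm_sq_eq, ← ofReal_norm]
  exact pow_le_pow_left' (ENNReal.ofReal_le_ofReal h2) 2

/-- **A1-A3** -/
theorem ub (hG : GAPM C h) {r : G' → ℝ} (hr : Measurable r) (hr' : ∀ R, μ' {x | r x ≤ R} ≠ ∞) :
    UB C h r := fun c D hD => by
  obtain ⟨N, hN⟩ := exists_model C hr hr' hD c
  obtain ⟨C₀, C₁, C₂, h0, h1, key⟩ := iter (singB C) hG (c ^ 2 + 1) N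
  refine ⟨(c ^ 2 + 1) * C₀, by positivity, fun ε hε => ?_⟩
  obtain ⟨C₃, hN⟩ := hN _ (h.isCompact_ball 1) (ε / (C₁ + 1)) (by positivity)
  refine ⟨C₁ * C₃ + C₂, fun Λ O => ?_⟩
  obtain ⟨B, V, ξ, e, hV, hξ, h2, h3⟩ := hN Λ O
  obtain ⟨ν, _, h4, h5, h6⟩ := key B V ξ _ hV hξ h3
  have h7 : ∀ x i, B.co i (B.σ x (∫ g, B.σ g ξ ∂ν)) =
      C.s.π x (Ev C ν (O.co (e i)) (C.s.π x⁻¹ C.t.Ω)) := fun x i => by
    rw [σ_int, ← integral_comp_comm _ (int_σ B x ξ), Ev, ← integral_comp_comm _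
      (Integrable.of_bound (C.s.cont_conj _ _).aestronglyMeasurable _ (Eventually.of_forall
        fun g => le_of_opNorm_le _ (C.s.norm_conj_le g _) _))]
    exact integral_congr_ae (Eventually.of_forall fun g =>
      (h2 _ i).trans (ap_eq (C.s.conj_conj x g _).symm _))
  have h8 : ∀ i, B.co i (∫ g, B.σ g ξ ∂ν) = Ev C ν (O.co (e i)) C.t.Ω := fun i => by
    simpa using h7 1 i
  have h9 : ∀ {T T' : O.H → K}, RL T → RL T' → RL fun v => T v - T' v := fun hT hT' => by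
    simpa only [sub_eq_add_neg, neg_smul, one_smul, Pi.add_def, Pi.neg_apply] using
      hT.add' (hT'.smul' (-1))
  refine ⟨ν, inferInstance, h4, fun x => hsle_of e (h9 ((rl_Ev ν O _).clm _) (rl_Ev ν O _))
    (fun i => by rw [map_sub, h7, h8]) (h5.grow x), hsle_of e (h9 (rl_Ev ν O _)
      ((bb_mc C.t O.mF O.nF e).rl.ap _)) (fun i => ?_) (h6.trans ?_)⟩
  · have h10 := h2 1 i
    simp only [map_one, one_apply_eq_self, sg, inv_one, one_mul, mul_one] at h10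
    rw [map_sub, h8, h10]
    rfl
  · have h10 : C₁ * (ε / (C₁ + 1)) ≤ ε := by
      rw [← mul_div_assoc, div_le_iff₀ (by positivity)]
      nlinarith
    nlinarith [mul_le_mul_of_nonneg_right h10 ((norm_nonneg _).trans (O.nF 1))]

end Vale.Agent.P092UB
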