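import Vale.Agent.P092UB.Vst
import Vale.Agent.P092RK.SingB

/-!
P092, rank one, block A (helper90): densities and almost invariant cutoffs in a bimodule.
-/

set_option linter.unusedSectionVars false

open scoped InnerProductSpace ENNReal NNReal Pointwise
open MeasureTheory Filter Topology ContinuousLinearMap

namespace Vale.Agent.P092UB

open Vale.Agent.P092CP Vale.Agent.P092RG Vale.Agent.P092RK
open Vale.Agent.P092.H793.Re (SLn)

variable {G G' K : Type} [Group G] [TopologicalSpace G] [IsTopologicalGroup G]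
  [LocallyCompactSpace G] [SecondCountableTopology G] [T2Space G] [MeasurableSpace G] [BorelSpace G]
  [Group G'] [TopologicalSpace G'] [IsTopologicalGroup G'] [LocallyCompactSpace G']
  [SecondCountableTopology G'] [T2Space G'] [MeasurableSpace G'] [BorelSpace G']
  [NormedAddCommGroup K] [InnerProductSpace ℂ K] [CompleteSpace K] {μ : Measure G}
  [μ.IsHaarMeasure] {μ' : Measure G'} [μ'.IsHaarMeasure] {W : Set (K →L[ℂ] K)}
  {C : Cpl μ μ' W} {c : ℝ} (B : Bim C c) {x y a E : K →L[ℂ] K}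

theorem b_re (ξ η : B.X) : HasSum (fun i => (⟪B.co i ξ, B.co i η⟫_ℂ).re) (⟪ξ, η⟫_ℂ).re := by
  have h := ((B.nrm (ξ + η)).sub (B.nrm (ξ - η))).div_const 4
  simp only [map_add, map_sub, norm_add_sq (𝕜 := ℂ), norm_sub_sq (𝕜 := ℂ),
    RCLike.re_to_complex,
    show ∀ a b t : ℝ, (a + 2 * t + b - (a - 2 * t + b)) / 4 = t from fun a b t => by ring] at h
  exact h

theorem b_add (hx : C.t.M x) (hy : C.t.M y) (ξ : B.X) : B.l (x + y) ξ = B.l x ξ + B.l y ξ :=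
  b_ext B fun i => by rw [map_add, B.co_l _ (hx.add hy), B.co_l _ hx, B.co_l _ hy, add_apply]

theorem b_sub (hx : C.t.M x) (hy : C.t.M y) (ξ : B.X) : B.l (x - y) ξ = B.l x ξ - B.l y ξ :=
  b_ext B fun i => by rw [map_sub, B.co_l _ (hx.sub hy), B.co_l _ hx, B.co_l _ hy, sub_apply]

theorem b_smul (z : ℂ) (hx : C.t.M x) (ξ : B.X) : B.l (z • x) ξ = z • B.l x ξ :=
  b_ext B fun i => by rw [map_smul, B.co_l _ (hx.smul z), B.co_l _ hx, smul_apply]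

theorem b_le (hx : C.t.M x) (nx : ‖x‖ ≤ 1) (ξ : B.X) : ‖B.l x ξ‖ ≤ ‖ξ‖ :=
  (b_norm B hx ξ).trans (mul_le_of_le_one_left (norm_nonneg _) nx)

theorem b_sq (hx : C.t.M x) (ξ : B.X) : (⟪ξ, B.l (adjoint x * x) ξ⟫_ℂ).re = ‖B.l x ξ‖ ^ 2 :=
  (b_re B _ _).unique (by
    simpa only [B.co_l _ ((C.M_adj hx).mul hx), B.co_l _ hx, mul_ap, adjoint_inner_right, re_self]
      using B.nrm (B.l x ξ))

theorem rt_le (hx : C.t.M x) (nx : ‖x‖ ≤ 1) (ξ : B.X) : ‖rt B x ξ‖ ≤ c ^ 2 * ‖ξ‖ := by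
  rw [rt_apply, sq, mul_assoc]
  exact (B.nJ _).trans (mul_le_mul_of_nonneg_left ((b_le B hx nx _).trans (B.nJ _)) (b_c B))

theorem l_rt (hx : C.t.M x) (hy : C.t.M y) (ξ : B.X) : B.l x (rt B y ξ) = rt B y (B.l x ξ) :=
  B.lr x y hx hy ξ

theorem σ_rt (g : G) (hx : C.t.M x) (ξ : B.X) : B.σ g (rt B x ξ) = rt B (sg C g x) (B.σ g ξ) := by
  rw [rt_apply, rt_apply, B.σJ, B.σl _ _ hx, B.σJ]

theorem σ_σ (g g' : G) (ξ : B.X) : B.σ g (B.σ g' ξ) = B.σ (g * g') ξ := by rw [map_mul]; rfl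

theorem J_smul (s : ℝ) (ξ : B.X) : B.J (s • ξ) = s • B.J ξ := by
  rw [← Complex.coe_smul, map_smulₛₗ, Complex.conj_ofReal, Complex.coe_smul]

theorem J_int {α : Type*} [MeasurableSpace α] {ν : Measure α} {f : α → B.X}
    (hf : Integrable f ν) : B.J (∫ v, f v ∂ν) = ∫ v, B.J (f v) ∂ν :=
  (integral_comp_commSL RCLike.conj_smul B.J hf).symm

theorem comm_le (hx : C.t.M x) (hy : C.t.M y) (nx : ‖x‖ ≤ 1) (ny : ‖y‖ ≤ 1) (g : G) (ζ : B.X) :
    ‖B.σ g (B.l x (rt B y ζ)) - B.l x (rt B y (B.σ g ζ))‖ ≤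
      c * ‖B.l (sg C g y) (B.σ g (B.J ζ)) - B.l y (B.σ g (B.J ζ))‖ +
      c ^ 2 * ‖B.l (sg C g x) (B.σ g ζ) - B.l x (B.σ g ζ)‖ := by
  have hx' := C.M_σ hx g
  have e1 : B.σ g (B.l x (rt B y ζ)) - B.l x (rt B y (B.σ g ζ)) =
      B.l (sg C g x) (B.J (B.l (sg C g y) (B.σ g (B.J ζ)) - B.l y (B.σ g (B.J ζ)))) +
      rt B y (B.l (sg C g x) (B.σ g ζ) - B.l x (B.σ g ζ)) := by
    rw [B.σl _ _ hx, σ_rt B g hy, map_sub, map_sub, map_sub, ← l_rt B hx' hy, ← l_rt B hx hy, B.σJ]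
    exact (sub_add_sub_cancel _ _ _).symm
  rw [e1]
  exact (norm_add_le _ _).trans (add_le_add
    ((b_le B hx' ((C.s.norm_conj_le g x).trans nx) _).trans (B.nJ _)) (rt_le B hy ny _))

/-- Radon-Nikodym in the bimodule -/
theorem exists_dens {α : Type*} [MeasurableSpace α] (ν : Measure α) [IsFiniteMeasure ν]
    {f : α → B.X} (hf : AEStronglyMeasurable f ν) {Λ : ℝ} (hΛ : 0 ≤ Λ)
    (hb : ∀ v x, C.t.M x → ‖B.l x (f v)‖ ≤ Λ * ‖x C.t.Ω‖) :
    ∃ a, C.t.M a ∧ 0 ≤ a ∧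
      ∀ x, C.t.M x → ‖a (adjoint x C.t.Ω)‖ ^ 2 = ∫ v, ‖B.l x (f v)‖ ^ 2 ∂ν := by
  have h1 : ∀ v, ‖f v‖ ≤ Λ := fun v => by
    simpa only [b_one, one_apply_eq_self, C.t.nΩ, mul_one] using hb v 1 C.t.M_one
  have h2 : ∀ x, C.t.M x → ∀ v, ‖(⟪f v, B.l x (f v)⟫_ℂ).re‖ ≤ Λ * (Λ * ‖x C.t.Ω‖) :=
    fun x hx v => (Complex.abs_re_le_norm _).trans ((norm_inner_le_norm _ _).trans
      (mul_le_mul (h1 v) (hb v x hx) (norm_nonneg _) hΛ))
  have h3 : ∀ x, C.t.M x → Integrable (fun v => (⟪f v, B.l x (f v)⟫_ℂ).re) ν := fun x hx =>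
    Integrable.of_bound (Complex.continuous_re.comp_aestronglyMeasurable
      (hf.inner ((B.l x).continuous.comp_aestronglyMeasurable hf))) _
      (Eventually.of_forall (h2 x hx))
  obtain ⟨a, h4, h5, h6⟩ := exists_rn C (φ := fun x => ∫ v, (⟪f v, B.l x (f v)⟫_ℂ).re ∂ν)
    (Λ := Λ ^ 2 * ν.real Set.univ) (N := Λ * Λ * ν.real Set.univ) (by positivity)
    (fun x y hx hy => by
      simp only [b_add B hx hy, inner_add_right, Complex.add_re]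
      exact integral_add (h3 x hx) (h3 y hy))
    (fun s x hx => by
      simp only [b_smul B _ hx, inner_smul_right, Complex.re_ofReal_mul]
      exact integral_const_mul _ _)
    (fun x hx => (norm_integral_le_of_norm_le_const (Eventually.of_forall (h2 x hx))).trans_eq
      (by ring))
    fun x hx => by
      simp only [b_sq B hx]
      refine ⟨integral_nonneg fun v => sq_nonneg _, (le_abs_self _).trans
        ((norm_integral_le_of_norm_le_const (μ := ν) (f := fun v => ‖B.l x (f v)‖ ^ 2)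
        (C := (Λ * ‖x C.t.Ω‖) ^ 2) (Eventually.of_forall fun v => ?_)).trans_eq (by ring))⟩
      rw [Real.norm_of_nonneg (sq_nonneg _)]
      exact pow_le_pow_left₀ (norm_nonneg _) (hb v x hx) 2
  exact ⟨a, h4, h5, fun x hx => by simpa only [b_sq B hx] using h6 x hx⟩

theorem sq_sub_le {E E' : K →L[ℂ] K} (hE : adjoint E = E) (hE' : adjoint E' = E')
    (h : ∀ ξ, ‖E ξ‖ ^ 2 ≤ (⟪ξ, E ξ⟫_ℂ).re) (h' : ∀ ξ, ‖E' ξ‖ ^ 2 ≤ (⟪ξ, E' ξ⟫_ℂ).re) (u : K) :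
    ‖(E' - E) u‖ ^ 2 ≤ (⟪u, (E * (1 - E')) u⟫_ℂ).re + (⟪u, (E' * (1 - E)) u⟫_ℂ).re := by
  have h1 : (⟪u, E (E' u)⟫_ℂ).re = (⟪E' u, E u⟫_ℂ).re := by
    rw [← adjoint_inner_left, hE, ← inner_conj_symm, Complex.conj_re]
  have h2 : (⟪u, E' (E u)⟫_ℂ).re = (⟪E' u, E u⟫_ℂ).re := by rw [← adjoint_inner_left, hE']
  simp only [mul_ap, sub_apply, one_apply_eq_self, map_sub, inner_sub_right, Complex.sub_re,
    norm_sub_sq (𝕜 := ℂ), RCLike.re_to_complex, h1, h2]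
  linarith [h u, h' u]

/-- the error of the cutoffs -/
noncomputable def th (c : ℝ) (n : ℕ) : ℝ := √((1 + c) * c ^ 4 * √(2 / n))

theorem th_lim (c : ℝ) : Tendsto (th c) atTop (𝓝 0) := by
  have h := ((tendsto_const_div_atTop_nhds_zero_nat (2 : ℝ)).sqrt.const_mul
    ((1 + c) * c ^ 4)).sqrt
  rw [Real.sqrt_zero, mul_zero, Real.sqrt_zero] at h
  exact h

/-- **the cutoffs are almost invariant** -/
theorem cut_ai {n : ℕ} (hE : Cut C a E n) (ha : ‖a C.t.Ω‖ ≤ c ^ 2) {κ : ℝ} (hκ : 0 ≤ κ) (g : G)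
    {ζ : B.X} (h1 : ∀ x, C.t.M x → ‖B.l x ζ‖ ≤ κ * ‖a (adjoint x C.t.Ω)‖)
    (h2 : ∀ x, C.t.M x → ‖B.l x (B.σ g ζ)‖ ≤ κ * ‖a (adjoint x C.t.Ω)‖) :
    ‖B.l (sg C g E) (B.σ g ζ) - B.l E (B.σ g ζ)‖ ≤ κ * th c n := by
  have hc := b_c B
  have m1 := C.t.M_one.sub hE.mem
  have k1 : ∀ g, C.t.M (sg C g E) ∧ adjoint (sg C g E) = sg C g E ∧
      ‖a (adjoint (sg C g E * (1 - E)) C.t.Ω)‖ ≤ c ^ 2 * √(2 / n) := fun g => by
    have e1 : adjoint (sg C g E) = sg C g E := by rw [C.s.conj_adj, hE.sa]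
    refine ⟨C.M_σ hE.mem g, e1, ?_⟩
    have h3 := hE.mid _ (C.M_σ hE.mem g) ((C.s.norm_conj_le g E).trans hE.nE)
      (C.norm_σ_Ω hE.mem g).le
    rw [← star_eq_adjoint, star_mul, star_sub, star_one, star_eq_adjoint, star_eq_adjoint, e1,
      hE.sa]
    refine abs_le_of_sq_le_sq' (h3.trans ?_) (by positivity) |>.2
    rw [mul_pow, Real.sq_sqrt (by positivity), mul_comm, mul_div_assoc]
    gcongr
  obtain ⟨m2, s2, n2⟩ := k1 g
  obtain ⟨m3, -, n3⟩ := k1 g⁻¹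
  have n0 : ‖B.σ g ζ‖ ≤ κ * c ^ 2 := by
    have := h2 1 C.t.M_one
    rw [b_one, adjoint_one, one_apply_eq_self] at this
    exact this.trans (mul_le_mul_of_nonneg_left ha hκ)
  have n4 := (h2 _ (m2.mul m1)).trans (mul_le_mul_of_nonneg_left n2 hκ)
  have n5 := (B.nσ g _).trans (mul_le_mul_of_nonneg_left
    ((h1 _ (m3.mul m1)).trans (mul_le_mul_of_nonneg_left n3 hκ)) hc)
  have e2 : sg C g (sg C g⁻¹ E * (1 - E)) = E * (1 - sg C g E) := by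
    simp only [sg]
    rw [C.s.conj_mul, C.s.conj_conj, mul_inv_cancel, inv_one, map_one, one_mul, mul_one, mul_sub,
      sub_mul, mul_one, pi_mul_inv]
  rw [B.σl _ _ (m3.mul m1), e2] at n5
  have m4 := hE.mem.mul (C.t.M_one.sub m2)
  have h3 := hasSum_le (fun i => by
    rw [B.co_l _ (m2.sub hE.mem), B.co_l _ m4, B.co_l _ (m2.mul m1)]
    refine sq_sub_le hE.sa s2 hE.sq (fun ξ => ?_) _
    rw [mul_ap, mul_ap, C.s.norm_π, ← adjoint_inner_left, C.s.adj]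
    exact hE.sq _) (B.nrm (B.l (sg C g E - E) (B.σ g ζ)))
    ((b_re B (B.σ g ζ) (B.l (E * (1 - sg C g E)) (B.σ g ζ))).add
      (b_re B (B.σ g ζ) (B.l (sg C g E * (1 - E)) (B.σ g ζ))))
  have h4 := (Complex.re_le_norm _).trans ((norm_inner_le_norm (𝕜 := ℂ) _ _).trans
    (mul_le_mul n0 n4 (norm_nonneg _) (by positivity)))
  have h5 := (Complex.re_le_norm _).trans ((norm_inner_le_norm (𝕜 := ℂ) _ _).trans
    (mul_le_mul n0 n5 (norm_nonneg _) (by positivity)))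
  rw [← b_sub B m2 hE.mem]
  unfold th
  refine abs_le_of_sq_le_sq' ?_ (mul_nonneg hκ (Real.sqrt_nonneg _)) |>.2
  rw [mul_pow κ, Real.sq_sqrt (by positivity)]
  linarith

theorem Vs.smul {B : Bim C c} {N : Set G → ℝ → ℝ} {V : Set B.X} (h : Vs B N V) {s : ℝ}
    (hs : 0 < s) : Vs B (fun L ε => s ^ 2 * N L ε) (s • V) where
  convex := h.convex.smul s
  closed := h.closed.smul₀ s
  σ := by
    rintro g _ ⟨ξ, hξ, rfl⟩
    exact ⟨_, h.σ g ξ hξ, ((B.σ g).map_smul_of_tower s ξ).symm⟩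
  l := by
    rintro x hx nx _ ⟨ξ, hξ, rfl⟩
    exact ⟨_, h.l x hx nx ξ hξ, ((B.l x).map_smul_of_tower s ξ).symm⟩
  J := by
    rintro _ ⟨ξ, hξ, rfl⟩
    exact ⟨_, h.J ξ hξ, (J_smul B s ξ).symm⟩
  lb := by
    obtain ⟨Λ, h0, h1⟩ := h.lb
    refine ⟨s * Λ, by positivity, ?_⟩
    rintro _ ⟨ξ, hξ, rfl⟩ x hx
    rw [map_smul_of_tower, norm_smul, Real.norm_of_nonneg hs.le, mul_assoc]
    exact mul_le_mul_of_nonneg_left (h1 ξ hξ x hx) hs.le
  nrm := by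
    rintro L hL ε hε g hg _ ⟨ξ, hξ, rfl⟩ l hl
    have h1 := h.nrm L hL ε hε g hg ξ hξ (l / s) fun y hy => by
      have h2 := hl y hy
      simp only [J_smul, map_smul_of_tower, norm_smul, Real.norm_of_nonneg hs.le] at h2
      rwa [div_mul_eq_mul_div, le_div_iff₀' hs]
    simp only [map_smul_of_tower, norm_smul, Real.norm_of_nonneg hs.le, mul_pow]
    rw [← mul_sub, abs_mul, abs_sq]
    refine (mul_le_mul_of_nonneg_left h1 (sq_nonneg s)).trans_eq ?_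
    field_simp

theorem Vs.sub {B : Bim C c} {N : Set G → ℝ → ℝ} {V : Set B.X} (h : Vs B N V) {ξ η : B.X}
    (hξ : ξ ∈ V) (hη : η ∈ V) (s : ℝ) : s • ξ - s • η ∈ (2 * s) • V := by
  have h1 := h.l _ (C.t.M_one.smul (-1)) (by rw [neg_one_smul, norm_neg]; exact norm_id_le) η hη
  rw [b_smul B _ C.t.M_one, b_one, neg_one_smul] at h1
  refine ⟨_, h.convex hξ h1 (a := 1 / 2) (b := 1 / 2) (by norm_num) (by norm_num) (by norm_num), ?_⟩
  simp only [smul_add, smul_smul, smul_neg]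
  rw [show 2 * s * (1 / 2) = s by ring, sub_eq_add_neg]

end Vale.Agent.P092UB
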