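import Vale.Agent.P092UB.Hs
import Mathlib.Analysis.InnerProductSpace.Rayleigh

/-!
P092, rank one, block A (helper90): functional calculus in the finite algebra: a Radon-Nikodym
theorem and the cutoffs.
-/

set_option linter.unusedSectionVars false

open scoped InnerProductSpace ENNReal NNReal
open MeasureTheory Filter Topology ContinuousLinearMap

namespace Vale.Agent.P092UB

open Vale.Agent.P092CP
open Vale.Agent.P092.H108 (exists_wot_limit nonneg_of_tendsto inner_nonneg_of_nonneg)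

section op

variable {K : Type} [NormedAddCommGroup K] [InnerProductSpace ℂ K] [CompleteSpace K]
  {a S T : K →L[ℂ] K} {f g : ℝ → ℝ}

theorem re_mono (h : S ≤ T) (ξ : K) : (⟪ξ, S ξ⟫_ℂ).re ≤ (⟪ξ, T ξ⟫_ℂ).re := by
  have h1 := inner_nonneg_of_nonneg (sub_nonneg.2 h) ξ
  rw [sub_apply, inner_sub_right, Complex.sub_re] at h1
  linarith

theorem re_self (ξ : K) : (⟪ξ, ξ⟫_ℂ).re = ‖ξ‖ ^ 2 := inner_self_eq_norm_sq (𝕜 := ℂ) ξ

theorem norm_le_of_quad (hT : IsSelfAdjoint T) {d : ℝ} (hd : 0 ≤ d)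
    (h : ∀ ξ, |(⟪ξ, T ξ⟫_ℂ).re| ≤ d * ‖ξ‖ ^ 2) : ‖T‖ ≤ d := by
  rw [T.norm_eq_iSup_rayleighQuotient hT.isSymmetric]
  refine ciSup_le fun ξ => ?_
  rw [rayleighQuotient, reApplyInnerSelf_apply, ← inner_re_symm, abs_div, abs_sq]
  exact div_le_of_le_mul₀ (sq_nonneg _) hd (h ξ)

theorem adj_cfc (f : ℝ → ℝ) (a : K →L[ℂ] K) : adjoint (cfc f a) = cfc f a :=
  (cfc_predicate f a : IsSelfAdjoint _).adjoint_eq

/-- the spectral measure of `a` at `ξ` -/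
noncomputable def sp (a : K →L[ℂ] K) (ξ : K) (f : ℝ → ℝ) : ℝ := (⟪ξ, cfc f a ξ⟫_ℂ).re

theorem sp_mono (ξ : K) (hf : Continuous f) (hg : Continuous g)
    (h : ∀ s ∈ spectrum ℝ a, f s ≤ g s) : sp a ξ f ≤ sp a ξ g := re_mono (cfc_mono h) ξ

theorem sp_add (ξ : K) (hf : Continuous f) (hg : Continuous g) :
    sp a ξ (fun s => f s + g s) = sp a ξ f + sp a ξ g := by
  rw [sp, cfc_add a f g, add_apply, inner_add_right, Complex.add_re, sp, sp]

theorem sp_mul (ξ : K) (c : ℝ) (hf : Continuous f) :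
    sp a ξ (fun s => c * f s) = c * sp a ξ f := by
  rw [sp, cfc_const_mul c f a, smul_apply, ← Complex.coe_smul, inner_smul_right,
    Complex.re_ofReal_mul, sp]

theorem sp_sum (ξ : K) (n : ℕ) {f : ℕ → ℝ → ℝ} (hf : ∀ j, Continuous (f j)) :
    sp a ξ (fun s => ∑ j ∈ Finset.range n, f j s) = ∑ j ∈ Finset.range n, sp a ξ (f j) := by
  induction n with
  | zero => simp [sp]
  | succ n ih =>
    simp only [Finset.sum_range_succ]
    rw [sp_add ξ (by fun_prop) (hf n), ih]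

theorem sp_inner (ξ : K) (hf : Continuous f) (hg : Continuous g) :
    (⟪cfc f a ξ, cfc g a ξ⟫_ℂ).re = sp a ξ fun s => f s * g s := by
  rw [sp, cfc_mul f g a, mul_ap, ← adjoint_inner_left (cfc f a), adj_cfc]

theorem sp_sq (ξ : K) (hf : Continuous f) : ‖cfc f a ξ‖ ^ 2 = sp a ξ fun s => f s ^ 2 := by
  rw [← re_self, sp_inner ξ hf hf]; simp only [sq]

theorem sp_one (ha : IsSelfAdjoint a) (ξ : K) : (sp a ξ fun _ => 1) = ‖ξ‖ ^ 2 := by
  rw [sp, cfc_const_one ℝ a]; exact re_self ξ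

theorem sp_id (ha : IsSelfAdjoint a) (ξ : K) : (sp a ξ fun s => s) = (⟪ξ, a ξ⟫_ℂ).re := by
  rw [sp, cfc_id' ℝ a]

theorem sp_id_sq (ha : IsSelfAdjoint a) (ξ : K) : (sp a ξ fun s => s ^ 2) = ‖a ξ‖ ^ 2 := by
  rw [← sp_sq ξ (f := fun s => s) continuous_id, cfc_id' ℝ a]

end op

variable {G G' K : Type} [Group G] [TopologicalSpace G] [IsTopologicalGroup G]
  [LocallyCompactSpace G] [SecondCountableTopology G] [T2Space G] [MeasurableSpace G] [BorelSpace G]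
  [Group G'] [TopologicalSpace G'] [IsTopologicalGroup G'] [LocallyCompactSpace G']
  [SecondCountableTopology G'] [T2Space G'] [MeasurableSpace G'] [BorelSpace G']
  [NormedAddCommGroup K] [InnerProductSpace ℂ K] [CompleteSpace K] {μ : Measure G}
  [μ.IsHaarMeasure] {μ' : Measure G'} [μ'.IsHaarMeasure] {W : Set (K →L[ℂ] K)}
  (C : Cpl μ μ' W) {a : K →L[ℂ] K}

/-- an upper bound can be tested on `M Ω` -/
theorem le_of_M (ha : C.t.M a) (hs : IsSelfAdjoint a) {Λ : ℝ}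
    (h : ∀ y, C.t.M y → (⟪y C.t.Ω, a (y C.t.Ω)⟫_ℂ).re ≤ Λ * ‖y C.t.Ω‖ ^ 2) (ξ : K) :
    (⟪ξ, a ξ⟫_ℂ).re ≤ Λ * ‖ξ‖ ^ 2 := by
  have c1 : Continuous fun s : ℝ => max (s - Λ) 0 := by fun_prop
  have c2 : Continuous fun s : ℝ => √(max (s - Λ) 0) := by fun_prop
  have h1 := h _ (ha.cfcR fun s => √(max (s - Λ) 0))
  have h2 : a (cfc (fun s => √(max (s - Λ) 0)) a C.t.Ω) =
      cfc (fun s => s * √(max (s - Λ) 0)) a C.t.Ω := by
    rw [cfc_mul (fun s => s) _ a, cfc_id' ℝ a, mul_ap]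
  rw [h2, sp_inner _ c2 (by fun_prop), sp_sq _ c2, ← sp_mul _ _ (by fun_prop)] at h1
  have h3 : ‖cfc (fun s => max (s - Λ) 0) a C.t.Ω‖ ^ 2 ≤ 0 := by
    have h4 := sp_add (a := a) C.t.Ω (f := fun s => max (s - Λ) 0 ^ 2)
      (g := fun s => Λ * √(max (s - Λ) 0) ^ 2) (by fun_prop) (by fun_prop)
    have h5 : (fun s => max (s - Λ) 0 ^ 2 + Λ * √(max (s - Λ) 0) ^ 2) =
        fun s => √(max (s - Λ) 0) * (s * √(max (s - Λ) 0)) := funext fun s => by
      rw [mul_left_comm, ← sq, Real.sq_sqrt (le_max_right _ _)]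
      rcases le_total (s - Λ) 0 with h | h
      · simp [max_eq_right h]
      · rw [max_eq_left h]; ring
    rw [sp_sq _ c1]
    rw [h5] at h4
    linarith
  have h4 := C.eq_zero_of_Ω (ha.cfcR _) (norm_eq_zero.1 (pow_eq_zero_iff two_ne_zero |>.1
    (le_antisymm h3 (sq_nonneg _))))
  have h5 := sp_mono (a := a) ξ (f := fun s => s) (g := fun s => Λ * 1 + max (s - Λ) 0)
    continuous_id (by fun_prop) fun s _ => by linarith [le_max_left (s - Λ) 0]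
  rw [sp_add ξ (by fun_prop) c1, sp_mul ξ _ continuous_const, sp_one hs, sp_id hs, sp, h4] at h5
  simpa using h5

theorem approx_rn {φ : (K →L[ℂ] K) → ℝ} {N : ℝ}
    (hadd : ∀ x y, C.t.M x → C.t.M y → φ (x + y) = φ x + φ y)
    (hsm : ∀ (c : ℝ) x, C.t.M x → φ ((c : ℂ) • x) = c * φ x)
    (hb : ∀ x, C.t.M x → |φ x| ≤ N * ‖x C.t.Ω‖) {ε : ℝ} (hε : 0 < ε) :
    ∃ h, C.t.M h ∧ IsSelfAdjoint h ∧ ∀ y, C.t.M y → IsSelfAdjoint y →
      |(⟪h C.t.Ω, y C.t.Ω⟫_ℂ).re - φ y| ≤ ε * ‖y C.t.Ω‖ := by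
  let q : (K →L[ℂ] K) → ℝ := fun x => ‖x C.t.Ω‖ ^ 2 - 2 * φ x
  let S : Set (K →L[ℂ] K) := {x | C.t.M x ∧ IsSelfAdjoint x}
  have hbd : BddBelow (q '' S) := ⟨-N ^ 2, by
    rintro _ ⟨x, hx, rfl⟩
    nlinarith [sq_nonneg (‖x C.t.Ω‖ - N), le_of_abs_le (hb x hx.1)]⟩
  obtain ⟨_, ⟨h, hh, rfl⟩, h1⟩ := exists_lt_of_csInf_lt (s := q '' S)
    ⟨_, 0, ⟨C.t.M_zero, .zero _⟩, rfl⟩ (lt_add_of_pos_right _ (pow_pos hε 2))
  refine ⟨h, hh.1, hh.2, fun y hy hy' => ?_⟩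
  have h2 : ∀ t : ℝ, 0 ≤ ‖y C.t.Ω‖ ^ 2 * (t * t) +
      2 * ((⟪h C.t.Ω, y C.t.Ω⟫_ℂ).re - φ y) * t + ε ^ 2 := fun t => by
    have h3 := csInf_le hbd ⟨h + (t : ℂ) • y, ⟨hh.1.add (hy.smul _), hh.2.add
      (IsSelfAdjoint.smul (by simp [IsSelfAdjoint]) hy')⟩, rfl⟩
    simp only [q] at h1 h3
    rw [hadd _ _ hh.1 (hy.smul _), hsm _ _ hy, add_apply, norm_add_sq (𝕜 := ℂ), smul_apply,
      inner_smul_right, norm_smul, Complex.norm_real, mul_pow, Real.norm_eq_abs, sq_abs] at h3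
    simp only [RCLike.re_to_complex, Complex.re_ofReal_mul] at h3
    nlinarith
  have h3 := discrim_le_zero h2
  rw [discrim] at h3
  exact abs_le_of_sq_le_sq (by nlinarith) (by positivity)

theorem clamp_rn {φ : (K →L[ℂ] K) → ℝ} {Λ ε : ℝ} (hΛ : 0 ≤ Λ) (hε : 0 ≤ ε)
    (hadd : ∀ x y, C.t.M x → C.t.M y → φ (x + y) = φ x + φ y)
    (hp : ∀ x, C.t.M x → 0 ≤ φ (adjoint x * x) ∧ φ (adjoint x * x) ≤ Λ * ‖x C.t.Ω‖ ^ 2)
    {h : K →L[ℂ] K} (hh : C.t.M h) (hs : IsSelfAdjoint h) (ha : ∀ y, C.t.M y → IsSelfAdjoint y →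
      |(⟪h C.t.Ω, y C.t.Ω⟫_ℂ).re - φ y| ≤ ε * ‖y C.t.Ω‖) :
    ‖h C.t.Ω - cfc (fun s => max 0 (min Λ s)) h C.t.Ω‖ ≤ ε := by
  have e1 : h C.t.Ω - cfc (fun s => max 0 (min Λ s)) h C.t.Ω =
      cfc (fun s => s - max 0 (min Λ s)) h C.t.Ω := by
    rw [cfc_sub (fun s => s) _ h, cfc_id' ℝ h, sub_apply]
  have h1 := le_of_abs_le (ha _ (hh.cfcR fun s => s - max 0 (min Λ s)) (cfc_predicate _ _))
  have h2 := (hp _ (hh.cfcR fun s => √(max (s - Λ) 0))).2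
  have h3 := (hp _ (hh.cfcR fun s => √(max (-s) 0))).1
  rw [adj_cfc, ← cfc_mul _ _ h] at h2 h3
  have h4 := hadd _ _ (hh.cfcR fun s => s - max 0 (min Λ s))
    (hh.cfcR fun s => √(max (-s) 0) * √(max (-s) 0))
  rw [← cfc_add h _ _] at h4
  have e2 : (fun s : ℝ => s - max 0 (min Λ s) + √(max (-s) 0) * √(max (-s) 0)) =
      fun s => √(max (s - Λ) 0) * √(max (s - Λ) 0) := funext fun s => by
    rw [Real.mul_self_sqrt (le_max_right _ _), Real.mul_self_sqrt (le_max_right _ _)]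
    simp only [max_def, min_def]
    split_ifs <;> linarith
  rw [e2] at h4
  rw [sp_sq _ (by fun_prop), ← sp_mul _ _ (by fun_prop)] at h2
  nth_rewrite 1 [← cfc_id' ℝ h] at h1
  rw [sp_inner _ (by fun_prop) (by fun_prop)] at h1
  have h5 := sp_add (a := h) C.t.Ω (f := fun s => (s - max 0 (min Λ s)) ^ 2)
    (g := fun s => Λ * √(max (s - Λ) 0) ^ 2) (by fun_prop) (by fun_prop)
  have e3 : (fun s : ℝ => (s - max 0 (min Λ s)) ^ 2 + Λ * √(max (s - Λ) 0) ^ 2) =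
      fun s => s * (s - max 0 (min Λ s)) := funext fun s => by
    rw [Real.sq_sqrt (le_max_right _ _)]
    rcases le_total s 0 with h | h
    · rw [min_eq_right (h.trans hΛ), max_eq_left h, max_eq_right (by linarith)]; ring
    rcases le_total s Λ with h' | h'
    · rw [min_eq_right h', max_eq_right h, max_eq_right (by linarith)]; ring
    · rw [min_eq_left h', max_eq_right hΛ, max_eq_left (by linarith)]; ring
  rw [e3, ← sp_sq _ (by fun_prop)] at h5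
  rw [e1]
  refine le_of_not_gt fun hlt => ?_
  nlinarith

/-- **Radon-Nikodym** for positive functionals dominated by the trace -/
theorem exists_rn {φ : (K →L[ℂ] K) → ℝ} {Λ N : ℝ} (hΛ : 0 ≤ Λ)
    (hadd : ∀ x y, C.t.M x → C.t.M y → φ (x + y) = φ x + φ y)
    (hsm : ∀ (c : ℝ) x, C.t.M x → φ ((c : ℂ) • x) = c * φ x)
    (hb : ∀ x, C.t.M x → |φ x| ≤ N * ‖x C.t.Ω‖)
    (hp : ∀ x, C.t.M x → 0 ≤ φ (adjoint x * x) ∧ φ (adjoint x * x) ≤ Λ * ‖x C.t.Ω‖ ^ 2) :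
    ∃ a, C.t.M a ∧ 0 ≤ a ∧ ∀ x, C.t.M x → ‖a (adjoint x C.t.Ω)‖ ^ 2 = φ (adjoint x * x) := by
  have hε : ∀ k : ℕ, (0 : ℝ) < 1 / (k + 1) := fun k => by positivity
  choose h hh hs ha using fun k : ℕ => approx_rn C hadd hsm hb (hε k)
  obtain ⟨A, -, hA⟩ := exists_wot_limit (hyperfilter ℕ)
    (fun k => cfc (fun s => max 0 (min Λ s)) (h k)) Λ (fun k => norm_cfc_le hΛ fun s _ => by
      rw [Real.norm_eq_abs, abs_of_nonneg (le_max_left _ _)]
      exact max_le hΛ (min_le_left _ _)) hΛ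
  have hM : C.t.M A := Side.M.of_weak (Eventually.of_forall fun k => (hh k).cfcR _)
    fun ξ η => hA η ξ
  have h0 : 0 ≤ A := nonneg_of_tendsto
    (Eventually.of_forall fun k => cfc_nonneg fun s _ => le_max_left _ _) hA
  have h1 : ∀ y, C.t.M y → IsSelfAdjoint y → (⟪y C.t.Ω, A C.t.Ω⟫_ℂ).re = φ y := fun y hy hy' => by
    refine tendsto_nhds_unique ((Complex.continuous_re.tendsto _).comp (hA (y C.t.Ω) C.t.Ω)) ?_
    refine tendsto_iff_dist_tendsto_zero.2 (squeeze_zero (fun _ => dist_nonneg)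
      (g := fun k : ℕ => 2 * ‖y C.t.Ω‖ * (1 / (k + 1))) (fun k => ?_) ?_)
    · have h2 := clamp_rn C hΛ (hε k).le hadd hp (hh k) (hs k) (ha k)
      have h3 := abs_le.1 (ha k y hy hy')
      have h4 := abs_le.1 ((Complex.abs_re_le_norm _).trans ((norm_inner_le_norm (𝕜 := ℂ) _
        (y C.t.Ω)).trans (mul_le_mul_of_nonneg_right h2 (norm_nonneg _))))
      rw [inner_sub_left, Complex.sub_re] at h4
      rw [Function.comp, Real.dist_eq, ← inner_conj_symm, Complex.conj_re, abs_le]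
      constructor <;> linarith
    · simpa using (tendsto_one_div_add_atTop_nhds_zero_nat.const_mul
        (2 * ‖y C.t.Ω‖)).mono_left Nat.hyperfilter_le_atTop
  have hsa := IsSelfAdjoint.of_nonneg h0
  refine ⟨cfc (fun s => √s) A, hM.cfcR _, cfc_nonneg fun s _ => Real.sqrt_nonneg s,
    fun x hx => ?_⟩
  have h2 : (sp A (adjoint x C.t.Ω) fun s => √s ^ 2) = sp A (adjoint x C.t.Ω) fun s => s := by
    unfold sp
    rw [cfc_congr fun s hs => Real.sq_sqrt (spectrum_nonneg_of_nonneg h0 hs)]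
  have hx' := C.M_adj hx
  rw [sp_sq _ (by fun_prop), h2, sp_id hsa, ← h1 _ (hx'.mul hx) (IsSelfAdjoint.star_mul_self x),
    adjoint_inner_left, mul_ap, adjoint_inner_left]
  have h3 := C.τ_comm (hx.mul hM) hx'
  change ⟪C.t.Ω, x (A (adjoint x C.t.Ω))⟫_ℂ = ⟪C.t.Ω, adjoint x (x (A C.t.Ω))⟫_ℂ at h3
  rw [h3, adjoint_inner_right]

/-- the cutoff function -/
noncomputable def cut (t s : ℝ) : ℝ := max 0 (min 1 (s / t - 1))

theorem cut_cont (t : ℝ) : Continuous (cut t) := by unfold cut; fun_prop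

theorem cut_nonneg (t s : ℝ) : 0 ≤ cut t s := le_max_left _ _

theorem cut_le (t s : ℝ) : cut t s ≤ 1 := max_le zero_le_one (min_le_left _ _)

theorem cut_zero {t s : ℝ} (ht : 0 < t) (h : s ≤ t) : cut t s = 0 :=
  max_eq_left ((min_le_right _ _).trans (by rw [sub_nonpos, div_le_one ht]; exact h))

theorem cut_one {t s : ℝ} (ht : 0 < t) (h : 2 * t ≤ s) : cut t s = 1 := by
  rw [cut, min_eq_left (by rw [le_sub_iff_add_le, le_div_iff₀ ht]; linarith),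
    max_eq_right zero_le_one]

/-- the window function -/
noncomputable def win (n l s : ℝ) : ℝ := √(max (((1 - cut (n * l) s) * s) ^ 2 - l ^ 2) 0)

theorem win_cont (n l : ℝ) : Continuous (win n l) := by
  have := cut_cont (n * l)
  unfold win; fun_prop

theorem win_sq_le {n l s : ℝ} (hn : 0 < n) (hl : 0 < l) (hs : 0 ≤ s) (hnl : l ≤ 2 * n * l) :
    win n l s ^ 2 ≤ s ^ 2 * (if l < s then 1 else 0) -
      s ^ 2 * (if 2 * n * l < s then 1 else 0) := by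
  have h0 := cut_nonneg (n * l) s
  have h1 := cut_le (n * l) s
  have h2 : ((1 - cut (n * l) s) * s) ^ 2 ≤ s ^ 2 :=
    pow_le_pow_left₀ (mul_nonneg (by linarith) hs) (by nlinarith) 2
  rw [win, Real.sq_sqrt (le_max_right _ _)]
  split_ifs with h3 h4 h4
  · rw [cut_one (mul_pos hn hl) (by linarith)]
    exact max_le (by nlinarith) (by simp)
  · exact max_le (by nlinarith) (by nlinarith)
  · linarith
  · exact max_le (by nlinarith [pow_le_pow_left₀ hs (not_lt.1 h3) 2]) (by simp)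

theorem sum_win {n : ℕ} (hn : 1 ≤ n) {s : ℝ} (hs : 0 ≤ s) :
    ∑ j ∈ Finset.range n, win n ((2 * n) ^ j) s ^ 2 ≤ s ^ 2 := by
  have hn' : (1 : ℝ) ≤ n := by exact_mod_cast hn
  refine (Finset.sum_le_sum (g := fun j => s ^ 2 * (if ((2 : ℝ) * n) ^ j < s then 1 else 0) -
    s ^ 2 * (if ((2 : ℝ) * n) ^ (j + 1) < s then 1 else 0)) fun j _ => ?_).trans ?_
  · have h1 : (0 : ℝ) < (2 * n) ^ j := by positivity
    rw [pow_succ' (2 * n : ℝ)]
    exact win_sq_le (by linarith) h1 hs (by nlinarith)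
  · rw [Finset.sum_range_sub' fun j => s ^ 2 * (if ((2 : ℝ) * n) ^ j < s then 1 else 0)]
    split_ifs <;> nlinarith [sq_nonneg s]

/-- a cutoff `E` of `a`: small trace, bounded complement, no mass in between -/
structure Cut (a E : K →L[ℂ] K) (n : ℕ) : Prop where
  mem : C.t.M E
  sa : adjoint E = E
  sq : ∀ ξ, ‖E ξ‖ ^ 2 ≤ (⟪ξ, E ξ⟫_ℂ).re
  nE : ‖E‖ ≤ 1
  nE' : ‖1 - E‖ ≤ 1
  comm : a * E = E * a
  pos : 0 ≤ a * E
  tr : ‖E C.t.Ω‖ ^ 2 ≤ ‖a C.t.Ω‖ ^ 2 / n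
  bd : ‖a * (1 - E)‖ ≤ (2 * n) ^ n
  mid : ∀ y, C.t.M y → ‖y‖ ≤ 1 → ‖y C.t.Ω‖ ≤ ‖E C.t.Ω‖ →
    ‖a ((1 - E) (y C.t.Ω))‖ ^ 2 ≤ 2 * ‖a C.t.Ω‖ ^ 2 / n

theorem exists_cut (ha : C.t.M a) (h0 : 0 ≤ a) {n : ℕ} (hn : 1 ≤ n) : ∃ E, Cut C a E n := by
  have hs := IsSelfAdjoint.of_nonneg h0
  have hn' : (1 : ℝ) ≤ n := by exact_mod_cast hn
  have hsp : ∀ s ∈ spectrum ℝ a, 0 ≤ s := fun s hs => spectrum_nonneg_of_nonneg h0 hs
  obtain ⟨j, hj, h1⟩ : ∃ j ∈ Finset.range n,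
      ‖cfc (win n ((2 * n) ^ j)) a C.t.Ω‖ ^ 2 ≤ ‖a C.t.Ω‖ ^ 2 / n := by
    refine Finset.exists_le_of_sum_le ⟨0, Finset.mem_range.2 hn⟩ ?_
    rw [Finset.sum_const, Finset.card_range, nsmul_eq_mul, mul_div_cancel₀ _ (by linarith),
      ← sp_id_sq hs]
    simp only [sp_sq _ (win_cont _ _)]
    rw [← sp_sum _ _ fun j => (win_cont _ _).fun_pow 2]
    exact sp_mono _ (continuous_finsetSum _ fun j _ => (win_cont _ _).fun_pow 2) (by fun_prop)
      fun s h => sum_win hn (hsp s h)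
  set l : ℝ := (2 * n) ^ j with hl
  have hl1 : 1 ≤ l := one_le_pow₀ (by linarith)
  have hc := cut_cont (n * l)
  have hnl : 0 < n * l := by positivity
  have e1 : 1 - cfc (cut (n * l)) a = cfc (fun s => 1 - cut (n * l) s) a := by
    rw [cfc_sub (fun _ => 1) _ a, cfc_const_one ℝ a]
  have e2 : a * (1 - cfc (cut (n * l)) a) = cfc (fun s => s * (1 - cut (n * l) s)) a := by
    rw [e1, cfc_mul (fun s => s) _ a, cfc_id' ℝ a]
  have e3 : a * cfc (cut (n * l)) a = cfc (fun s => s * cut (n * l) s) a := by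
    rw [cfc_mul (fun s => s) _ a, cfc_id' ℝ a]
  have h2 : (n * l) ^ 2 * ‖cfc (cut (n * l)) a C.t.Ω‖ ^ 2 ≤ ‖a C.t.Ω‖ ^ 2 := by
    rw [sp_sq _ hc, ← sp_mul _ _ (hc.fun_pow 2), ← sp_id_sq hs]
    refine sp_mono _ (by fun_prop) (by fun_prop) fun s h => ?_
    rcases le_total s (n * l) with h3 | h3
    · rw [cut_zero hnl h3]; nlinarith [sq_nonneg s]
    · rw [← mul_pow]
      exact pow_le_pow_left₀ (mul_nonneg hnl.le (cut_nonneg _ _))
        (by nlinarith [cut_le (n * l) s]) 2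
  have h3 : l ^ 2 * ‖cfc (cut (n * l)) a C.t.Ω‖ ^ 2 ≤ ‖a C.t.Ω‖ ^ 2 / n := by
    rw [le_div_iff₀ (by linarith)]
    refine le_trans ?_ h2
    rw [mul_pow, mul_comm, mul_assoc]
    exact mul_le_mul_of_nonneg_right (by nlinarith) (by positivity)
  refine ⟨cfc (cut (n * l)) a, ha.cfcR _, adj_cfc _ _, fun ξ => ?_, norm_cfc_le zero_le_one
    fun s _ => ?_, ?_, ?_, ?_, ?_, ?_, fun y hy hy1 hy2 => ?_⟩
  · rw [sp_sq _ hc]
    exact sp_mono _ (hc.fun_pow 2) hc fun s _ => by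
      nlinarith [cut_le (n * l) s, cut_nonneg (n * l) s]
  · rw [Real.norm_eq_abs, abs_of_nonneg (cut_nonneg _ _)]; exact cut_le _ _
  · rw [e1]
    refine norm_cfc_le zero_le_one fun s _ => ?_
    rw [Real.norm_eq_abs, abs_le]
    constructor <;> linarith [cut_le (n * l) s, cut_nonneg (n * l) s]
  · exact ((Commute.refl a).cfc_real _).symm.eq
  · rw [e3]
    exact cfc_nonneg fun s h => mul_nonneg (hsp s h) (cut_nonneg _ _)
  · refine le_trans ?_ h3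
    exact le_mul_of_one_le_left (sq_nonneg _) (one_le_pow₀ hl1)
  · rw [e2]
    refine norm_cfc_le (by positivity) fun s h => ?_
    have h4 : 2 * (n * l) ≤ (2 * n) ^ n := by
      rw [← mul_assoc, hl, ← pow_succ']
      exact pow_le_pow_right₀ (by linarith) (Finset.mem_range.1 hj)
    rw [Real.norm_eq_abs, abs_of_nonneg (mul_nonneg (hsp s h) (sub_nonneg.2 (cut_le _ _)))]
    rcases le_total (2 * (n * l)) s with h5 | h5
    · rw [cut_one hnl h5]; simp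
    · nlinarith [cut_nonneg (n * l) s, hsp s h]
  · have h4 := sp_mono (a := a) (y C.t.Ω) (f := fun s => (s * (1 - cut (n * l) s)) ^ 2)
      (g := fun s => l ^ 2 * 1 + win n l s ^ 2) (by fun_prop)
      (continuous_const.add ((win_cont _ _).fun_pow 2)) fun s _ => by
        rw [win, Real.sq_sqrt (le_max_right _ _), mul_comm s]
        linarith [le_max_left (((1 - cut (n * l) s) * s) ^ 2 - l ^ 2) 0]
    rw [sp_add _ continuous_const ((win_cont _ _).fun_pow 2), sp_mul _ _ continuous_const, sp_one hs,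
      ← sp_sq _ (win_cont _ _), ← sp_sq _ (by fun_prop), ← e2, mul_ap] at h4
    have h5 := pow_le_pow_left₀ (norm_nonneg _) ((C.norm_mul_Ω (ha.cfcR (win n l)) hy).trans
      (mul_le_of_le_one_left (norm_nonneg _) hy1)) 2
    have h6 := mul_le_mul_of_nonneg_left (pow_le_pow_left₀ (norm_nonneg _) hy2 2) (sq_nonneg l)
    rw [mul_div_assoc]
    linarith

end Vale.Agent.P092UB
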