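import Vale.Agent.P092UB.Nrm

/-!
P092, rank one, block A (helper90): covariant columns.
-/

set_option linter.unusedSectionVars false

open scoped InnerProductSpace ENNReal NNReal
open MeasureTheory Filter Topology ContinuousLinearMap

namespace Vale.Agent.P092UB

open Vale.Agent.P092CP
open Vale.Agent.P092.RC (Cm)
open Vale.Agent.P092.H108 (exists_wot_limit inner_ext inner_nonneg_of_nonneg)

section bn

variable {H K ι : Type} [NormedAddCommGroup H] [InnerProductSpace ℝ H] [NormedAddCommGroup K]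
  [InnerProductSpace ℂ K] [CompleteSpace K] {e : ι → H} {ζ ζ' : H → K →L[ℂ] K} {s s' : ℝ≥0∞}

theorem hs_clm (x : K →L[ℂ] K) (T : H → K) : hs e (fun v => x (T v)) ≤ ‖x‖ₑ ^ 2 * hs e T := by
  rw [hs, hs, ← ENNReal.tsum_mul_left]
  exact ENNReal.tsum_le_tsum fun i => by
    rw [← mul_pow]; exact pow_le_pow_left' (x.le_opENorm _) 2

theorem hs_add (T T' : H → K) : hs e (fun v => T v + T' v) ≤ 2 * hs e T + 2 * hs e T' := by
  rw [hs, hs, hs, ← ENNReal.tsum_mul_left, ← ENNReal.tsum_mul_left, ← ENNReal.tsum_add]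
  exact ENNReal.tsum_le_tsum fun i => enorm_add_sq_le _ _

theorem hs_neg (T : H → K) : hs e (fun v => -T v) = hs e T := by simp only [hs, enorm_neg]

theorem hs_convex (T T' : H → K) {a b : ℝ} (ha : 0 ≤ a) (hb : 0 ≤ b) (hab : a + b = 1) :
    hs e (fun v => (a : ℂ) • T v + (b : ℂ) • T' v) ≤
      ENNReal.ofReal a * hs e T + ENNReal.ofReal b * hs e T' := by
  rw [hs, hs, hs, ← ENNReal.tsum_mul_left, ← ENNReal.tsum_mul_left, ← ENNReal.tsum_add]
  refine ENNReal.tsum_le_tsum fun i => ?_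
  simp only [enorm_sq_eq]
  rw [← ENNReal.ofReal_mul ha, ← ENNReal.ofReal_mul hb,
    ← ENNReal.ofReal_add (by positivity) (by positivity)]
  refine ENNReal.ofReal_le_ofReal ((pow_le_pow_left₀ (norm_nonneg _) (norm_add_le _ _) 2).trans ?_)
  rw [norm_smul, norm_smul, Complex.norm_real, Complex.norm_real, Real.norm_of_nonneg ha,
    Real.norm_of_nonneg hb]
  obtain rfl : b = 1 - a := by linarith
  nlinarith [mul_nonneg (mul_nonneg ha hb) (sq_nonneg (‖T (e i)‖ - ‖T' (e i)‖))]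

/-- bounded columns -/
def Bn (e : ι → H) (ζ : H → K →L[ℂ] K) (s : ℝ≥0∞) : Prop :=
  ∀ ξ, hs e (fun v => ζ v ξ) ≤ s * ‖ξ‖ₑ ^ 2

theorem Bn.mul (h : Bn e ζ s) (x y : K →L[ℂ] K) :
    Bn e (fun v => x * ζ v * y) (‖x‖ₑ ^ 2 * ‖y‖ₑ ^ 2 * s) := fun ξ => by
  refine (hs_clm x fun v => ζ v (y ξ)).trans ?_
  rw [mul_assoc, mul_assoc]
  refine mul_le_mul_right ((h _).trans ?_) _
  rw [mul_left_comm, ← mul_pow]
  exact mul_le_mul_right (pow_le_pow_left' (y.le_opENorm _) 2) _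

theorem Bn.mono (h : Bn e ζ s) (h' : s ≤ s') : Bn e ζ s' := fun ξ =>
  (h ξ).trans (mul_le_mul_left h' _)

theorem Bn.add (h : Bn e ζ s) (h' : Bn e ζ' s') : Bn e (ζ + ζ') (2 * s + 2 * s') := fun ξ => by
  refine (hs_add (fun v => ζ v ξ) fun v => ζ' v ξ).trans ?_
  rw [add_mul, mul_assoc, mul_assoc]
  exact add_le_add (mul_le_mul_right (h ξ) _) (mul_le_mul_right (h' ξ) _)

theorem Bn.convex (h : Bn e ζ s) (h' : Bn e ζ' s) {a b : ℝ} (ha : 0 ≤ a) (hb : 0 ≤ b)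
    (hab : a + b = 1) : Bn e ((a : ℂ) • ζ + (b : ℂ) • ζ') s := fun ξ => by
  refine (hs_convex (fun v => ζ v ξ) (fun v => ζ' v ξ) ha hb hab).trans
    ((add_le_add (mul_le_mul_right (h ξ) _) (mul_le_mul_right (h' ξ) _)).trans_eq ?_)
  rw [← add_mul, ← ENNReal.ofReal_add ha hb, hab, ENNReal.ofReal_one, one_mul]

/-- bounded columns and rows -/
structure Bb (e : ι → H) (ζ : H → K →L[ℂ] K) (s : ℝ≥0∞) : Prop where
  rl : RL ζ
  col : Bn e ζ s
  row : Bn e (star ζ) s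

theorem Bb.adj (h : Bb e ζ s) : Bb e (star ζ) s := ⟨h.rl.adj, h.row, by rw [star_star]; exact h.col⟩

theorem Bb.mono (h : Bb e ζ s) (h' : s ≤ s') : Bb e ζ s' := ⟨h.rl, h.col.mono h', h.row.mono h'⟩

theorem Bb.mul (h : Bb e ζ s) (x y : K →L[ℂ] K) :
    Bb e (fun v => x * ζ v * y) (‖x‖ₑ ^ 2 * ‖y‖ₑ ^ 2 * s) := by
  refine ⟨h.rl.clm (mulLeftRight ℂ _ x y), h.col.mul x y, ?_⟩
  have h1 := h.row.mul (star y) (star x)
  rw [enorm_star', enorm_star', mul_comm (‖y‖ₑ ^ 2)] at h1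
  convert h1 using 2 with v
  simp only [Pi.star_apply, star_mul, mul_assoc]

theorem Bb.mul' (h : Bb e ζ s) {x y : K →L[ℂ] K} (hx : ‖x‖ ≤ 1) (hy : ‖y‖ ≤ 1) :
    Bb e (fun v => x * ζ v * y) s := by
  have h1 : ∀ x : K →L[ℂ] K, ‖x‖ ≤ 1 → ‖x‖ₑ ^ 2 ≤ 1 := fun x hx =>
    pow_le_one₀ zero_le (by rwa [← ofReal_norm, ENNReal.ofReal_le_one])
  exact (h.mul x y).mono (mul_le_of_le_one_left' (mul_le_one' (h1 x hx) (h1 y hy)))

theorem Bb.add (h : Bb e ζ s) (h' : Bb e ζ' s') : Bb e (ζ + ζ') (2 * s + 2 * s') :=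
  ⟨h.rl.add' h'.rl, h.col.add h'.col, by rw [star_add]; exact h.row.add h'.row⟩

theorem Bb.convex (h : Bb e ζ s) (h' : Bb e ζ' s) {a b : ℝ} (ha : 0 ≤ a) (hb : 0 ≤ b)
    (hab : a + b = 1) : Bb e ((a : ℂ) • ζ + (b : ℂ) • ζ') s :=
  ⟨(h.rl.smul' _).add' (h'.rl.smul' _), h.col.convex h'.col ha hb hab, by
    simpa only [star_add, star_smul, Complex.star_def, Complex.conj_ofReal] using
      h.row.convex h'.row ha hb hab⟩

theorem Bb.zero : Bb e (0 : H → K →L[ℂ] K) 0 :=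
  ⟨RL.zero, fun ξ => by simp [hs], fun ξ => by simp [hs]⟩

theorem Bb.smul (h : Bb e ζ s) (z : ℂ) : ∃ s', (s ≠ ∞ → s' ≠ ∞) ∧ Bb e (z • ζ) s' :=
  ⟨‖z • (1 : K →L[ℂ] K)‖ₑ ^ 2 * ‖(1 : K →L[ℂ] K)‖ₑ ^ 2 * s, fun _ => by finiteness, by
    convert h.mul (z • 1) 1 using 2 with v
    simp⟩

theorem Bn.norm_le [CompleteSpace H] {e : HilbertBasis ι ℝ H} (h : Bn e ζ s) (hs : s ≠ ∞)
    (hl : RL ζ) (v : H) : ‖ζ v‖ ≤ √s.toReal * ‖v‖ := by
  refine opNorm_le_bound _ (by positivity) fun ξ => norm_le_of_enorm_sq (by positivity)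
    (((hs_op (hl.ap ξ) e v).trans (mul_le_mul_left (h ξ) _)).trans_eq ?_)
  rw [ENNReal.ofReal_mul (Real.sqrt_nonneg _), mul_pow, ← ENNReal.ofReal_pow (Real.sqrt_nonneg _),
    Real.sq_sqrt ENNReal.toReal_nonneg, ENNReal.ofReal_toReal hs, ofReal_norm, mul_right_comm]

/-- weak limits of columns -/
theorem exists_col_lim [CompleteSpace H] {e : HilbertBasis ι ℝ H} {J : Type} (U : Ultrafilter J)
    {ζ : J → H → K →L[ℂ] K} (h : ∀ j, Bb e (ζ j) s) (hs : s ≠ ∞) :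
    ∃ ζ', Bb e ζ' s ∧ ∀ v η ξ, Tendsto (fun j => ⟪η, ζ j v ξ⟫_ℂ) U (𝓝 ⟪η, ζ' v ξ⟫_ℂ) := by
  choose ζ' h1 h2 using fun v => exists_wot_limit U (fun j => ζ j v) (√s.toReal * ‖v‖)
    (fun j => (h j).col.norm_le hs (h j).rl v) (by positivity)
  refine ⟨ζ', ⟨⟨fun u v => inner_ext fun η ξ => tendsto_nhds_unique (h2 _ η ξ) ?_,
    fun a v => inner_ext fun η ξ => tendsto_nhds_unique (h2 _ η ξ) ?_, _, h1⟩,
    fun ξ => tsum_le_of_weak (fun i η => h2 (e i) η ξ) (Frequently.of_forall fun j => (h j).col ξ),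
    fun ξ => tsum_le_of_weak (l := U) (u := fun j i => star (ζ j (e i)) ξ) (fun i η => ?_)
      (Frequently.of_forall fun j => (h j).row ξ)⟩, h2⟩
  · simpa only [(h _).rl.add, add_apply, inner_add_right] using (h2 u η ξ).add (h2 v η ξ)
  · simpa only [(h _).rl.smul, smul_apply, inner_smul_right] using (h2 v η ξ).const_mul (a : ℂ)
  · simpa only [Pi.star_apply, star_eq_adjoint, adjoint_inner_right, Function.comp_def,
      inner_conj_symm] using (Complex.continuous_conj.tendsto _).comp (h2 (e i) ξ η)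

end bn

variable {G G' K : Type} [Group G] [TopologicalSpace G] [IsTopologicalGroup G]
  [LocallyCompactSpace G] [SecondCountableTopology G] [T2Space G] [MeasurableSpace G] [BorelSpace G]
  [Group G'] [TopologicalSpace G'] [IsTopologicalGroup G'] [LocallyCompactSpace G']
  [SecondCountableTopology G'] [T2Space G'] [MeasurableSpace G'] [BorelSpace G']
  [NormedAddCommGroup K] [InnerProductSpace ℂ K] [CompleteSpace K] {μ : Measure G}
  [μ.IsHaarMeasure] {μ' : Measure G'} [μ'.IsHaarMeasure] {W : Set (K →L[ℂ] K)}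

section mcol

variable (S : Side μ' W) {H ι : Type} [NormedAddCommGroup H] [InnerProductSpace ℝ H] [Countable ι]
  {F : G' → H} (hm : ∀ v, Measurable fun y => ⟪v, F y⟫_ℝ) {s : ℝ} (hb : ∀ y, ‖F y‖ ≤ s)

/-- the column of the coordinates of `F` -/
noncomputable def mc (F : G' → H) (v : H) : K →L[ℂ] K := S.m fun y => (⟪v, F y⟫_ℝ : ℝ)

include hm hb

theorem bd_co (v : H) : Bd fun y => ((⟪v, F y⟫_ℝ : ℝ) : ℂ) :=
  Bd.ofReal (hm v) (C := ‖v‖ * s) fun y =>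
    (abs_real_inner_le_norm _ _).trans (mul_le_mul_of_nonneg_left (hb y) (norm_nonneg _))

theorem hs_mc (e : HilbertBasis ι ℝ H) (ξ : K) :
    hs e (fun v => mc S F v ξ) = ∫⁻ y, ‖F y‖ₑ ^ 2 * ‖S.U ξ y‖ₑ ^ 2 ∂μ' := by
  simp only [hs, mc, S.enorm_m (bd_co hm hb _)]
  rw [← lintegral_tsum fun i =>
    ((bd_co hm hb _).meas.enorm.pow_const 2).aemeasurable.fun_mul (meas_sq _)]
  refine lintegral_congr fun y => ?_
  rw [ENNReal.tsum_mul_right, ← parseval e]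
  simp only [real_inner_comm (F y), ← ofReal_norm, Complex.norm_real]

theorem star_mc : star (mc S F) = mc S F := funext fun v => by
  rw [Pi.star_apply, mc, S.star_m (bd_co hm hb v)]
  congr 1
  funext y
  simp

theorem bb_mc (e : HilbertBasis ι ℝ H) : Bb e (mc S F) (ENNReal.ofReal s ^ 2) := by
  have h1 : Bn e (mc S F) (ENNReal.ofReal s ^ 2) := fun ξ => by
    rw [hs_mc S hm hb, S.enorm_U, ← lintegral_const_mul' _ _ (by finiteness)]
    refine lintegral_mono fun y => mul_le_mul_left (pow_le_pow_left' ?_ 2) _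
    rw [← ofReal_norm]
    exact ENNReal.ofReal_le_ofReal (hb y)
  refine ⟨⟨fun u v => ?_, fun a v => ?_, s, fun v => ?_⟩, h1, by rwa [star_mc S hm hb]⟩
  · rw [mc, mc, mc, ← S.m_add (bd_co hm hb u) (bd_co hm hb v)]
    congr 1
    funext y
    simp [inner_add_left]
  · rw [mc, mc, ← S.m_smul _ (bd_co hm hb v)]
    congr 1
    funext y
    simp [inner_smul_left]
  · refine S.norm_m_le (bd_co hm hb v).meas
      (mul_nonneg ((norm_nonneg _).trans (hb 1)) (norm_nonneg _)) fun y => ?_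
    rw [Complex.norm_real, mul_comm]
    exact (norm_inner_le_norm _ _).trans (mul_le_mul_of_nonneg_left (hb y) (norm_nonneg _))

end mcol

variable (C : Cpl μ μ' W) {r : G' → ℝ} {c Λ : ℝ} {D : ℝ → ℝ} (O : Orb r c D Λ) {ι : Type}
  [Countable ι] {e : HilbertBasis ι ℝ O.H} {ζ : O.H → K →L[ℂ] K} {s : ℝ≥0∞}

/-- covariant columns -/
structure Cv (ζ : O.H → K →L[ℂ] K) : Prop where
  rl : RL ζ
  cm : ∀ v, Cm W (ζ v)
  cov : ∀ h v, C.t.π h⁻¹ * ζ v * C.t.π h = ζ (adjoint (O.ρ h) v)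

theorem enorm_ρ (h : G') : ‖adjoint (O.ρ h)‖ₑ ^ 2 ≤ ENNReal.ofReal c ^ 2 := by
  rw [← ofReal_norm, LinearIsometryEquiv.norm_map]
  exact pow_le_pow_left' (ENNReal.ofReal_le_ofReal (O.nρ h)) 2

variable {C O}

theorem Cv.adj (h : Cv C O ζ) : Cv C O (star ζ) :=
  ⟨h.rl.adj, fun v => C.adj_cm (h.cm v), fun x v => by
    rw [Pi.star_apply, Pi.star_apply, ← h.cov, star_mul, star_mul, C.t.star_π, C.t.star_π, inv_inv,
      mul_assoc]⟩

theorem Cv.mul (h : Cv C O ζ) {x y : K →L[ℂ] K} (hx : Cp C.t.π x) (hy : Cp C.t.π y)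
    (hc : ∀ T, Cm W T → Cm W (x * T * y)) : Cv C O fun v => x * ζ v * y :=
  ⟨h.rl.clm (mulLeftRight ℂ _ x y), fun v => hc _ (h.cm v), fun g v => by
    rw [← h.cov, ← mul_assoc, ← mul_assoc, ← hx, mul_assoc _ y, hy]
    simp only [mul_assoc]⟩

/-- the mean of the column over the target -/
noncomputable def Qf (C : Cpl μ μ' W) {H : Type} (e : ι → H) (ζ : H → K →L[ℂ] K) (ξ : K) : ℝ≥0∞ :=
  ∫⁻ x, hs e (fun v => C.t.P C.t.D (ζ v (C.t.π x ξ))) ∂μ'

theorem lint_hs (C : Cpl μ μ' W) {H : Type} (e : ι → H) (T : H → K) :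
    ∫⁻ x, hs e (fun v => C.t.P C.t.D (C.t.π x (T v))) ∂μ' = μ' C.t.D * hs e T := by
  simp only [hs]
  rw [lintegral_tsum fun i => (C.t.meas_π _ _).aemeasurable, ← ENNReal.tsum_mul_left]
  exact tsum_congr fun i => C.t.lint_P C.t.mD _

theorem Cv.Qf_le (h : Cv C O ζ) (ξ : K) :
    Qf C e ζ ξ ≤ ENNReal.ofReal c ^ 2 * (μ' C.t.D * hs e fun v => ζ v ξ) := by
  rw [← lint_hs, ← lintegral_const_mul' _ _ (by finiteness)]
  refine lintegral_mono fun x => le_trans (le_of_eq ?_) ((hs_comp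
    (((h.rl.ap ξ).clm (C.t.π x)).clm (C.t.P C.t.D)) (adjoint (O.ρ x)) e.orthonormal e).trans
    (mul_le_mul_left (enorm_ρ O x) _))
  simp only [← h.cov, mul_ap, pi_ap_inv]

theorem Cv.le_Qf (h : Cv C O ζ) (ξ : K) :
    μ' C.t.D * hs e (fun v => ζ v ξ) ≤ ENNReal.ofReal c ^ 2 * Qf C e ζ ξ := by
  rw [← lint_hs, Qf, ← lintegral_const_mul' _ _ (by finiteness)]
  refine lintegral_mono fun x => le_trans (le_of_eq ?_) ((hs_comp
    ((h.rl.ap (C.t.π x ξ)).clm (C.t.P C.t.D)) (adjoint (O.ρ x⁻¹)) e.orthonormal e).trans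
    (mul_le_mul_left (enorm_ρ O x⁻¹) _))
  simp only [← h.cov, mul_ap, pi_inv_ap, inv_inv]

theorem Cv.Qf_eq (h : Cv C O ζ) {y : K →L[ℂ] K} (hy : C.t.M y) :
    Qf C e ζ (y C.t.Ω) = μ' C.t.D * hs e fun v => adjoint y (star ζ v C.t.Ω) := by
  simp only [Qf, hs]
  rw [← ENNReal.tsum_mul_left]
  refine (lintegral_tsum fun i => (C.t.meas_π (C.t.P C.t.D * ζ (e i)) _).aemeasurable).trans
    (tsum_congr fun i => ?_)
  have h1 := C.tr_adj _ (cm_mul (cm_mul (C.t.cm_P C.t.mD) (h.cm (e i))) hy.1)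
  rw [← star_eq_adjoint, star_mul, star_mul, star_eq_adjoint (C.t.P _), C.t.adjoint_P C.t.mD,
    ← mul_assoc, C.t.Tr_mul_PD (T := star y * star (ζ (e i)))
      (cm_mul (C.adj_cm hy.1) (C.adj_cm (h.cm _)))] at h1
  refine Eq.trans (lintegral_congr fun x => ?_) h1.symm
  rw [mul_ap _ y, hy.2.ap]

theorem cancel_vol (C : Cpl μ μ' W) {a b k : ℝ≥0∞} (h : μ' C.t.D * a ≤ k * (μ' C.t.D * b)) :
    a ≤ k * b := by
  rw [mul_left_comm] at h
  exact (ENNReal.mul_le_mul_iff_right C.t.vol_ne C.t.vol).1 h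

/-- the right norm is controlled by the left norm -/
theorem Cv.le_star (h : Cv C O ζ) {y : K →L[ℂ] K} (hy : C.t.M y) :
    hs e (fun v => ζ v (y C.t.Ω)) ≤
      ENNReal.ofReal c ^ 2 * hs e fun v => adjoint y (star ζ v C.t.Ω) :=
  cancel_vol C ((h.le_Qf _).trans_eq (by rw [h.Qf_eq hy]))

theorem Cv.le_star' (h : Cv C O ζ) :
    hs e (fun v => ζ v C.t.Ω) ≤ ENNReal.ofReal c ^ 2 * hs e fun v => star ζ v C.t.Ω := by
  simpa only [adjoint_one, one_apply_eq_self] using h.le_star (e := e) C.t.M_one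

theorem Cv.le_s (h : Cv C O ζ) (g : G) : hs e (fun v => ζ v (C.s.π g C.t.Ω)) ≤
    ENNReal.ofReal c ^ 2 * (ENNReal.ofReal c ^ 2 * hs e fun v => ζ v C.t.Ω) := by
  obtain ⟨u, h1, h2, h3⟩ := C.exu g
  rw [← h3]
  refine (h.le_star h1).trans (mul_le_mul_right (le_trans (le_of_eq ?_)
    (h.adj.le_star'.trans_eq (by rw [star_star]))) _)
  refine tsum_congr fun i => ?_
  rw [← ofReal_norm, ← star_eq_adjoint,
    ContinuousLinearMap.norm_map_of_mem_unitary (Unitary.star_mem h2), ofReal_norm]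

/-- right bounded columns are bounded -/
theorem Cv.bn (h : Cv C O ζ) (hb : Bn e ζ s) (hs' : s ≠ ∞) {l : ℝ}
    (hl : ∀ y, C.t.M y → hs e (fun v => adjoint y (star ζ v C.t.Ω)) ≤
      ENNReal.ofReal (l ^ 2) * ‖y C.t.Ω‖ₑ ^ 2) :
    Bn e ζ (ENNReal.ofReal c ^ 2 * ENNReal.ofReal (l ^ 2)) := by
  let _ : MeasurableSpace ι := ⊤
  let _ : TopologicalSpace ι := ⊥
  have : DiscreteTopology ι := ⟨rfl⟩
  have : BorelSpace ι := ⟨borel_eq_top_of_discrete.symm⟩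
  have hv := C.t.vol
  have m1 : ∀ ξ, Continuous fun p : G' × ι =>
      (C.t.π p.1⁻¹ * (C.t.P C.t.D * ζ (e p.2)) * C.t.π p.1) ξ := fun ξ =>
    continuous_prod_of_discrete_right.2 fun i => by
      simpa only [inv_inv, Function.comp_def] using
        (C.t.cont_conj (C.t.P C.t.D * ζ (e i)) ξ).comp continuous_inv
  have e1 : ∀ ξ, ∫⁻ p : G' × ι, ‖(C.t.π p.1⁻¹ * (C.t.P C.t.D * ζ (e p.2)) * C.t.π p.1) ξ‖ₑ ^ 2
      ∂μ'.prod Measure.count = Qf C e ζ ξ := fun ξ => by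
    rw [lintegral_prod _ ((m1 ξ).enorm.measurable.pow_const 2).aemeasurable]
    refine lintegral_congr fun x => ?_
    rw [lintegral_count]
    exact tsum_congr fun i => by rw [mul_ap, mul_ap, C.t.enorm_π, mul_ap]
  have hc : ∀ p : G' × ι, Cm W (C.t.π p.1⁻¹ * (C.t.P C.t.D * ζ (e p.2)) * C.t.π p.1) := fun p => by
    simpa only [inv_inv] using C.t.conj _ (cm_mul (C.t.cm_P C.t.mD) (h.cm (e p.2))) p.1⁻¹
  obtain ⟨T, h0, h1, h2⟩ := exists_gram (μ'.prod Measure.count) _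
    (s := ENNReal.ofReal c ^ 2 * (μ' C.t.D * s)) (by finiteness)
    (fun ξ => (m1 ξ).aestronglyMeasurable) fun ξ => by
      rw [e1, mul_assoc, mul_assoc]
      exact (h.Qf_le ξ).trans (mul_le_mul_right (mul_le_mul_right (hb ξ) _) _)
  simp only [e1] at h1
  have hsa := IsSelfAdjoint.of_nonneg h0
  have hre : ∀ ξ, ⟪T ξ, ξ⟫_ℂ = (Qf C e ζ ξ).toReal := fun ξ => by
    rw [← h1, ENNReal.toReal_ofReal (inner_nonneg_of_nonneg h0 ξ), ← inner_conj_symm ξ,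
      Complex.conj_re]
    exact (hsa.isSymmetric.coe_re_inner_apply_self ξ).symm
  have hM : C.t.M T := by
    refine ⟨fun w hw => h2 w (fun p => hc p w hw) fun p => hc p _ (C.Wadj w hw),
      cp_of_conj fun g => ContinuousLinearMap.coe_injective ((ext_inner_map _ _).1 fun ξ => ?_)⟩
    change ⟪C.t.π g (T (C.t.π g⁻¹ ξ)), ξ⟫_ℂ = ⟪T ξ, ξ⟫_ℂ
    rw [← adjoint_inner_right, C.t.adj, hre, hre]
    have := C.t.right
    simp only [Qf, pi_ap]
    rw [lintegral_mul_right_eq_self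
      (fun x => hs e fun v => C.t.P C.t.D (ζ v (C.t.π x ξ))) g⁻¹]
  intro ξ
  have h3 := le_of_M C hM hsa (Λ := μ'.real C.t.D * l ^ 2) (fun y hy => ?_) ξ
  · refine cancel_vol C ((h.le_Qf ξ).trans ?_)
    rw [← h1, mul_assoc]
    refine mul_le_mul_right ((ENNReal.ofReal_le_ofReal h3).trans_eq ?_) _
    rw [ENNReal.ofReal_mul (by positivity), ENNReal.ofReal_mul (by positivity), ← enorm_sq_eq,
      ofReal_measureReal hv]
    ring
  · rw [← ENNReal.ofReal_le_ofReal_iff (by positivity), h1, h.Qf_eq hy,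
      ENNReal.ofReal_mul (by positivity), ENNReal.ofReal_mul (by positivity), ← enorm_sq_eq,
      ofReal_measureReal hv, mul_assoc]
    exact mul_le_mul_right (hl y hy) _

end Vale.Agent.P092UB
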