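import Vale.Agent.P092UB.Defs
import Vale.Agent.P092.H108.Base

/-!
P092, rank one, block A (helper90): Hilbert-Schmidt calculus for real linear maps into a complex
Hilbert space, Gram operators.
-/

open scoped InnerProductSpace ENNReal NNReal
open MeasureTheory Filter Topology ContinuousLinearMap

namespace Vale.Agent.P092UB

open Vale.Agent.P092CP

section hs

variable {H H₁ E K : Type} [NormedAddCommGroup H] [InnerProductSpace ℝ H] [NormedAddCommGroup H₁]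
  [InnerProductSpace ℝ H₁] [NormedAddCommGroup E] [NormedSpace ℂ E] [NormedAddCommGroup K]
  [InnerProductSpace ℂ K] {ι ι₁ : Type}

theorem countable_of_on [SecondCountableTopology H] {v : ι → H} (hv : Orthonormal ℝ v) :
    Countable ι := by
  refine Pairwise.countable_of_isOpen_disjoint (s := fun i => Metric.ball (v i) (1 / 2))
    (fun i j hij => Metric.ball_disjoint_ball ?_) (fun _ => Metric.isOpen_ball)
    fun i => ⟨v i, Metric.mem_ball_self (by norm_num)⟩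
  have h1 := norm_sub_sq_real (v i) (v j)
  rw [hv.1 i, hv.1 j, hv.2 hij] at h1
  rw [dist_eq_norm]
  nlinarith [norm_nonneg (v i - v j)]

theorem enorm_sq_eq {F : Type*} [NormedAddCommGroup F] (u : F) :
    ‖u‖ₑ ^ 2 = ENNReal.ofReal (‖u‖ ^ 2) := by
  rw [← ofReal_norm, ENNReal.ofReal_pow (norm_nonneg _)]

theorem tsum_enorm_sq {F : Type*} [NormedAddCommGroup F] {u : ι → F}
    (h : Summable fun i => ‖u i‖ ^ 2) :
    ∑' i, ‖u i‖ₑ ^ 2 = ENNReal.ofReal (∑' i, ‖u i‖ ^ 2) := by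
  rw [ENNReal.ofReal_tsum_of_nonneg (fun i => sq_nonneg _) h]
  exact tsum_congr fun i => enorm_sq_eq _

theorem bessel {v : ι → H} (hv : Orthonormal ℝ v) (p : H) :
    ∑' i, ‖⟪p, v i⟫_ℝ‖ₑ ^ 2 ≤ ‖p‖ₑ ^ 2 := by
  simp only [real_inner_comm (v _) p]
  rw [tsum_enorm_sq (hv.inner_products_summable p), enorm_sq_eq]
  exact ENNReal.ofReal_le_ofReal (hv.tsum_inner_products_le p)

theorem parseval (e : HilbertBasis ι ℝ H) (p : H) : ∑' i, ‖⟪p, e i⟫_ℝ‖ₑ ^ 2 = ‖p‖ₑ ^ 2 := by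
  have h := e.hasSum_inner_mul_inner p p
  simp only [real_inner_comm p (e _), real_inner_self_eq_norm_sq, ← sq] at h
  have h' : HasSum (fun i => ‖⟪p, e i⟫_ℝ‖ ^ 2) (‖p‖ ^ 2) := by
    simpa only [Real.norm_eq_abs, sq_abs, real_inner_comm p (e _)] using h
  rw [tsum_enorm_sq h'.summable, h'.tsum_eq, enorm_sq_eq]

theorem exists_frame (K : Type) [NormedAddCommGroup K] [InnerProductSpace ℂ K] [CompleteSpace K] :
    ∃ (κ : Type) (f : κ → K), ∀ u, ∑' k, ‖(⟪f k, u⟫_ℂ).re‖ₑ ^ 2 = ‖u‖ₑ ^ 2 := by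
  let _ := InnerProductSpace.complexToReal (G := K)
  obtain ⟨w, b, -⟩ := exists_hilbertBasis ℝ K
  refine ⟨w, b, fun u => ?_⟩
  rw [← parseval b u]
  exact tsum_congr fun k => by rw [real_inner_comm]; rfl

/-- bounded real linear maps -/
structure RL (T : H → E) : Prop where
  add : ∀ u v, T (u + v) = T u + T v
  smul : ∀ (c : ℝ) v, T (c • v) = (c : ℂ) • T v
  bdd : ∃ C, ∀ v, ‖T v‖ ≤ C * ‖v‖

theorem RL.exists_tr [CompleteSpace H] {T : H → K} (hT : RL T) (f : K) :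
    ∃ p : H, ∀ v, ⟪p, v⟫_ℝ = (⟪f, T v⟫_ℂ).re := by
  obtain ⟨C, hC⟩ := hT.bdd
  let L : H →ₗ[ℝ] ℝ :=
    { toFun := fun v => (⟪f, T v⟫_ℂ).re
      map_add' := fun u v => by rw [hT.add, inner_add_right, Complex.add_re]
      map_smul' := fun c v => by
        rw [hT.smul, inner_smul_right, Complex.re_ofReal_mul]; rfl }
  refine ⟨(InnerProductSpace.toDual ℝ H).symm (L.mkContinuous (‖f‖ * C) fun v => ?_),
    fun v => InnerProductSpace.toDual_symm_apply⟩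
  refine (Complex.abs_re_le_norm _).trans ((norm_inner_le_norm _ _).trans ?_)
  rw [mul_assoc]
  exact mul_le_mul_of_nonneg_left (hC v) (norm_nonneg _)

theorem RL.comp {T : H → E} (hT : RL T) (S : H₁ →L[ℝ] H) : RL fun v => T (S v) := by
  obtain ⟨C, hC⟩ := hT.bdd
  refine ⟨fun u v => by rw [map_add, hT.add], fun c v => by rw [map_smul, hT.smul],
    |C| * ‖S‖, fun v => (hC _).trans ?_⟩
  rw [mul_assoc]
  exact mul_le_mul (le_abs_self C) (S.le_opNorm v) (norm_nonneg _) (abs_nonneg C)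

theorem RL.clm {E' : Type} [NormedAddCommGroup E'] [NormedSpace ℂ E'] {T : H → E} (hT : RL T)
    (S : E →L[ℂ] E') : RL fun v => S (T v) := by
  obtain ⟨C, hC⟩ := hT.bdd
  refine ⟨fun u v => by rw [hT.add, map_add], fun c v => by rw [hT.smul, map_smul],
    ‖S‖ * C, fun v => (S.le_opNorm _).trans ?_⟩
  rw [mul_assoc]
  exact mul_le_mul_of_nonneg_left (hC v) (norm_nonneg _)

theorem RL.zero : RL (0 : H → E) := ⟨by simp, by simp, 0, by simp⟩

theorem RL.add' {T T' : H → E} (hT : RL T) (hT' : RL T') : RL (T + T') := by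
  obtain ⟨C, hC⟩ := hT.bdd
  obtain ⟨C', hC'⟩ := hT'.bdd
  refine ⟨fun u v => ?_, fun c v => ?_, C + C', fun v => ?_⟩
  · simp only [Pi.add_apply, hT.add, hT'.add]; abel
  · simp only [Pi.add_apply, hT.smul, hT'.smul, smul_add]
  · exact (norm_add_le _ _).trans (by linarith [hC v, hC' v])

theorem RL.smul' {T : H → E} (hT : RL T) (z : ℂ) : RL (z • T) :=
  hT.clm (z • ContinuousLinearMap.id ℂ E)

theorem RL.ap {T : H → K →L[ℂ] K} (hT : RL T) (ξ : K) : RL fun v => T v ξ :=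
  hT.clm (ContinuousLinearMap.apply ℂ K ξ)

theorem RL.adj [CompleteSpace K] {T : H → K →L[ℂ] K} (hT : RL T) : RL (star T) := by
  obtain ⟨C, hC⟩ := hT.bdd
  refine ⟨fun u v => ?_, fun c v => ?_, C, fun v => ?_⟩
  · simp only [Pi.star_apply, hT.add, star_add]
  · simp only [Pi.star_apply, hT.smul, star_smul, Complex.star_def, Complex.conj_ofReal]
  · rw [Pi.star_apply, norm_star]; exact hC v

/-- the square of the Hilbert-Schmidt norm -/
noncomputable def hs (e : ι → H) (T : H → K) : ℝ≥0∞ := ∑' i, ‖T (e i)‖ₑ ^ 2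

section frame

variable {κ : Type} {f : κ → K} (hf : ∀ u, ∑' k, ‖(⟪f k, u⟫_ℂ).re‖ₑ ^ 2 = ‖u‖ₑ ^ 2)
  {T : H → K} {p : κ → H} (hp : ∀ k v, ⟪p k, v⟫_ℝ = (⟪f k, T v⟫_ℂ).re)
include hf hp

theorem hs_tr (v : ι → H) : hs v T = ∑' k, ∑' i, ‖⟪p k, v i⟫_ℝ‖ₑ ^ 2 := by
  rw [ENNReal.tsum_comm]
  exact tsum_congr fun i => by rw [← hf]; simp only [hp]

theorem hs_le_tr {v : ι → H} (hv : Orthonormal ℝ v) : hs v T ≤ ∑' k, ‖p k‖ₑ ^ 2 :=
  (hs_tr hf hp v).trans_le (ENNReal.tsum_le_tsum fun k => bessel hv (p k))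

theorem hs_eq_tr (e : HilbertBasis ι ℝ H) : hs e T = ∑' k, ‖p k‖ₑ ^ 2 :=
  (hs_tr hf hp e).trans (tsum_congr fun k => parseval e (p k))

end frame

variable [CompleteSpace H] [CompleteSpace H₁] [CompleteSpace K]

theorem hs_comp {T : H → K} (hT : RL T) (S : H₁ →L[ℝ] H) {v : ι₁ → H₁} (hv : Orthonormal ℝ v)
    (e : HilbertBasis ι ℝ H) : hs v (fun u => T (S u)) ≤ ‖S‖ₑ ^ 2 * hs e T := by
  obtain ⟨κ, f, hf⟩ := exists_frame K
  choose p hp using fun k => hT.exists_tr (f k)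
  rw [hs_eq_tr hf hp e, ← ENNReal.tsum_mul_left]
  refine (hs_le_tr hf (p := fun k => adjoint S (p k))
    (fun k u => by rw [adjoint_inner_left, hp]) hv).trans (ENNReal.tsum_le_tsum fun k => ?_)
  rw [← mul_pow]
  refine pow_le_pow_left' (((adjoint S).le_opENorm _).trans_eq ?_) 2
  rw [← ofReal_norm (adjoint S), LinearIsometryEquiv.norm_map, ofReal_norm]

theorem hs_on {T : H → K} (hT : RL T) {v : ι₁ → H} (hv : Orthonormal ℝ v)
    (e : HilbertBasis ι ℝ H) : hs v T ≤ hs e T := by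
  obtain ⟨κ, f, hf⟩ := exists_frame K
  choose p hp using fun k => hT.exists_tr (f k)
  rw [hs_eq_tr hf hp e]
  exact hs_le_tr hf hp hv

theorem hs_op {T : H → K} (hT : RL T) (e : HilbertBasis ι ℝ H) (v : H) :
    ‖T v‖ₑ ^ 2 ≤ hs e T * ‖v‖ₑ ^ 2 := by
  obtain ⟨κ, f, hf⟩ := exists_frame K
  choose p hp using fun k => hT.exists_tr (f k)
  rw [hs_eq_tr hf hp e, ← ENNReal.tsum_mul_right, ← hf]
  refine ENNReal.tsum_le_tsum fun k => ?_
  rw [← hp, ← mul_pow, ← ofReal_norm, ← ofReal_norm, ← ofReal_norm,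
    ← ENNReal.ofReal_mul (norm_nonneg _)]
  exact pow_le_pow_left' (ENNReal.ofReal_le_ofReal (norm_inner_le_norm _ _)) 2

theorem sq_le_add {F F' : Type*} [NormedAddCommGroup F] [NormedAddCommGroup F'] {u v : F}
    {a b : F'} (h : ‖u‖ ^ 2 - ‖v‖ ^ 2 ≤ ‖a‖ * ‖b‖) :
    ‖u‖ₑ ^ 2 ≤ ‖v‖ₑ ^ 2 + (‖a‖ₑ ^ 2 + ‖b‖ₑ ^ 2) := by
  simp only [enorm_sq_eq]
  rw [← ENNReal.ofReal_add (sq_nonneg _) (sq_nonneg _),
    ← ENNReal.ofReal_add (sq_nonneg _) (by positivity)]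
  exact ENNReal.ofReal_le_ofReal
    (by nlinarith [sq_nonneg (‖a‖ - ‖b‖), norm_nonneg a, norm_nonneg b])

/-- the defect of invariance of the kernel controls the defect of the column -/
theorem hs_lc {Y : Type*} {F : Y → H} {α β : Y → H₁} {ρ : H →L[ℝ] H}
    (h : ∀ y y', ⟪ρ (F y), ρ (F y')⟫_ℝ - ⟪F y, F y'⟫_ℝ = ⟪α y, β y'⟫_ℝ) {T : H → K}
    {A B : H₁ → K} (hT : RL T) (hA : RL A) (hB : RL B)
    (h0 : ∀ v a b, (∀ y, ⟪v, F y⟫_ℝ + ⟪a, α y⟫_ℝ + ⟪b, β y⟫_ℝ = 0) → T v + A a + B b = 0)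
    (e : HilbertBasis ι ℝ H) (e₁ : HilbertBasis ι₁ ℝ H₁) :
    hs e (fun v => T (adjoint ρ v)) ≤ hs e T + (hs e₁ A + hs e₁ B) ∧
      hs e T ≤ hs e (fun v => T (adjoint ρ v)) + (hs e₁ A + hs e₁ B) := by
  obtain ⟨κ, f, hf⟩ := exists_frame K
  choose p hp using fun k => hT.exists_tr (f k)
  choose a ha using fun k => hA.exists_tr (f k)
  choose b hb using fun k => hB.exists_tr (f k)
  have h1 : ∀ k v a' b', (∀ y, ⟪v, F y⟫_ℝ + ⟪a', α y⟫_ℝ + ⟪b', β y⟫_ℝ = 0) →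
      ⟪p k, v⟫_ℝ + ⟪a k, a'⟫_ℝ + ⟪b k, b'⟫_ℝ = 0 := fun k v a' b' h2 => by
    rw [hp, ha, hb, ← Complex.add_re, ← Complex.add_re, ← inner_add_right, ← inner_add_right,
      h0 v a' b' h2, inner_zero_right, Complex.zero_re]
  have h2 : ∀ k, ‖ρ (p k)‖ ^ 2 - ‖p k‖ ^ 2 = ⟪b k, a k⟫_ℝ := fun k => by
    have h3 := h1 k (adjoint ρ (ρ (p k)) - p k) 0 (-a k) fun y => by
      have h4 := h1 k (adjoint ρ (ρ (F y)) - F y) (-β y) 0 fun y' => by
        have h5 := h y' y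
        rw [inner_sub_left, adjoint_inner_left, inner_neg_left, inner_zero_left,
          real_inner_comm (ρ _), real_inner_comm (F _), real_inner_comm (α _)]
        linarith
      rw [inner_sub_right, adjoint_inner_right, inner_neg_right, inner_zero_right] at h4
      rw [inner_sub_left, adjoint_inner_left, inner_neg_left, inner_zero_left]
      linarith
    rw [inner_sub_right, adjoint_inner_right, inner_neg_right, inner_zero_right,
      real_inner_self_eq_norm_sq, real_inner_self_eq_norm_sq] at h3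
    linarith
  rw [hs_eq_tr hf hp e, hs_eq_tr hf ha e₁, hs_eq_tr hf hb e₁,
    hs_eq_tr hf (T := fun v => T (adjoint ρ v)) (p := fun k => ρ (p k))
      (fun k v => by rw [← hp, adjoint_inner_right]) e,
    ← ENNReal.tsum_add, ← ENNReal.tsum_add, ← ENNReal.tsum_add]
  refine ⟨ENNReal.tsum_le_tsum fun k => sq_le_add ?_, ENNReal.tsum_le_tsum fun k => sq_le_add ?_⟩
  · linarith [h2 k, real_inner_le_norm (b k) (a k)]
  · linarith [h2 k, neg_le_of_abs_le (abs_real_inner_le_norm (b k) (a k))]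

end hs

section gram

variable {K Y : Type} [NormedAddCommGroup K] [InnerProductSpace ℂ K] [CompleteSpace K]
  [MeasurableSpace Y]

/-- the Gram operator `∫ S* S` -/
theorem exists_gram (ν : Measure Y) (S : Y → K →L[ℂ] K) {s : ℝ≥0∞} (hs : s ≠ ∞)
    (hm : ∀ ξ, AEStronglyMeasurable (fun y => S y ξ) ν)
    (hb : ∀ ξ, ∫⁻ y, ‖S y ξ‖ₑ ^ 2 ∂ν ≤ s * ‖ξ‖ₑ ^ 2) :
    ∃ T : K →L[ℂ] K, 0 ≤ T ∧ (∀ ξ, ENNReal.ofReal (⟪ξ, T ξ⟫_ℂ).re = ∫⁻ y, ‖S y ξ‖ₑ ^ 2 ∂ν) ∧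
      ∀ w, (∀ y, S y * w = w * S y) → (∀ y, S y * adjoint w = adjoint w * S y) →
        T * w = w * T := by
  have h1 : ∀ ξ, MemLp (fun y => S y ξ) 2 ν := fun ξ => ⟨hm ξ, by
    rw [eLpNorm_lt_top_iff_lintegral_rpow_enorm_lt_top (by norm_num) (by norm_num)]
    simpa using (hb ξ).trans_lt (ENNReal.mul_lt_top hs.lt_top (by simp))⟩
  let V₀ : K →ₗ[ℂ] Lp K 2 ν :=
    { toFun := fun ξ => (h1 ξ).toLp _
      map_add' := fun u v => by
        rw [← MemLp.toLp_add]; congr 1; ext y; simp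
      map_smul' := fun c v => by
        rw [RingHom.id_apply, ← MemLp.toLp_const_smul]; congr 1; ext y; simp }
  have h2 : ∀ ξ, ⇑(V₀ ξ) =ᵐ[ν] fun y => S y ξ := fun ξ => (h1 ξ).coeFn_toLp
  have h3 : ∀ ξ, ‖V₀ ξ‖ₑ ^ 2 = ∫⁻ y, ‖S y ξ‖ₑ ^ 2 ∂ν := fun ξ => by
    rw [enorm_sq]
    exact lintegral_congr_ae ((h2 ξ).mono fun y hy => by simp only [hy])
  let V : K →L[ℂ] Lp K 2 ν := V₀.mkContinuous √s.toReal fun ξ =>
    norm_le_of_enorm_sq (Real.sqrt_nonneg _) (by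
      rw [h3, ← ENNReal.ofReal_pow (Real.sqrt_nonneg _), Real.sq_sqrt ENNReal.toReal_nonneg,
        ENNReal.ofReal_toReal hs]
      exact hb ξ)
  have h4 : ∀ ξ η, ⟪ξ, (adjoint V ∘L V) η⟫_ℂ = ∫ y, ⟪S y ξ, S y η⟫_ℂ ∂ν := fun ξ η => by
    rw [comp_apply, adjoint_inner_right, L2.inner_def]
    refine integral_congr_ae ?_
    filter_upwards [h2 ξ, h2 η] with y e1 e2 using by
      change ⟪V₀ ξ y, V₀ η y⟫_ℂ = _
      rw [e1, e2]
  refine ⟨adjoint V ∘L V, (nonneg_iff_isPositive _).2 (isPositive_adjoint_comp_self V),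
    fun ξ => ?_, fun w hw hw' => ContinuousLinearMap.ext fun η => ext_inner_left ℂ fun ξ => ?_⟩
  · rw [comp_apply, adjoint_inner_right, ← h3, enorm_sq_eq]
    exact congrArg _ (inner_self_eq_norm_sq (𝕜 := ℂ) (V ξ))
  · rw [mul_ap, mul_ap, ← adjoint_inner_left w, h4, h4]
    refine integral_congr_ae (Eventually.of_forall fun y => ?_)
    change ⟪S y ξ, (S y * w) η⟫_ℂ = ⟪(S y * adjoint w) ξ, S y η⟫_ℂ
    rw [hw, hw', mul_ap, mul_ap, adjoint_inner_left]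

end gram

end Vale.Agent.P092UB
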