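import Vale.Agent.P092UB.Col

/-!
P092, rank one, block A (helper90): the bimodule of the covariant columns.
-/

set_option linter.unusedSectionVars false

open scoped InnerProductSpace ENNReal NNReal
open MeasureTheory Filter Topology ContinuousLinearMap

namespace Vale.Agent.P092UB

open Vale.Agent.P092CP
open Vale.Agent.P092.RC (Cm)

section gen

variable {K ι : Type} [NormedAddCommGroup K] [InnerProductSpace ℂ K]

theorem lp_hasSum (u : lp (fun _ : ι => K) 2) : HasSum (fun i => ‖u i‖ ^ 2) (‖u‖ ^ 2) := by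
  simpa using lp.hasSum_norm (p := 2) (by norm_num) u

theorem lp_enorm (u : lp (fun _ : ι => K) 2) : ‖u‖ₑ ^ 2 = ∑' i, ‖u i‖ₑ ^ 2 := by
  rw [tsum_enorm_sq (lp_hasSum u).summable, (lp_hasSum u).tsum_eq, enorm_sq_eq]

theorem summable_of_ne {u : ι → K} (h : ∑' i, ‖u i‖ₑ ^ 2 ≠ ∞) : Summable fun i => ‖u i‖ ^ 2 := by
  simpa using ENNReal.summable_toReal h

theorem mem_lp {u : ι → K} (h : ∑' i, ‖u i‖ₑ ^ 2 ≠ ∞) : Memℓp u 2 :=
  memℓp_gen (by simpa using summable_of_ne h)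

theorem cont_of_dense {G X E : Type*} [TopologicalSpace G] [NormedAddCommGroup X] [NormedSpace ℂ X]
    {T : G → X →L[ℂ] X} {c : ℝ} (hT : ∀ g ξ, ‖T g ξ‖ ≤ c * ‖ξ‖) {e : E → X} (he : DenseRange e)
    (h : ∀ x, Continuous fun g => T g (e x)) (ξ : X) : Continuous fun g => T g ξ := by
  refine he.induction_on (p := fun ξ => Continuous fun g => T g ξ) ξ
    (IsSeqClosed.isClosed fun x η hx hη => ?_) h
  refine TendstoUniformly.continuous (p := atTop) (F := fun n g => T g (x n))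
    (Metric.tendstoUniformly_iff.2 fun ε hε => ?_) (Frequently.of_forall hx)
  have h1 := (tendsto_iff_norm_sub_tendsto_zero.1 hη).const_mul c
  rw [mul_zero] at h1
  filter_upwards [h1.eventually (gt_mem_nhds hε)] with n hn g
  rw [dist_comm, dist_eq_norm, ← map_sub]
  exact (hT _ _).trans_lt hn

end gen

variable {G G' K : Type} [Group G] [TopologicalSpace G] [IsTopologicalGroup G]
  [LocallyCompactSpace G] [SecondCountableTopology G] [T2Space G] [MeasurableSpace G] [BorelSpace G]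
  [Group G'] [TopologicalSpace G'] [IsTopologicalGroup G'] [LocallyCompactSpace G']
  [SecondCountableTopology G'] [T2Space G'] [MeasurableSpace G'] [BorelSpace G']
  [NormedAddCommGroup K] [InnerProductSpace ℂ K] [CompleteSpace K] {μ : Measure G}
  [μ.IsHaarMeasure] {μ' : Measure G'} [μ'.IsHaarMeasure] {W : Set (K →L[ℂ] K)}
  (C : Cpl μ μ' W) {r : G' → ℝ} {c Λ : ℝ} {D : ℝ → ℝ} (O : Orb r c D Λ) {ι : Type}
  [Countable ι] (e : HilbertBasis ι ℝ O.H)

/-- the space of columns -/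
def Cs : Submodule ℂ (O.H → K →L[ℂ] K) where
  carrier := {ζ | Cv C O ζ ∧ ∃ s ≠ ∞, Bb e ζ s}
  add_mem' := fun ⟨h1, s, hs, h2⟩ ⟨h3, s', hs', h4⟩ =>
    ⟨⟨h1.rl.add' h3.rl, fun v => cm_add (h1.cm v) (h3.cm v), fun g v => by
      simp only [Pi.add_apply, mul_add, add_mul, h1.cov, h3.cov]⟩, _, by finiteness, h2.add h4⟩
  zero_mem' := ⟨⟨RL.zero, fun _ => cm_zero, fun g v => by simp⟩, 0, by simp, Bb.zero⟩
  smul_mem' := fun z _ ⟨h1, s, hs, h2⟩ =>
    ⟨⟨h1.rl.smul' z, fun v => cm_smul z (h1.cm v), fun g v => by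
      simp only [Pi.smul_apply, mul_smul_comm, smul_mul_assoc, h1.cov]⟩,
      (h2.smul z).imp fun _ h => ⟨h.1 hs, h.2⟩⟩

/-- evaluation at the trace vector -/
noncomputable def ev₀ : Cs C O e →ₗ[ℂ] lp (fun _ : ι => K) 2 where
  toFun ζ := ⟨fun i => ζ.1 (e i) C.t.Ω, mem_lp (by
    obtain ⟨s, hs, h⟩ := ζ.2.2
    exact ne_top_of_le_ne_top (by finiteness) (h.col C.t.Ω))⟩
  map_add' _ _ := rfl
  map_smul' _ _ := rfl

/-- the completion -/
noncomputable abbrev XX : Submodule ℂ (lp (fun _ : ι => K) 2) :=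
  (LinearMap.range (ev₀ C O e)).topologicalClosure

/-- evaluation at the trace vector -/
noncomputable def ev : Cs C O e →ₗ[ℂ] XX C O e :=
  (ev₀ C O e).codRestrict _ fun ζ => Submodule.le_topologicalClosure _ ⟨ζ, rfl⟩

theorem dense_ev : DenseRange (ev C O e) := by
  rw [DenseRange, Subtype.dense_iff, ← Set.range_comp]
  exact subset_rfl

theorem enorm_ev (ζ : Cs C O e) : ‖ev C O e ζ‖ₑ ^ 2 = hs e fun v => ζ.1 v C.t.Ω := lp_enorm _

/-- extension to the completion -/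
noncomputable def xt {σ : ℂ →+* ℂ} (f : Cs C O e →ₛₗ[σ] Cs C O e) : XX C O e →SL[σ] XX C O e :=
  (ev C O e ∘ₛₗ f).extendOfNorm (ev C O e)

variable {C O e}

theorem xt_ev {σ : ℂ →+* ℂ} {f : Cs C O e →ₛₗ[σ] Cs C O e} {a : ℝ}
    (h : ∀ ζ, ‖ev C O e (f ζ)‖ ≤ a * ‖ev C O e ζ‖) (ζ : Cs C O e) :
    xt C O e f (ev C O e ζ) = ev C O e (f ζ) :=
  LinearMap.extendOfNorm_eq (dense_ev C O e) ⟨a, h⟩ ζ

theorem norm_xt {σ : ℂ →+* ℂ} {f : Cs C O e →ₛₗ[σ] Cs C O e} {a : ℝ}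
    (h : ∀ ζ, ‖ev C O e (f ζ)‖ ≤ a * ‖ev C O e ζ‖) (ξ : XX C O e) : ‖xt C O e f ξ‖ ≤ a * ‖ξ‖ :=
  LinearMap.norm_extendOfNorm_apply_le (dense_ev C O e) a h ξ

variable (C O e)

/-- two-sided multiplication -/
noncomputable def mulC (x y : K →L[ℂ] K) (hx : Cp C.t.π x) (hy : Cp C.t.π y)
    (hc : ∀ T, Cm W T → Cm W (x * T * y)) : Cs C O e →ₗ[ℂ] Cs C O e where
  toFun ζ := ⟨fun v => x * ζ.1 v * y, ζ.2.1.mul hx hy hc, by
    obtain ⟨s, hs, h⟩ := ζ.2.2
    exact ⟨_, by finiteness, h.mul x y⟩⟩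
  map_add' _ _ := Subtype.ext (funext fun v => by simp [mul_add, add_mul])
  map_smul' _ _ := Subtype.ext (funext fun v => by simp)

/-- the left action on columns -/
noncomputable def lC {x : K →L[ℂ] K} (hx : C.t.M x) : Cs C O e →ₗ[ℂ] Cs C O e :=
  mulC C O e x 1 hx.2 C.t.M_one.2 fun _ hT => cm_mul (cm_mul hx.1 hT) cm_one

/-- the action of the source on columns -/
noncomputable def sC (g : G) : Cs C O e →ₗ[ℂ] Cs C O e :=
  mulC C O e (C.s.π g) (C.s.π g⁻¹) (C.comm g) (C.comm g⁻¹) fun T hT => C.s.conj T hT g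

/-- the adjoint of a column -/
noncomputable def JC : Cs C O e →ₗ⋆[ℂ] Cs C O e where
  toFun ζ := ⟨star ζ.1, ζ.2.1.adj, ζ.2.2.imp fun _ h => ⟨h.1, h.2.adj⟩⟩
  map_add' _ _ := Subtype.ext (star_add _ _)
  map_smul' _ _ := Subtype.ext (star_smul _ _)

theorem ofReal_sq_le (c : ℝ) : ENNReal.ofReal c ^ 2 ≤ ENNReal.ofReal (c ^ 2 + 1) := by
  rcases le_total c 0 with h | h
  · simp [ENNReal.ofReal_of_nonpos h]
  · rw [← ENNReal.ofReal_pow h]
    exact ENNReal.ofReal_le_ofReal (by linarith)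

theorem norm_lC {x : K →L[ℂ] K} (hx : C.t.M x) (ζ : Cs C O e) :
    ‖ev C O e (lC C O e hx ζ)‖ ≤ ‖x‖ * ‖ev C O e ζ‖ :=
  norm_le_of_enorm_sq (norm_nonneg _) (by
    rw [enorm_ev, enorm_ev, ofReal_norm]
    exact hs_clm x _)

theorem norm_sC (g : G) (ζ : Cs C O e) :
    ‖ev C O e (sC C O e g ζ)‖ ≤ (c ^ 2 + 1) * ‖ev C O e ζ‖ :=
  norm_le_of_enorm_sq (by positivity) (by
    rw [enorm_ev, enorm_ev, sq (ENNReal.ofReal _), mul_assoc]
    refine le_trans (le_of_eq (tsum_congr fun i => ?_)) ((ζ.2.1.le_s (e := e) g⁻¹).trans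
      (mul_le_mul' (ofReal_sq_le c) (mul_le_mul_left (ofReal_sq_le c) _)))
    exact congrArg (· ^ 2) (C.s.enorm_π g _))

theorem norm_JC (ζ : Cs C O e) : ‖ev C O e (JC C O e ζ)‖ ≤ (c ^ 2 + 1) * ‖ev C O e ζ‖ :=
  norm_le_of_enorm_sq (by positivity) (by
    rw [enorm_ev, enorm_ev]
    refine (ζ.2.1.adj.le_star' (e := e)).trans ?_
    rw [star_star]
    exact mul_le_mul_left (pow_le_pow_left' (ENNReal.ofReal_le_ofReal (by nlinarith)) 2) _)

open Classical in
/-- the left action -/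
noncomputable def lX (x : K →L[ℂ] K) : XX C O e →L[ℂ] XX C O e :=
  if hx : C.t.M x then xt C O e (lC C O e hx) else 0

theorem lX_ev {x : K →L[ℂ] K} (hx : C.t.M x) (ζ : Cs C O e) :
    lX C O e x (ev C O e ζ) = ev C O e (lC C O e hx ζ) := by
  rw [lX, dif_pos hx, xt_ev (norm_lC C O e hx)]

theorem sX_ev (g : G) (ζ : Cs C O e) :
    xt C O e (sC C O e g) (ev C O e ζ) = ev C O e (sC C O e g ζ) := xt_ev (norm_sC C O e g) ζ

theorem JX_ev (ζ : Cs C O e) : xt C O e (JC C O e) (ev C O e ζ) = ev C O e (JC C O e ζ) :=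
  xt_ev (norm_JC C O e) ζ

theorem ext_ev {Y : Type*} [TopologicalSpace Y] [T2Space Y] {f g : XX C O e → Y}
    (hf : Continuous f) (hg : Continuous g) (h : ∀ ζ, f (ev C O e ζ) = g (ev C O e ζ))
    (ξ : XX C O e) : f ξ = g ξ := congrFun ((dense_ev C O e).equalizer hf hg (funext h)) ξ

/-- the action of the source -/
noncomputable def sX : G →* (XX C O e →L[ℂ] XX C O e) where
  toFun g := xt C O e (sC C O e g)
  map_one' := ContinuousLinearMap.ext (ext_ev C O e (by fun_prop) continuous_id fun ζ => by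
    rw [sX_ev]
    exact congrArg _ (Subtype.ext (funext fun v => by simp [sC, mulC])))
  map_mul' g h := ContinuousLinearMap.ext (ext_ev C O e (by fun_prop) (by fun_prop) fun ζ => by
    change _ = xt C O e (sC C O e g) (xt C O e (sC C O e h) _)
    rw [sX_ev, sX_ev, sX_ev]
    exact congrArg _ (Subtype.ext (funext fun v => (C.s.conj_conj g h _).symm)))

theorem cont_sC (ζ : Cs C O e) : Continuous fun g => ev C O e (sC C O e g ζ) := by
  obtain ⟨s, hs, h⟩ := ζ.2.2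
  refine continuous_iff_continuousAt.2 fun g₀ => tendsto_of_enorm_sq ?_
  have h1 := summable_of_ne (ne_top_of_le_ne_top (by finiteness) (h.col (C.s.π g₀⁻¹ C.t.Ω)))
  have h2 : Continuous fun g => ∑' i, ‖C.s.π g (ζ.1 (e i) (C.s.π g₀⁻¹ C.t.Ω)) -
      C.s.π g₀ (ζ.1 (e i) (C.s.π g₀⁻¹ C.t.Ω))‖ ^ 2 :=
    continuous_tsum (fun i => ((C.s.cont _).sub continuous_const).norm.pow 2) (h1.mul_left 4)
      fun i g => by
        rw [Real.norm_of_nonneg (sq_nonneg _)]
        refine (pow_le_pow_left₀ (norm_nonneg _) (norm_sub_le _ _) 2).trans_eq ?_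
        rw [C.s.norm_π, C.s.norm_π]; ring
  have h3 := (ENNReal.continuous_ofReal.comp h2).tendsto g₀
  have h4 := ((ENNReal.continuous_pow 2).comp (((C.s.cont C.t.Ω).comp continuous_inv).sub
    (continuous_const (y := C.s.π g₀⁻¹ C.t.Ω))).enorm).tendsto g₀
  simp only [Function.comp_def, Pi.sub_apply, sub_self, norm_zero, enorm_zero, ne_eq, OfNat.ofNat_ne_zero,
    not_false_eq_true, zero_pow, tsum_zero, ENNReal.ofReal_zero] at h3 h4
  have h5 := (ENNReal.Tendsto.const_mul (a := 2) (ENNReal.Tendsto.const_mul (a := s) h4 (.inr hs))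
    (.inr (by simp))).add (ENNReal.Tendsto.const_mul (a := 2) h3 (.inr (by simp)))
  simp only [mul_zero, add_zero] at h5
  refine tendsto_of_tendsto_of_tendsto_of_le_of_le tendsto_const_nhds h5 (fun _ => zero_le)
    fun g => ?_
  rw [← map_sub, enorm_ev]
  refine le_trans (le_of_eq ?_) ((hs_add (e := e)
    (fun v => C.s.π g (ζ.1 v (C.s.π g⁻¹ C.t.Ω - C.s.π g₀⁻¹ C.t.Ω)))
    fun v => C.s.π g (ζ.1 v (C.s.π g₀⁻¹ C.t.Ω)) - C.s.π g₀ (ζ.1 v (C.s.π g₀⁻¹ C.t.Ω))).trans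
    (add_le_add (mul_le_mul_right ?_ _) (mul_le_mul_right (le_of_eq ?_) _)))
  · congr 1
    funext v
    simp [sC, mulC]
  · exact (tsum_congr fun i => by rw [C.s.enorm_π]).trans_le (h.col _)
  · refine tsum_enorm_sq ((h1.mul_left 4).of_nonneg_of_le (fun _ => sq_nonneg _) fun i => ?_)
    refine (pow_le_pow_left₀ (norm_nonneg _) (norm_sub_le _ _) 2).trans_eq ?_
    rw [C.s.norm_π, C.s.norm_π]; ring

/-- **the model** -/
noncomputable def mdl : Bim C (c ^ 2 + 1) where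
  X := XX C O e
  I := ι
  co i := (lp.evalCLM ℂ (fun _ : ι => K) 2 i).comp (XX C O e).subtypeL
  l := lX C O e
  J := xt C O e (JC C O e)
  σ := sX C O e
  one_le := by nlinarith [sq_nonneg c]
  nrm ξ := lp_hasSum ξ.1
  co_l x hx i := ext_ev C O e (by fun_prop) (by fun_prop) fun ζ => by rw [lX_ev C O e hx]; rfl
  JJ := ext_ev C O e (by fun_prop) continuous_id fun ζ => by
    rw [JX_ev, JX_ev]
    exact congrArg _ (Subtype.ext (star_star _))
  nJ := norm_xt (norm_JC C O e)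
  lr x y hx hy := ext_ev C O e (by fun_prop) (by fun_prop) fun ζ => by
    simp only [JX_ev, lX_ev C O e hx, lX_ev C O e hy]
    exact congrArg _ (Subtype.ext (funext fun v => by simp [lC, mulC, JC, mul_assoc]))
  nσ g := norm_xt (norm_sC C O e g)
  cσ := cont_of_dense (fun g => norm_xt (norm_sC C O e g)) (dense_ev C O e) fun ζ =>
    (cont_sC C O e ζ).congr fun g => (sX_ev C O e g ζ).symm
  σl g x hx := ext_ev C O e (by fun_prop) (by fun_prop) fun ζ => by
    change xt C O e (sC C O e g) _ = lX C O e _ (xt C O e (sC C O e g) _)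
    rw [lX_ev C O e hx, sX_ev, sX_ev, lX_ev C O e (C.M_σ hx g)]
    refine congrArg _ (Subtype.ext (funext fun v => ?_))
    simpa [lC, sC, mulC] using C.s.conj_mul g x (ζ.1 v)
  σJ g := ext_ev C O e (by fun_prop) (by fun_prop) fun ζ => by
    change xt C O e (sC C O e g) _ = xt C O e (JC C O e) (xt C O e (sC C O e g) _)
    rw [JX_ev, sX_ev, sX_ev, JX_ev]
    exact congrArg _ (Subtype.ext (funext fun v => (C.s.conj_adj g (ζ.1 v)).symm))

end Vale.Agent.P092UB
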