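import Vale.Agent.P092UB.Cf

/-!
P092, rank one, block A (helper90): an operator which is locally almost invariant under the target
has almost the same expectation at all the trace vectors.
-/

set_option linter.unusedSectionVars false

open scoped InnerProductSpace ENNReal NNReal
open MeasureTheory Filter Topology ContinuousLinearMap

namespace Vale.Agent.P092UB

open Vale.Agent.P092CP
open Vale.Agent.P092.RC (Cm)

section pt

variable {K : Type} [NormedAddCommGroup K] [InnerProductSpace ℂ K]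

theorem four_re (a b g : K) : ‖a + g‖ ^ 2 + ‖b - g‖ ^ 2 =
    ‖a - g‖ ^ 2 + ‖b + g‖ ^ 2 + 4 * (⟪a - b, g⟫_ℂ).re := by
  simp only [norm_add_sq (𝕜 := ℂ), norm_sub_sq (𝕜 := ℂ), inner_sub_left, Complex.sub_re,
    RCLike.re_to_complex]
  ring

theorem four_in (a b g : K) {d : ℝ} (h : ‖a - b‖ ≤ d) (hg : ‖g‖ ≤ 1) :
    ‖a + g‖ₑ ^ 2 + ‖b - g‖ₑ ^ 2 ≤ ‖a - g‖ₑ ^ 2 + ‖b + g‖ₑ ^ 2 + ENNReal.ofReal (4 * d) := by
  have hd := (norm_nonneg _).trans h
  simp only [enorm_sq_eq]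
  rw [← ENNReal.ofReal_add (sq_nonneg _) (sq_nonneg _),
    ← ENNReal.ofReal_add (sq_nonneg _) (sq_nonneg _),
    ← ENNReal.ofReal_add (by positivity) (by positivity), four_re]
  refine ENNReal.ofReal_le_ofReal ?_
  have h1 := (Complex.re_le_norm _).trans (norm_inner_le_norm (𝕜 := ℂ) (a - b) g)
  nlinarith [mul_le_mul h hg (norm_nonneg _) hd]

theorem four_out (a b g : K) {θ : ℝ} (hθ : 0 < θ) :
    ‖a + g‖ₑ ^ 2 + ‖b - g‖ₑ ^ 2 ≤ ‖a - g‖ₑ ^ 2 + ‖b + g‖ₑ ^ 2 + (ENNReal.ofReal (4 * θ) *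
      (‖a‖ₑ ^ 2 + ‖b‖ₑ ^ 2) + ENNReal.ofReal (2 / θ) * ‖g‖ₑ ^ 2) := by
  simp only [enorm_sq_eq]
  rw [← ENNReal.ofReal_add (sq_nonneg _) (sq_nonneg _),
    ← ENNReal.ofReal_add (sq_nonneg _) (sq_nonneg _),
    ← ENNReal.ofReal_add (sq_nonneg _) (sq_nonneg _), ← ENNReal.ofReal_mul (by positivity),
    ← ENNReal.ofReal_mul (by positivity), ← ENNReal.ofReal_add (by positivity) (by positivity),
    ← ENNReal.ofReal_add (by positivity) (by positivity), four_re]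
  refine ENNReal.ofReal_le_ofReal ?_
  have h1 := (Complex.re_le_norm _).trans ((norm_inner_le_norm (𝕜 := ℂ) (a - b) g).trans
    (mul_le_mul_of_nonneg_right (norm_sub_le a b) (norm_nonneg _)))
  obtain ⟨t, ht⟩ : ∃ t, ‖g‖ = θ * t := ⟨‖g‖ / θ, by field_simp⟩
  have h2 : 2 / θ * (θ * t) ^ 2 = 2 * θ * t ^ 2 := by field_simp
  rw [ht] at h1
  rw [ht, h2]
  nlinarith [mul_nonneg hθ.le (sq_nonneg (‖a‖ + ‖b‖ - t)), mul_nonneg hθ.le (sq_nonneg (‖a‖ - ‖b‖))]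

/-- Dini -/
theorem unif_small {E : Type*} [TopologicalSpace E] {p : ℕ → E → ℝ≥0∞}
    (hc : ∀ n, Continuous (p n)) (hm : ∀ x, Antitone fun n => p n x)
    (h0 : ∀ x, Tendsto (fun n => p n x) atTop (𝓝 0)) {L : Set E} (hL : IsCompact L) {ε : ℝ≥0∞}
    (hε : 0 < ε) : ∃ n, ∀ x ∈ L, p n x < ε := by
  obtain ⟨n, hn⟩ := hL.elim_directed_cover (fun n => {x | p n x < ε})
    (fun n => isOpen_lt (hc n) continuous_const)
    (fun x _ => Set.mem_iUnion.2 ((h0 x).eventually (gt_mem_nhds hε)).exists)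
    (Monotone.directed_le fun m n h x hx => (hm x h).trans_lt hx)
  exact ⟨n, hn⟩

end pt

variable {G G' K : Type} [Group G] [TopologicalSpace G] [IsTopologicalGroup G]
  [LocallyCompactSpace G] [SecondCountableTopology G] [T2Space G] [MeasurableSpace G] [BorelSpace G]
  [Group G'] [TopologicalSpace G'] [IsTopologicalGroup G'] [LocallyCompactSpace G']
  [SecondCountableTopology G'] [T2Space G'] [MeasurableSpace G'] [BorelSpace G']
  [NormedAddCommGroup K] [InnerProductSpace ℂ K] [CompleteSpace K] {μ : Measure G}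
  [μ.IsHaarMeasure] {μ' : Measure G'} [μ'.IsHaarMeasure] {W : Set (K →L[ℂ] K)}
  (C : Cpl μ μ' W) {T u : K →L[ℂ] K}

theorem Tr_mul_unit (hT : Cm W T) (hu : Cm W u) (hu' : u ∈ unitary (K →L[ℂ] K)) :
    C.t.Tr (T * u) = C.t.Tr T := by
  have h1 : ∀ v ∈ unitary (K →L[ℂ] K), ‖v‖ₑ ^ 2 ≤ 1 := fun v hv => pow_le_one₀ (zero_le) (by
    rw [← ofReal_norm, ENNReal.ofReal_le_one]
    exact opNorm_le_bound _ zero_le_one fun ξ => by
      rw [one_mul, ContinuousLinearMap.norm_map_of_mem_unitary hv])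
  refine le_antisymm ((C.Tr_mul_le hT hu).trans (mul_le_of_le_one_left' (h1 u hu'))) ?_
  nth_rewrite 1 [← mul_one T]
  rw [← Unitary.mul_star_self_of_mem hu', ← mul_assoc]
  exact (C.Tr_mul_le (cm_mul hT hu) (C.adj_cm hu)).trans
    (mul_le_of_le_one_left' (h1 _ (Unitary.star_mem hu')))

theorem Tr_PD_le (hT : Cm W T) : C.t.Tr (C.t.P C.t.D * T) ≤ ‖T‖ₑ ^ 2 * μ' C.t.D := by
  rw [← C.t.Tr_P C.t.mD]
  exact C.Tr_mul_le (C.t.cm_P C.t.mD) hT

/-- the mass outside of `L` -/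
noncomputable def out (L : Set G') (ξ : K) : ℝ≥0∞ :=
  ∫⁻ x in Lᶜ, ‖C.t.P C.t.D (C.t.π x ξ)‖ₑ ^ 2 ∂μ'

theorem tr_form (hT : Cm W T) (hu : C.t.M u) (hu' : u ∈ unitary (K →L[ℂ] K)) {L : Set G'}
    (hL : MeasurableSet L) {d θ : ℝ} (hθ : 0 < θ)
    (hd : ∀ x ∈ L, ‖C.t.π x⁻¹ * T * C.t.π x - T‖ ≤ d) :
    C.t.Tr (C.t.P C.t.D * (T + 1)) + μ' C.t.D * ‖T (u C.t.Ω) - u C.t.Ω‖ₑ ^ 2 ≤
      C.t.Tr (C.t.P C.t.D * (T - 1)) + μ' C.t.D * ‖T (u C.t.Ω) + u C.t.Ω‖ₑ ^ 2 +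
      (ENNReal.ofReal (4 * d) * μ' L + (ENNReal.ofReal (4 * θ) * (2 * (‖T‖ₑ ^ 2 * μ' C.t.D)) +
        ENNReal.ofReal (2 / θ) * out C L (u C.t.Ω))) := by
  set P := C.t.P C.t.D with hP
  set ξ := u C.t.Ω with hξ
  have hPc := C.t.cm_P C.t.mD
  have n1 : ‖ξ‖ = 1 := by rw [hξ, ContinuousLinearMap.norm_map_of_mem_unitary hu', C.t.nΩ]
  have e1 : ∀ S, Cm W S → C.t.Tr (P * S) = ∫⁻ x, ‖(P * S) (C.t.π x ξ)‖ₑ ^ 2 ∂μ' := fun S hS => by
    rw [← Tr_mul_unit C (cm_mul hPc hS) hu.1 hu']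
    exact lintegral_congr fun x => by rw [mul_ap, hu.2.ap]
  have nP : ∀ η, ‖P η‖ ≤ ‖η‖ := fun η =>
    (P.le_of_opNorm_le (C.t.norm_P_le C.t.mD) η).trans_eq (one_mul _)
  have e2 := e1 T hT
  have e3 : μ' C.t.D * ‖T ξ‖ₑ ^ 2 ≤ ‖T‖ₑ ^ 2 * μ' C.t.D := by
    rw [mul_comm]
    refine mul_le_mul_left (pow_le_pow_left' ((T.le_opENorm ξ).trans_eq ?_) 2) _
    rw [← ofReal_norm ξ, n1, ENNReal.ofReal_one, mul_one]
  have m1 := C.t.meas_π
  calc _ = ∫⁻ x, ‖(P * (T + 1)) (C.t.π x ξ)‖ₑ ^ 2 + ‖P (C.t.π x (T ξ - ξ))‖ₑ ^ 2 ∂μ' := by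
        rw [lintegral_add_left (m1 _ _), e1 _ (cm_add hT cm_one), C.t.lint_P C.t.mD]
    _ ≤ ∫⁻ x, ‖(P * (T - 1)) (C.t.π x ξ)‖ₑ ^ 2 + ‖P (C.t.π x (T ξ + ξ))‖ₑ ^ 2 +
        (L.indicator (fun _ => ENNReal.ofReal (4 * d)) x + (ENNReal.ofReal (4 * θ) *
          (‖(P * T) (C.t.π x ξ)‖ₑ ^ 2 + ‖P (C.t.π x (T ξ))‖ₑ ^ 2) + ENNReal.ofReal (2 / θ) *
          Lᶜ.indicator (fun x => ‖P (C.t.π x ξ)‖ₑ ^ 2) x)) ∂μ' := by
        refine lintegral_mono fun x => ?_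
        simp only [mul_ap, add_apply, sub_apply, map_add, map_sub, one_apply_eq_self]
        by_cases hx : x ∈ L
        · refine (four_in _ _ _ (d := d) ?_ ((nP _).trans (by rw [C.t.norm_π, n1]))).trans ?_
          · rw [← map_sub]
            refine (nP _).trans ?_
            rw [← C.t.norm_π x⁻¹, map_sub, pi_inv_ap]
            exact (le_of_opNorm_le _ (hd x hx) ξ).trans_eq (by rw [n1, mul_one])
          · rw [Set.indicator_of_mem hx]
            exact add_le_add le_rfl le_self_add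
        · rw [Set.indicator_of_mem (Set.mem_compl hx)]
          exact (four_out _ _ _ hθ).trans (add_le_add le_rfl le_add_self)
    _ ≤ _ := by
        have m2 := (m1 P ξ).indicator hL.compl
        rw [lintegral_add_left ((m1 _ _).fun_add (m1 _ _)), lintegral_add_left (m1 _ _),
          lintegral_add_left (measurable_const.indicator hL),
          lintegral_add_left (((m1 _ _).fun_add (m1 _ _)).const_mul _),
          lintegral_const_mul _ ((m1 _ _).fun_add (m1 _ _)), lintegral_const_mul _ m2,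
          lintegral_add_left (m1 _ _), lintegral_indicator_const hL, lintegral_indicator hL.compl,
          ← e1 _ (cm_sub hT cm_one), ← e2, C.t.lint_P C.t.mD, C.t.lint_P C.t.mD, two_mul]
        gcongr
        · exact Tr_PD_le C hT
        · exact le_rfl

theorem tr_form' (hT : Cm W T) (hu : C.t.M u) (hu' : u ∈ unitary (K →L[ℂ] K)) {L : Set G'}
    (hL : MeasurableSet L) (hL' : μ' L ≠ ∞) {d θ ε : ℝ} (hθ : 0 < θ) (h0 : 0 ≤ d) (hε : 0 ≤ ε)
    (hd : ∀ x ∈ L, ‖C.t.π x⁻¹ * T * C.t.π x - T‖ ≤ d)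
    (ho : out C L (u C.t.Ω) ≤ ENNReal.ofReal ε) :
    (C.t.Tr (C.t.P C.t.D * (T + 1))).toReal - (C.t.Tr (C.t.P C.t.D * (T - 1))).toReal ≤
      4 * μ'.real C.t.D * (⟪u C.t.Ω, T (u C.t.Ω)⟫_ℂ).re +
      (4 * d * μ'.real L + (8 * θ * ‖T‖ ^ 2 * μ'.real C.t.D + 2 / θ * ε)) := by
  have hv := C.t.vol
  have f1 : C.t.Tr (C.t.P C.t.D * (T - 1)) ≠ ∞ :=
    ne_top_of_le_ne_top (by finiteness) (Tr_PD_le C (cm_sub hT cm_one))
  have f2 : C.t.Tr (C.t.P C.t.D * (T + 1)) ≠ ∞ :=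
    ne_top_of_le_ne_top (by finiteness) (Tr_PD_le C (cm_add hT cm_one))
  have h1 := ENNReal.toReal_mono (by finiteness) ((tr_form C hT hu hu' hL hθ hd).trans
    (add_le_add le_rfl (add_le_add le_rfl (add_le_add le_rfl (mul_le_mul_right ho _)))))
  rw [ENNReal.toReal_add f2 (by finiteness), ENNReal.toReal_add (by finiteness) (by finiteness),
    ENNReal.toReal_add f1 (by finiteness), ENNReal.toReal_add (by finiteness) (by finiteness),
    ENNReal.toReal_add (by finiteness) (by finiteness)] at h1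
  simp only [ENNReal.toReal_mul, ENNReal.toReal_pow, toReal_enorm, ENNReal.toReal_ofNat,
    ENNReal.toReal_ofReal hε, ENNReal.toReal_ofReal (show 0 ≤ 4 * d by positivity),
    ENNReal.toReal_ofReal (show 0 ≤ 4 * θ by positivity),
    ENNReal.toReal_ofReal (show 0 ≤ 2 / θ by positivity), norm_add_sq (𝕜 := ℂ),
    norm_sub_sq (𝕜 := ℂ), RCLike.re_to_complex] at h1
  rw [← inner_conj_symm, Complex.conj_re]
  simp only [Measure.real]
  linarith

theorem out_cont (L : Set G') : Continuous (out C L) := by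
  obtain ⟨T, h0, h1, -⟩ := exists_gram (μ'.restrict Lᶜ) (fun x => C.t.P C.t.D * C.t.π x) C.t.vol
    (fun ξ => ((C.t.P C.t.D).continuous.comp (C.t.cont ξ)).aestronglyMeasurable) fun ξ =>
      (setLIntegral_le_lintegral _ _).trans_eq (C.t.lint_P C.t.mD ξ)
  refine (ENNReal.continuous_ofReal.comp (Complex.continuous_re.comp
    (continuous_id.inner T.continuous))).congr h1

theorem out_small {r : G' → ℝ} (hr : Measurable r) {S : Set K} (hS : IsCompact S) {ε : ℝ}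
    (hε : 0 < ε) : ∃ n : ℕ, ∀ ξ ∈ S, out C {x | r x ≤ n} ξ ≤ ENNReal.ofReal ε := by
  have hm : Antitone fun n : ℕ => {x | r x ≤ n}ᶜ := fun m n h x hx hx' =>
    hx (le_trans (b := (m : ℝ)) hx' (Nat.cast_le.2 h))
  have h0 : ∀ ξ, Tendsto (fun n : ℕ => out C {x | r x ≤ n} ξ) atTop (𝓝 0) := fun ξ => by
    have h1 := tendsto_measure_iInter_atTop
      (μ := μ'.withDensity fun x => ‖C.t.P C.t.D (C.t.π x ξ)‖ₑ ^ 2)
      (fun n => (measurableSet_le hr measurable_const).compl.nullMeasurableSet) hm ⟨0, by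
        refine ne_top_of_le_ne_top ?_ (measure_mono (Set.subset_univ _))
        rw [withDensity_apply _ MeasurableSet.univ, setLIntegral_univ, C.t.lint_P C.t.mD]
        have := C.t.vol
        finiteness⟩
    have h2 : ⋂ n : ℕ, {x | r x ≤ n}ᶜ = ∅ := Set.eq_empty_of_forall_notMem fun x hx =>
      Set.mem_iInter.1 hx ⌈r x⌉₊ (Nat.le_ceil (r x))
    rw [h2, measure_empty] at h1
    exact h1.congr fun n => withDensity_apply _ (measurableSet_le hr measurable_const).compl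
  obtain ⟨n, hn⟩ := unif_small (p := fun n => out C {x | r x ≤ n}) (fun n => out_cont C _)
    (fun ξ m n h => lintegral_mono_set (hm h)) h0 hS (ENNReal.ofReal_pos.2 hε)
  exact ⟨n, fun ξ h => (hn ξ h).le⟩

/-- **the normal piece**, for one operator -/
theorem normal_op {r : G' → ℝ} (hr : Measurable r) (hr' : ∀ R, μ' {x | r x ≤ R} ≠ ∞)
    {D : ℝ → ℝ} (hD : Monotone D) (hD0 : ∀ R, 0 ≤ D R) {L : Set G} (hL : IsCompact L) {ε : ℝ}
    (hε : 0 < ε) : ∃ N : ℝ, 0 ≤ N ∧ ∀ T, Cm W T →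
      (∀ x, ‖C.t.π x⁻¹ * T * C.t.π x - T‖ ≤ D (r x)) → ∀ g ∈ L,
      |(⟪C.s.π g C.t.Ω, T (C.s.π g C.t.Ω)⟫_ℂ).re - (⟪C.t.Ω, T C.t.Ω⟫_ℂ).re| ≤ N + ε * ‖T‖ := by
  set v := μ'.real C.t.D with hv
  have v0 : 0 < v := ENNReal.toReal_pos C.t.vol_ne C.t.vol
  obtain ⟨n, hn⟩ := out_small C hr ((hL.image (C.s.cont C.t.Ω)).insert C.t.Ω)
    (ε := ε ^ 2 * v / 16) (by positivity)
  have hm : MeasurableSet {x | r x ≤ n} := measurableSet_le hr measurable_const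
  have hD1 := hD0 n
  refine ⟨2 * D n * μ'.real {x | r x ≤ n} / v + ε / 2, by positivity, fun T hT hd g hg => ?_⟩
  have key : ∀ T u u', Cm W T → (∀ x, ‖C.t.π x⁻¹ * T * C.t.π x - T‖ ≤ D (r x)) → C.t.M u →
      u ∈ unitary (K →L[ℂ] K) → C.t.M u' → u' ∈ unitary (K →L[ℂ] K) →
      out C {x | r x ≤ n} (u C.t.Ω) ≤ ENNReal.ofReal (ε ^ 2 * v / 16) →
      out C {x | r x ≤ n} (u' C.t.Ω) ≤ ENNReal.ofReal (ε ^ 2 * v / 16) →
      (⟪u C.t.Ω, T (u C.t.Ω)⟫_ℂ).re - (⟪u' C.t.Ω, T (u' C.t.Ω)⟫_ℂ).re ≤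
        2 * D n * μ'.real {x | r x ≤ n} / v + ε / 2 + ε * ‖T‖ := by
    intro T u u' hT hd h1 h2 h3 h4 h5 h6
    have hθ : 0 < ε / (8 * (‖T‖ + 1)) := by positivity
    have a1 := tr_form' C hT h3 h4 hm (hr' n) hθ hD1 (by positivity)
      (fun x hx => (hd x).trans (hD hx)) h6
    have a2 := tr_form' C (cm_neg hT) h1 h2 hm (hr' n) hθ hD1 (by positivity)
      (fun x hx => by
        rw [mul_neg, neg_mul, neg_sub_neg, norm_sub_rev]; exact (hd x).trans (hD hx)) h5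
    have e1 : C.t.Tr (C.t.P C.t.D * (-T + 1)) = C.t.Tr (C.t.P C.t.D * (T - 1)) := by
      rw [← C.t.Tr_neg, ← mul_neg, neg_add_rev, neg_neg, neg_add_eq_sub]
    have e2 : C.t.Tr (C.t.P C.t.D * (-T - 1)) = C.t.Tr (C.t.P C.t.D * (T + 1)) := by
      rw [← C.t.Tr_neg, ← mul_neg, neg_sub, sub_neg_eq_add, add_comm]
    rw [e1, e2, norm_neg, neg_apply, inner_neg_right, Complex.neg_re] at a2
    have e3 : 2 / (ε / (8 * (‖T‖ + 1))) * (ε ^ 2 * v / 16) = ε * v * (‖T‖ + 1) := by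
      field_simp; ring
    have e4 : 8 * (ε / (8 * (‖T‖ + 1))) * ‖T‖ ^ 2 * v ≤ ε * v * ‖T‖ := by
      have : 8 * (ε / (8 * (‖T‖ + 1))) * ‖T‖ ^ 2 * v = ε * v * ‖T‖ * (‖T‖ / (‖T‖ + 1)) := by
        field_simp
      rw [this]
      exact mul_le_of_le_one_right (by positivity) (div_le_one_of_le₀ (by linarith) (by positivity))
    rw [← hv, e3] at a1 a2
    refine le_of_mul_le_mul_left ?_ v0
    have e5 : v * (2 * D n * μ'.real {x | r x ≤ n} / v + ε / 2 + ε * ‖T‖) =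
        2 * D n * μ'.real {x | r x ≤ n} + v * (ε / 2) + v * (ε * ‖T‖) := by field_simp
    rw [e5]
    linarith
  obtain ⟨u, h1, h2, h3⟩ := C.exu g
  have o1 := hn _ (Set.mem_insert_of_mem _ ⟨g, hg, rfl⟩)
  have o2 := hn _ (Set.mem_insert _ _)
  simp only [← h3] at o1 ⊢
  have k1 := key T u 1 hT hd h1 h2 C.t.M_one (one_mem _) o1 o2
  have k2 := key T 1 u hT hd C.t.M_one (one_mem _) h1 h2 o2 o1
  simp only [one_apply_eq_self] at k1 k2
  exact abs_sub_le_iff.2 ⟨k1, k2⟩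

end Vale.Agent.P092UB
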