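import Vale.Agent.P092UB.Smo

/-!
P092, rank one, block A (helper90): the normal pieces and the singular piece.
-/

set_option linter.unusedSectionVars false

open scoped InnerProductSpace ENNReal NNReal Pointwise
open MeasureTheory Filter Topology ContinuousLinearMap

namespace Vale.Agent.P092UB

open Vale.Agent.P092CP Vale.Agent.P092RG Vale.Agent.P092RK
open Vale.Agent.P092.H793.Re (SLn)

variable {G G' K : Type} [Group G] [TopologicalSpace G] [IsTopologicalGroup G]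
  [LocallyCompactSpace G] [SecondCountableTopology G] [T2Space G] [MeasurableSpace G] [BorelSpace G]
  [Group G'] [TopologicalSpace G'] [IsTopologicalGroup G'] [LocallyCompactSpace G']
  [SecondCountableTopology G'] [T2Space G'] [MeasurableSpace G'] [BorelSpace G']
  [NormedAddCommGroup K] [InnerProductSpace ℂ K] [CompleteSpace K] {μ : Measure G}
  [μ.IsHaarMeasure] {μ' : Measure G'} [μ'.IsHaarMeasure] {W : Set (K →L[ℂ] K)}
  {C : Cpl μ μ' W} {c : ℝ} {n : ℕ} {ρ : G →* SLn n} {w : Fin n → ℝ} {h : R1 ρ w}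
  {φ : G → ℝ} {L r₀ e δ : ℝ} {m : Measure G} {k : ℝ → ℝ}

section one

variable (B : Bim C c) {η : B.X}

/-- the cocycle of the smoothed vector -/
noncomputable def bb (φ : G → ℝ) (η : B.X) (g : G) : B.X := B.σ g (Zf B η φ) - Zf B η φ

/-- the displacement of the averaged vector -/
noncomputable def TT (φ : G → ℝ) (m : Measure G) (η : B.X) (x : G) : B.X :=
  ∫ g, (bb B φ η (x * g) - bb B φ η g) ∂m

theorem bb_coc (g u : G) : bb B φ η (g * u) - bb B φ η g = B.σ g (bb B φ η u) := by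
  rw [bb, bb, bb, map_sub, σ_σ, sub_sub_sub_cancel_right]

theorem bb_cont : Continuous (bb B φ η) := (B.cσ _).sub continuous_const

theorem int_σ {ν : Measure G} [IsFiniteMeasure ν] (x : G) (ξ : B.X) :
    Integrable (fun g => B.σ (x * g) ξ) ν :=
  Integrable.of_bound ((B.cσ ξ).comp (continuous_const_mul x)).aestronglyMeasurable _
    (Eventually.of_forall fun _ => B.nσ _ _)

theorem int_σ' {ν : Measure G} [IsFiniteMeasure ν] (ξ : B.X) : Integrable (fun g => B.σ g ξ) ν := by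
  simpa using int_σ B (ν := ν) 1 ξ

theorem int_bb [IsFiniteMeasure m] (x : G) :
    Integrable (fun g => bb B φ η (x * g) - bb B φ η g) m :=
  ((int_σ B x _).sub (integrable_const _)).sub ((int_σ' B _).sub (integrable_const _))

variable {B}

theorem bb_eq (hL : Tb h φ L r₀) (g : G) :
    bb B φ η g = Zf B η fun v => φ (g⁻¹ * v) - φ v := by
  rw [bb, σ_Zf' hL, Zf, Zf, Zf, ← integral_sub ((hL.shift g).int (B.cσ η)) (hL.int (B.cσ η))]
  simp only [sub_smul]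

theorem bb_tb (hL : Tb h φ L r₀) (g : G) :
    Tb h (fun v => φ (g⁻¹ * v) - φ v) (2 * L) (r₀ + h.rr g) ∧
      ∫ v, (φ (g⁻¹ * v) - φ v) ∂μ = 0 :=
  ⟨(hL.shift g).sub (hL.mono (le_add_of_nonneg_right (h.rr_nonneg g))), by
    rw [integral_sub (hL.shift g).int' hL.int', integral_mul_left_eq_self, sub_self]⟩

theorem bb_sm (hL : Tb h φ L r₀) (g : G) : Sm h B η (2 * L) (r₀ + h.rr g) (bb B φ η g) :=
  ⟨_, (bb_tb (μ := μ) hL g).1, (bb_tb hL g).2, bb_eq hL g⟩

theorem bb_K (hφ : Bump μ h φ r₀) {κ : G} (hκ : κ ∈ h.K) : bb B φ η κ = 0 := by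
  obtain ⟨L, hL⟩ := hφ.tb
  simp [bb_eq hL, hφ.inv _ (h.K.inv_mem hκ), Zf]

theorem bb_J (hL : Tb h φ L r₀) (g : G) : B.J (bb B φ η g) = bb B φ (B.J η) g := by
  rw [bb, map_sub, ← B.σJ, J_Zf hL, bb]

theorem TT_J [IsFiniteMeasure m] (hL : Tb h φ L r₀) (x : G) :
    B.J (TT B φ m η x) = TT B φ m (B.J η) x := by
  rw [TT, J_int B (int_bb B x)]
  simp only [map_sub, bb_J hL, TT]

theorem bb_grow (hφ : Bump μ h φ r₀) (hη : En h B η e) (g : G) :
    ‖bb B φ η g‖ ≤ 2 * c * e * (1 + r₀) * (1 + h.rr g) := by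
  obtain ⟨L, hL⟩ := hφ.tb
  have h0 := mul_nonneg (b_c B) hη.nonneg
  rw [bb, σ_Zf hL, Zf, ← integral_sub (hL.int (f := fun v => B.σ (g * v) η)
    ((B.cσ η).comp (continuous_const_mul g)))
    (hL.int (B.cσ η))]
  refine (norm_integral_le_of_norm_le (hL.int'.mul_const (2 * c * e * (1 + r₀) * (1 + h.rr g)))
    (Eventually.of_forall fun v => ?_)).trans_eq (by rw [integral_mul_const, hφ.int, one_mul])
  rcases lt_or_ge r₀ (h.rr v) with h1 | h1
  · simp [hφ.supp v h1]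
  rw [← smul_sub, norm_smul, Real.norm_of_nonneg (hφ.nonneg v),
    ← sub_sub_sub_cancel_right _ _ η]
  refine mul_le_mul_of_nonneg_left ((norm_sub_le _ _).trans ((add_le_add (hη.grow _)
    (hη.grow _)).trans ?_)) (hφ.nonneg v)
  have h2 : (1 + h.rr (g * v)) + (1 + h.rr v) ≤ 2 * (1 + r₀) * (1 + h.rr g) := by
    nlinarith [h.rr_mul_le g v, h.rr_nonneg g, hφ.r_nonneg]
  nlinarith [mul_le_mul_of_nonneg_left h2 h0]

/-- the modulus of continuity -/
noncomputable def om (μ : Measure G) (h : R1 ρ w) (φ : G → ℝ) (u : G) : ℝ :=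
  ∫ v, |φ (u⁻¹ * v) - φ v| * (1 + h.rr v) ∂μ

theorem bb_mod (hφ : Bump μ h φ r₀) (hη : En h B η e) (u : G) :
    ‖bb B φ η u‖ ≤ c * e * om μ h φ u := by
  obtain ⟨L, hL⟩ := hφ.tb
  obtain ⟨h1, h2⟩ := bb_tb (μ := μ) hL u
  rw [bb_eq hL, Zf_eq h1 h2, om, ← integral_const_mul]
  refine norm_integral_le_of_norm_le (Integrable.const_mul ?_ _) (Eventually.of_forall fun v => ?_)
  · simpa only [smul_eq_mul, abs_mul, Real.norm_eq_abs,
      abs_of_nonneg (add_nonneg zero_le_one (h.rr_nonneg _))] using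
      (h1.int (μ := μ) (f := fun v => 1 + h.rr v) (continuous_const.add h.continuous_rr)).norm
  · rw [norm_smul, mul_left_comm]
    exact mul_le_mul_of_nonneg_left (hη.grow v) (norm_nonneg _)

theorem om_lim (hφ : Bump μ h φ r₀) : Tendsto (om μ h φ) (𝓝 1) (𝓝 0) := by
  obtain ⟨L, hL⟩ := hφ.tb
  have h1 := tendsto_integral_filter_of_dominated_convergence (μ := μ) (l := 𝓝 (1 : G))
    (F := fun u v => |φ (u⁻¹ * v) - φ v| * (1 + h.rr v)) (f := fun _ => 0)
    ({g | h.rr g ≤ r₀ + 1}.indicator fun _ => 2 * L * (1 + (r₀ + 1)))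
    (Eventually.of_forall fun u => (((hφ.cont.comp (continuous_const_mul _)).sub hφ.cont).abs.mul
      (continuous_const.add h.continuous_rr)).aestronglyMeasurable) ?_
    ((integrableOn_const (h.isCompact_ball _).measure_lt_top.ne).integrable_indicator
      (meas_ball h _)) (Eventually.of_forall fun v => ?_)
  · rw [integral_zero] at h1
    exact h1
  · filter_upwards [h.continuous_rr.continuousAt.eventually_le_const
      (show h.rr 1 < 1 by rw [h.rr_one]; exact one_pos)] with u hu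
    have h2 := (bb_tb (μ := μ) hL u).1.mono (add_le_add le_rfl hu)
    refine Eventually.of_forall fun v => ?_
    by_cases hv : h.rr v ≤ r₀ + 1
    · have := h.rr_nonneg v
      rw [Set.indicator_of_mem (show v ∈ {g | h.rr g ≤ r₀ + 1} from hv),
        Real.norm_of_nonneg (by positivity)]
      exact mul_le_mul (h2.bd v) (add_le_add le_rfl hv) (by positivity)
        ((abs_nonneg _).trans (h2.bd v))
    · rw [Set.indicator_of_notMem (show v ∉ {g | h.rr g ≤ r₀ + 1} from hv), h2.supp v (not_le.1 hv)]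
      simp
  · have h2 : Continuous fun u : G => |φ (u⁻¹ * v) - φ v| * (1 + h.rr v) := by
      have := hφ.cont
      fun_prop
    simpa using h2.tendsto 1

/-- the scale at which the normal pieces are tested -/
noncomputable def eps (N : ℕ) : ℝ := 1 / (N * ((2 * N) ^ N) ^ 2)

variable {N : ℕ} {a b x y E F : K →L[ℂ] K} {V : Set B.X} {Nn : Set G → ℝ → ℝ} {θ R : ℝ} {ζ : B.X}

theorem comm_sm (hx : C.t.M x) (hy : C.t.M y) (nx : ‖x‖ ≤ 1) (ny : ‖y‖ ≤ 1)
    (ax : Ai h B k θ η x) (ay : Ai h B k θ (B.J η) y) (hζ : Sm h B η L R ζ) (g : G) :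
    ‖B.σ g (B.l x (rt B y ζ)) - B.l x (rt B y (B.σ g ζ))‖ ≤
      (c + c ^ 2) * (L * k (R + h.rr g)) * θ :=
  (comm_le B hx hy nx ny g ζ).trans ((add_le_add
    (mul_le_mul_of_nonneg_left (ay g L R _ hζ.J) (b_c B))
    (mul_le_mul_of_nonneg_left (ax g L R _ hζ) (sq_nonneg c))).trans_eq (by ring))

theorem lrt_le (hx : C.t.M x) (hy : C.t.M y) (nx : ‖x‖ ≤ 1) (ny : ‖y‖ ≤ 1) (ζ : B.X) :
    ‖B.l x (rt B y ζ)‖ ≤ c ^ 2 * ‖ζ‖ := (b_le B hx nx _).trans (rt_le B hy ny _)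

theorem J_lrt (hx : C.t.M x) (hy : C.t.M y) (ζ : B.X) :
    B.J (B.l x (rt B y ζ)) = B.l y (rt B x (B.J ζ)) := by
  rw [l_rt B hy hx, rt_apply, rt_apply]

theorem piece_est (hN : 1 ≤ N) (hF : Lv h B k N (B.J η) b F) (hx : C.t.M x) (nx : ‖x‖ ≤ 1)
    (ax : Ai h B k (th c N) η x) (hV : Vs B Nn V) (hs : Nn {g | h.rr g ≤ N} (eps N) ≤ 1 / N)
    (hζ : Sm h B η L R ζ) (hζ' : ζ ∈ V) {g : G} (hg : h.rr g ≤ N) {s : ℝ} (hn : ‖ζ‖ ≤ s) :
    |‖B.l x (rt B (1 - F) (B.σ g ζ))‖ ^ 2 - ‖B.l x (rt B (1 - F) ζ)‖ ^ 2| ≤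
      (c + c ^ 2) * (L * k (R + h.rr g)) * (2 * c ^ 3 * s) * th c N +
      (1 + (c ^ 2 * (L * k R)) ^ 2) * (1 / N) := by
  have hc := b_c B
  have m1 := C.t.M_one.sub hF.cut.mem
  have hN' : (0 : ℝ) < N := by exact_mod_cast hN
  have h1 := comm_sm hx m1 nx hF.cut.nE' ax (hF.ai.one_sub hF.cut.mem) hζ g
  have h2 := hV.nrm _ (h.isCompact_ball N) (eps N) (by unfold eps; positivity) g hg _
    (hV.l x hx nx _ (hV.J _ (hV.l _ m1 hF.cut.nE' _ (hV.J _ hζ'))))
    (c ^ 2 * (L * k R) * (2 * N) ^ N) fun y hy => by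
      rw [← rt_apply B (B.J ζ |> fun _ => ζ), J_lrt hx m1, l_rt B m1 hx, l_rt B hy hx,
        ← b_mul B hy m1, mul_assoc, mul_assoc]
      refine (rt_le B hx nx _).trans (mul_le_mul_of_nonneg_left
        ((hF.dom _ _ _ hζ.J _ (hy.mul m1)).trans (mul_le_mul_of_nonneg_left ?_
          (mul_nonneg hζ.nonneg (hF.k0 _)))) (sq_nonneg c))
      rw [← star_eq_adjoint, star_mul, star_sub, star_one, star_eq_adjoint, star_eq_adjoint,
        hF.cut.sa, ← C.norm_adj_Ω hy]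
      exact le_of_opNorm_le _ hF.cut.bd _
  have e1 : eps N * (c ^ 2 * (L * k R) * (2 * N) ^ N) ^ 2 = (c ^ 2 * (L * k R)) ^ 2 * (1 / N) := by
    unfold eps; field_simp
  rw [e1, ← rt_apply] at h2
  have h3 := (lrt_le hx m1 nx hF.cut.nE' (B.σ g ζ)).trans (mul_le_mul_of_nonneg_left
    ((B.nσ g ζ).trans (mul_le_mul_of_nonneg_left hn hc)) (sq_nonneg c))
  have h4 := (B.nσ g _).trans (mul_le_mul_of_nonneg_left ((lrt_le hx m1 nx hF.cut.nE' ζ).trans
    (mul_le_mul_of_nonneg_left hn (sq_nonneg c))) hc)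
  have h5 := (abs_norm_sub_norm_le _ _).trans h1
  have h6 := mul_le_mul h5 (add_le_add h4 h3) (by positivity) ((abs_nonneg _).trans h5)
  rw [← abs_of_nonneg (add_nonneg (norm_nonneg _) (norm_nonneg _)), ← abs_mul, mul_comm,
    ← sq_sub_sq] at h6
  rw [abs_le] at h2 h6 ⊢
  constructor <;> linarith [h2.1, h2.2, h6.1, h6.2]

theorem av_le (hE : Lv h B k N η a E) {P : Type} [MeasurableSpace P] {p : Measure P} {γ : P → G}
    (hL : 0 ≤ L) (hδ : 0 ≤ δ)
    (hr : ∀ a, C.t.M a → L * ‖av C p γ a - C.t.τ a • C.t.Ω‖ ≤ δ * ‖a C.t.Ω‖) :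
    ‖av C p γ (((c ^ 2 * (L * k r₀) : ℝ) : ℂ) • (a * E))‖ ≤
      c ^ 4 * k r₀ * (δ + L * c ^ 2 * √(1 / N)) := by
  have k0 := hE.k0 r₀
  have h1 := hr _ (hE.mem.mul hE.cut.mem)
  have h2 : ‖(a * E) C.t.Ω‖ ≤ c ^ 2 := by
    rw [hE.cut.comm]
    exact (le_of_opNorm_le _ hE.cut.nE _).trans (by rw [one_mul]; exact hE.le)
  have h3 : ‖E C.t.Ω‖ ≤ c ^ 2 * √(1 / N) := by
    refine (abs_le_of_sq_le_sq' (hE.cut.tr.trans ?_) (by positivity)).2
    rw [mul_pow, Real.sq_sqrt (by positivity), mul_one_div]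
    gcongr
    exact hE.le
  have h4 : ‖C.t.τ (a * E) • C.t.Ω‖ ≤ c ^ 2 * √(1 / N) * c ^ 2 := by
    rw [norm_smul, C.t.nΩ, mul_one, hE.cut.comm, Side.τ, mul_ap, ← adjoint_inner_left, hE.cut.sa]
    exact (norm_inner_le_norm _ _).trans (mul_le_mul h3 hE.le (norm_nonneg _) (by positivity))
  have h5 : av C p γ (((c ^ 2 * (L * k r₀) : ℝ) : ℂ) • (a * E)) =
      ((c ^ 2 * (L * k r₀) : ℝ) : ℂ) • av C p γ (a * E) := by
    simp only [av, sg, mul_smul_comm, smul_mul_assoc, smul_apply, integral_smul]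
  have h6 := mul_le_mul_of_nonneg_left ((norm_le_norm_add_norm_sub' _
    (C.t.τ (a * E) • C.t.Ω)).trans (add_le_add h4 (le_refl ‖av C p γ (a * E) - _‖))) hL
  rw [h5, norm_smul, Complex.norm_real, Real.norm_of_nonneg (by positivity)]
  nlinarith [mul_le_mul_of_nonneg_left (h6.trans (show _ ≤ L * (c ^ 2 * √(1 / N) * c ^ 2) +
    δ * c ^ 2 by nlinarith [mul_le_mul_of_nonneg_left h2 hδ])) (mul_nonneg (sq_nonneg c) k0)]

theorem dom_sing (hE : Lv h B k N η a E) (hy : C.t.M y) (ny : ‖y‖ ≤ 1) (hζ : Sm h B η L r₀ ζ) :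
    B.Dom (B.l E (rt B y ζ)) (((c ^ 2 * (L * k r₀) : ℝ) : ℂ) • (a * E)) := fun x hx => by
  have h0 := mul_nonneg hζ.nonneg (hE.k0 r₀)
  rw [← b_mul B hx hE.cut.mem, l_rt B (hx.mul hE.cut.mem) hy, smul_apply, norm_smul,
    Complex.norm_real, Real.norm_of_nonneg (by positivity), mul_assoc]
  refine (rt_le B hy ny _).trans (mul_le_mul_of_nonneg_left
    ((hE.dom _ _ _ hζ _ (hx.mul hE.cut.mem)).trans_eq ?_) (sq_nonneg c))
  rw [← star_eq_adjoint, star_mul, star_eq_adjoint, star_eq_adjoint, hE.cut.sa]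
  rfl

end one

variable {B : ℕ → Bim C c} {η : ∀ j, (B j).X} {lev : ℕ → ℕ} {a b x E F : ℕ → K →L[ℂ] K}
  {V : ∀ j, Set (B j).X} {Nn : ℕ → Set G → ℝ → ℝ}

/-- **the normal pieces** -/
theorem normal_piece [IsFiniteMeasure m] (hφ : Bump μ h φ r₀) (hm : COC h m δ)
    (hl : Tendsto lev atTop atTop) (hη : ∀ j, En h (B j) (η j) c)
    (hF : ∀ j, Lv h (B j) k (lev j) ((B j).J (η j)) (b j) (F j)) (hx : ∀ j, C.t.M (x j))
    (nx : ∀ j, ‖x j‖ ≤ 1) (ax : ∀ j, Ai h (B j) k (th c (lev j)) (η j) (x j))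
    (hV : ∀ j, Vs (B j) (Nn j) (V j))
    (hs : ∀ j, Nn j {g | h.rr g ≤ lev j} (eps (lev j)) ≤ 1 / lev j)
    (hb : ∀ j g, bb (B j) φ (η j) g ∈ V j) (x₀ : G) {ε : ℝ} (hε : 0 < ε) : ∀ᶠ j in atTop,
      ‖(B j).l (x j) (rt (B j) (1 - F j) (TT (B j) φ m (η j) x₀))‖ ≤
        δ * (2 * c ^ 4 * (1 + r₀)) + ε := by
  obtain ⟨L, hL⟩ := hφ.tb
  have m1 := fun j => C.t.M_one.sub (hF j).cut.mem
  have n1 := fun j ζ => lrt_le (B := B j) (hx j) (m1 j) (nx j) (hF j).cut.nE' ζ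
  have h1 := hm (fun j => (B j).X)
    (fun j g => (B j).l (x j) (rt (B j) (1 - F j) (bb (B j) φ (η j) g))) (2 * c ^ 4 * (1 + r₀))
    (fun u => c ^ 5 * om μ h φ u) (fun j g => (n1 j _).trans ((mul_le_mul_of_nonneg_left
      (bb_grow hφ (hη j) g) (sq_nonneg c)).trans_eq (by ring)))
    (by simpa using (om_lim hφ).const_mul (c ^ 5)) (fun j g u => by
      rw [← map_sub, ← map_sub, bb_coc]
      exact (n1 j _).trans ((mul_le_mul_of_nonneg_left (((B j).nσ _ _).trans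
        (mul_le_mul_of_nonneg_left (bb_mod hφ (hη j) u) (b_c (B j)))) (sq_nonneg c)).trans_eq
        (by ring)))
    (fun j κ hκ => by rw [bb_K hφ hκ, map_zero, map_zero]) (fun g g' => ?_) x₀ ε hε
  · refine h1.mono fun j hj => le_trans (le_of_eq ?_) hj
    simp only [← map_sub]
    exact congrArg _ (((B j).l (x j) ∘L rt (B j) (1 - F j)).integral_comp_comm
      (int_bb (B j) x₀)).symm
  have h2 := (((th_lim c).comp hl).const_mul ((c + c ^ 2) * (2 * L * k (r₀ + h.rr (g⁻¹ * g') +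
    h.rr g)) * (2 * c ^ 3 * (2 * c * c * (1 + r₀) * (1 + h.rr (g⁻¹ * g')))))).add
    ((tendsto_one_div_atTop_nhds_zero_nat.comp hl).const_mul
      (1 + (c ^ 2 * (2 * L * k (r₀ + h.rr (g⁻¹ * g')))) ^ 2))
  rw [mul_zero, mul_zero, add_zero] at h2
  refine squeeze_zero_norm' ?_ h2
  filter_upwards [hl.eventually_ge_atTop 1, hl.eventually_ge_atTop ⌈h.rr g⌉₊] with j h3 h4
  have h5 := bb_coc (B j) (φ := φ) (η := η j) g (g⁻¹ * g')
  rw [mul_inv_cancel_left] at h5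
  rw [norm_sub_rev (((B j).l (x j)) _), ← map_sub, ← map_sub, h5]
  exact piece_est h3 (hF j) (hx j) (nx j) (ax j) (hV j) (hs j) (bb_sm hL _) (hb j _)
    (Nat.ceil_le.1 h4) (bb_grow hφ (hη j) _)

/-- **the singular piece** -/
theorem sing_piece [IsFiniteMeasure m] {c' : ℝ} (hc' : 0 ≤ c') (hS : ∀ (B : Bim C c) (P : Type)
      [MeasurableSpace P] (p : Measure P) [IsProbabilityMeasure p] (γ : P → G) (z : P → B.X)
      (a b : K →L[ℂ] K), Measurable γ → AEStronglyMeasurable z p → C.t.M a → C.t.M b → 0 ≤ a →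
      0 ≤ b → (∀ q, B.Dom (z q) a) → (∀ q, B.Dom (B.J (z q)) b) →
      ‖∫ q, B.σ (γ q) (z q) ∂p‖ ^ 2 ≤ c' * (‖av C p γ a‖ * ‖av C p γ b‖))
    (hφ : Bump μ h φ r₀) (hm : DIV C h φ r₀ m δ) (hδ : 0 ≤ δ) (hl : Tendsto lev atTop atTop)
    (hE : ∀ j, Lv h (B j) k (lev j) (η j) (a j) (E j))
    (hF : ∀ j, Lv h (B j) k (lev j) ((B j).J (η j)) (b j) (F j)) {x₀ : G} (h0 : h.rr x₀ ≤ 1)
    {ε : ℝ} (hε : 0 < ε) : ∀ᶠ j in atTop,
      ‖(B j).l (E j) (rt (B j) (F j) (TT (B j) φ m (η j) x₀))‖ ≤ δ * (√c' * c ^ 4 * k r₀) + ε := by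
  obtain ⟨L', hL'⟩ := hφ.tb
  obtain ⟨P, _, p, γ, ψ, L, _, hγ, hψ, hL, b1, b2, b3, hI, hr⟩ := hm x₀ h0
  have k0 := (hE 0).k0 r₀
  have hs : ∀ j q, Sm h (B j) (η j) L r₀ (Zf (B j) (η j) (ψ q)) := fun j q =>
    ⟨ψ q, ⟨hψ.of_uncurry_left, b1 q, b2 q⟩, b3 q, rfl⟩
  have hz : ∀ j, AEStronglyMeasurable (fun q => Zf (B j) (η j) (ψ q)) p := fun j =>
    (hψ.aestronglyMeasurable.smul
      ((B j).cσ (η j)).aestronglyMeasurable.comp_snd).integral_prod_right'
  have nz := fun j q => (hE j).norm_le (hs j q)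
  have i1 := fun j T => b_int (B j) hγ (hz j) (nz j) T
  have i2 : ∀ j, Integrable (fun q => (B j).σ (γ q) (Zf (B j) (η j) (ψ q))) p := fun j =>
    (i1 j (ContinuousLinearMap.id ℂ _)).1
  have n1 := fun j ζ => lrt_le (B := B j) (hE j).cut.mem (hF j).cut.mem (hE j).cut.nE
    (hF j).cut.nE ζ
  have i3 := fun j => ((B j).l (E j) ∘L rt (B j) (F j)).integrable_comp (i2 j)
  have i4 := fun j => (i1 j ((B j).l (E j) ∘L rt (B j) (F j))).1
  have e1 : ∀ j, TT (B j) φ m (η j) x₀ = ∫ q, (B j).σ (γ q) (Zf (B j) (η j) (ψ q)) ∂p := fun j => by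
    have h1 := hI _ _ ((B j).cσ (η j)) ⟨_, fun g => (B j).nσ g _⟩
    simp only [← σ_Zf (Tb.mk hψ.of_uncurry_left (b1 _) (b2 _))] at h1
    rw [← h1, TT]
    refine integral_congr_ae (Eventually.of_forall fun g => ?_)
    simp only [bb, sub_sub_sub_cancel_right, σ_Zf hL', smul_sub]
    exact (integral_sub (hL'.int (((B j).cσ _).comp (continuous_const_mul _)))
      (hL'.int (((B j).cσ _).comp (continuous_const_mul _)))).symm
  have h1 := tendsto_integral_filter_of_dominated_convergence (μ := p) (l := atTop)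
    (F := fun j q => ‖(B j).σ (γ q) ((B j).l (E j) (rt (B j) (F j) (Zf (B j) (η j) (ψ q)))) -
      (B j).l (E j) (rt (B j) (F j) ((B j).σ (γ q) (Zf (B j) (η j) (ψ q))))‖) (f := fun _ => 0)
    (fun _ => 2 * c ^ 3 * (L * k r₀ * c ^ 2))
    (Eventually.of_forall fun j => ((i4 j).sub (i3 j)).1.norm)
    (Eventually.of_forall fun j => Eventually.of_forall fun q => ?_) (integrable_const _)
    (Eventually.of_forall fun q => ?_)
  · rw [integral_zero] at h1
    have h2 := ((((tendsto_one_div_atTop_nhds_zero_nat.comp hl).sqrt.const_mul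
      (L * c ^ 2)).const_add δ).const_mul (c ^ 4 * k r₀)).const_mul √c' |>.add h1
    simp only [Real.sqrt_zero, mul_zero, add_zero] at h2
    filter_upwards [h2.eventually (gt_mem_nhds (show _ < δ * (√c' * c ^ 4 * k r₀) + ε by linarith))]
      with j hj
    refine le_trans ?_ hj.le
    have p1 : ∀ T : K →L[ℂ] K, 0 ≤ T → 0 ≤ ((c ^ 2 * (L * k r₀) : ℝ) : ℂ) • T := fun T hT => by
      rw [Complex.coe_smul]
      exact smul_nonneg (by positivity) hT
    have h3 := hS (B j) P p γ _ _ _ hγ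
      (((B j).l (E j) ∘L rt (B j) (F j)).continuous.comp_aestronglyMeasurable (hz j))
      (((hE j).mem.mul (hE j).cut.mem).smul _) (((hF j).mem.mul (hF j).cut.mem).smul _)
      (p1 _ (hE j).cut.pos) (p1 _ (hF j).cut.pos)
      (fun q => dom_sing (hE j) (hF j).cut.mem (hF j).cut.nE (hs j q)) fun q => by
        rw [comp_apply, J_lrt (hE j).cut.mem (hF j).cut.mem]
        exact dom_sing (hF j) (hE j).cut.mem (hE j).cut.nE (hs j q).J
    have h4 := h3.trans (mul_le_mul_of_nonneg_left (mul_le_mul (av_le (hE j) hL hδ hr)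
      (av_le (hF j) hL hδ hr) (norm_nonneg _) (by positivity)) hc')
    rw [← sq, ← Real.sq_sqrt hc', ← mul_pow] at h4
    rw [e1, ← comp_apply, ← integral_comp_comm _ (i2 j)]
    refine (norm_le_norm_add_norm_sub' _ _).trans (add_le_add
      (abs_le_of_sq_le_sq' h4 (by positivity)).2 ?_)
    rw [norm_sub_rev, ← integral_sub (i4 j) (i3 j)]
    exact norm_integral_le_integral_norm _
  · have hc := b_c (B j)
    rw [norm_norm]
    refine (norm_sub_le _ _).trans ((add_le_add (((B j).nσ _ _).trans (mul_le_mul_of_nonneg_left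
      ((n1 j _).trans (mul_le_mul_of_nonneg_left (nz j q) (sq_nonneg c))) hc))
      ((n1 j _).trans (mul_le_mul_of_nonneg_left (((B j).nσ _ _).trans
        (mul_le_mul_of_nonneg_left (nz j q) hc)) (sq_nonneg c)))).trans_eq (by ring))
  · refine squeeze_zero (fun _ => norm_nonneg _) (fun j => comm_sm (hE j).cut.mem (hF j).cut.mem
      (hE j).cut.nE (hF j).cut.nE (hE j).ai (hF j).ai (hs j q) (γ q)) ?_
    simpa using ((th_lim c).comp hl).const_mul ((c + c ^ 2) * (L * k (r₀ + h.rr (γ q))))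

end Vale.Agent.P092UB
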