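import Vale.Agent.P092UB.Bas

/-!
P092, rank one, block A (helper90): smooth combinations of the orbit of a vector.
-/

set_option linter.unusedSectionVars false

open scoped InnerProductSpace ENNReal NNReal Pointwise
open MeasureTheory Filter Topology ContinuousLinearMap

namespace Vale.Agent.P092UB

open Vale.Agent.P092CP Vale.Agent.P092RG Vale.Agent.P092RK
open Vale.Agent.P092.H793.Re (SLn)

variable {G G' K : Type} [Group G] [TopologicalSpace G] [IsTopologicalGroup G]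
  [LocallyCompactSpace G] [SecondCountableTopology G] [T2Space G] [MeasurableSpace G] [BorelSpace G]
  [Group G'] [TopologicalSpace G'] [IsTopologicalGroup G'] [LocallyCompactSpace G']
  [SecondCountableTopology G'] [T2Space G'] [MeasurableSpace G'] [BorelSpace G']
  [NormedAddCommGroup K] [InnerProductSpace ℂ K] [CompleteSpace K] {μ : Measure G}
  [μ.IsHaarMeasure] {μ' : Measure G'} [μ'.IsHaarMeasure] {W : Set (K →L[ℂ] K)}
  {C : Cpl μ μ' W} {c : ℝ} {n : ℕ} {ρ : G →* SLn n} {w : Fin n → ℝ} (h : R1 ρ w)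

theorem meas_ball (R : ℝ) : MeasurableSet {g | h.rr g ≤ R} := (h.isCompact_ball R).measurableSet

/-- a weight with a second moment which dominates the Haar measure on balls -/
structure Wt (μ ω : Measure G) (k : ℝ → ℝ) : Prop where
  fin : IsFiniteMeasure ω
  int : Integrable (fun g => (1 + h.rr g) ^ 2) ω
  le : ∫ g, (1 + h.rr g) ^ 2 ∂ω ≤ 1
  nonneg : ∀ R, 0 ≤ k R
  cs : ∀ R (f : G → ℝ), Continuous f → Integrable (fun g => f g ^ 2) ω →
    ∫ g in {g | h.rr g ≤ R}, f g ∂μ ≤ k R * √(∫ g, f g ^ 2 ∂ω)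

theorem exists_wt (μ : Measure G) [μ.IsHaarMeasure] : ∃ ω k, Wt h μ ω k := by
  have hf : ∀ R, μ {g | h.rr g ≤ R} ≠ ∞ := fun R => (h.isCompact_ball R).measure_lt_top.ne
  let a : ℕ → ℝ≥0∞ := fun j =>
    (2⁻¹ ^ j * 2⁻¹) * (ENNReal.ofReal ((1 + j) ^ 2) * (μ {g | h.rr g ≤ j} + 1))⁻¹
  have a0 : ∀ j, a j ≠ 0 := fun j => mul_ne_zero (by simp)
    (ENNReal.inv_ne_zero.2 (ENNReal.mul_ne_top ENNReal.ofReal_ne_top (by simpa using hf j)))
  let ω : Measure G := Measure.sum fun j => a j • μ.restrict {g | h.rr g ≤ j}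
  have h1 : ∫⁻ g, ENNReal.ofReal ((1 + h.rr g) ^ 2) ∂ω ≤ 1 := by
    rw [lintegral_sum_measure]
    refine (ENNReal.tsum_le_tsum (g := fun j => 2⁻¹ ^ j * 2⁻¹) fun j => ?_).trans_eq ?_
    · rw [lintegral_smul_measure, smul_eq_mul, mul_assoc]
      refine mul_le_of_le_one_right' ((mul_le_mul_right ?_ _).trans (ENNReal.inv_mul_le_one _))
      refine (setLIntegral_mono' (g := fun _ => ENNReal.ofReal ((1 + j) ^ 2)) (meas_ball h _)
        fun g hg => ENNReal.ofReal_le_ofReal ?_).trans ?_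
      · exact pow_le_pow_left₀ (by linarith [h.rr_nonneg g]) (add_le_add le_rfl hg) 2
      · rw [setLIntegral_const]
        exact mul_le_mul_right le_self_add _
    · rw [ENNReal.tsum_mul_right, ENNReal.tsum_geometric, ENNReal.one_sub_inv_two, inv_inv,
        ENNReal.mul_inv_cancel (by simp) (by simp)]
  have h2 : Integrable (fun g => (1 + h.rr g) ^ 2) ω :=
    ⟨((continuous_const.add h.continuous_rr).pow 2).aestronglyMeasurable,
      (hasFiniteIntegral_iff_ofReal (Eventually.of_forall fun g => sq_nonneg _)).2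
        (h1.trans_lt ENNReal.one_lt_top)⟩
  refine ⟨ω, fun R => √(μ.real {g | h.rr g ≤ R} * (a ⌈R⌉₊)⁻¹.toReal), ⟨⟨?_⟩, h2, ?_,
    fun R => Real.sqrt_nonneg _, fun R f hc hi => ?_⟩⟩
  · refine lt_of_le_of_lt ?_ (h1.trans_lt ENNReal.one_lt_top)
    rw [← lintegral_one]
    exact lintegral_mono fun g => ENNReal.one_le_ofReal.2
      (one_le_pow₀ (by linarith [h.rr_nonneg g]))
  · rw [integral_eq_lintegral_of_nonneg_ae (Eventually.of_forall fun g => sq_nonneg _) h2.1]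
    exact ENNReal.toReal_le_of_le_ofReal zero_le_one (by simpa using h1)
  have i0 := (h.isCompact_ball R).measure_lt_top (μ := μ)
  have i1 := hc.continuousOn.integrableOn_compact (μ := μ) (h.isCompact_ball R)
  have i2 := (hc.fun_pow 2).continuousOn.integrableOn_compact (μ := μ) (h.isCompact_ball R)
  have h3 := discrim_le_zero (a := μ.real {g | h.rr g ≤ R})
    (b := -2 * ∫ g in {g | h.rr g ≤ R}, f g ∂μ) (c := ∫ g in {g | h.rr g ≤ R}, f g ^ 2 ∂μ)
    fun t => by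
      have h4 : 0 ≤ ∫ g in {g | h.rr g ≤ R}, (t * t - 2 * t * f g) + f g ^ 2 ∂μ :=
        integral_nonneg fun g => (sq_nonneg (t - f g)).trans_eq (by ring)
      have i3 : Integrable (fun _ => t * t) (μ.restrict {g | h.rr g ≤ R}) :=
        integrableOn_const i0.ne
      rw [integral_add (i3.sub' (i1.const_mul _)) i2,
        integral_sub i3 (i1.const_mul _), integral_const_mul (2 * t),
        setIntegral_const, smul_eq_mul] at h4
      linarith
  have h4 : μ.restrict {g | h.rr g ≤ R} ≤ (a ⌈R⌉₊)⁻¹ • ω := by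
    refine (Measure.restrict_mono_set μ (t := {g | h.rr g ≤ ⌈R⌉₊}) fun g hg =>
      le_trans (b := R) hg (Nat.le_ceil R)).trans fun s => ?_
    rw [Measure.smul_apply, smul_eq_mul]
    refine le_trans (le_of_eq ?_) (mul_le_mul_right (Measure.le_sum _ ⌈R⌉₊ s) _)
    rw [Measure.smul_apply, smul_eq_mul, ← mul_assoc, ENNReal.inv_mul_cancel (a0 _), one_mul]
    refine ENNReal.mul_ne_top (by finiteness) (ENNReal.inv_ne_top.2 (mul_ne_zero ?_ (by simp)))
    exact (ENNReal.ofReal_pos.2 (by positivity)).ne'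
  have h5 := integral_mono_measure h4 (Eventually.of_forall fun g => sq_nonneg (f g))
    (hi.smul_measure (ENNReal.inv_ne_top.2 (a0 _)))
  rw [integral_smul_measure, smul_eq_mul] at h5
  rw [discrim] at h3
  rw [← Real.sqrt_mul (by positivity)]
  refine Real.le_sqrt_of_sq_le ?_
  nlinarith [mul_le_mul_of_nonneg_left h5 (measureReal_nonneg (μ := μ) (s := {g | h.rr g ≤ R}))]

/-- bounded functions of compact support -/
structure Tb (ψ : G → ℝ) (L R : ℝ) : Prop where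
  meas : Measurable ψ
  bd : ∀ v, |ψ v| ≤ L
  supp : ∀ v, R < h.rr v → ψ v = 0

variable {h} {ψ ψ' φ : G → ℝ} {L L' R R' r₀ e : ℝ}

theorem Tb.int {X : Type*} [NormedAddCommGroup X] [NormedSpace ℝ X] (hψ : Tb h ψ L R) {f : G → X}
    (hf : Continuous f) : Integrable (fun v => ψ v • f v) μ := by
  refine (integrableOn_iff_integrable_of_support_subset (s := {g | h.rr g ≤ R}) fun v hv =>
    le_of_not_gt fun h1 : R < h.rr v => hv (by simp [hψ.supp v h1])).1 ?_
  exact (hf.continuousOn.integrableOn_compact (h.isCompact_ball R)).bdd_smul L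
    hψ.meas.aestronglyMeasurable (Eventually.of_forall hψ.bd)

theorem Tb.int' (hψ : Tb h ψ L R) : Integrable ψ μ := by
  simpa using hψ.int (μ := μ) (f := fun _ => (1 : ℝ)) continuous_const

theorem Tb.shift (hψ : Tb h ψ L R) (g : G) : Tb h (fun v => ψ (g⁻¹ * v)) L (R + h.rr g) :=
  ⟨hψ.meas.comp (measurable_const_mul _), fun _ => hψ.bd _, fun v hv => hψ.supp _ (by
    have := h.rr_mul_le g (g⁻¹ * v)
    rw [mul_inv_cancel_left] at this
    linarith)⟩

theorem Tb.mono (hψ : Tb h ψ L R) (hR : R ≤ R') : Tb h ψ L R' :=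
  ⟨hψ.meas, hψ.bd, fun v hv => hψ.supp v (hR.trans_lt hv)⟩

theorem Tb.sub (hψ : Tb h ψ L R) (hψ' : Tb h ψ' L R) : Tb h (fun v => ψ v - ψ' v) (2 * L) R :=
  ⟨hψ.meas.sub hψ'.meas, fun v => (abs_sub _ _).trans (by linarith [hψ.bd v, hψ'.bd v]),
    fun v hv => by rw [hψ.supp v hv, hψ'.supp v hv, sub_zero]⟩

theorem Bump.tb (hφ : Bump μ h φ r₀) : ∃ L, Tb h φ L r₀ := by
  obtain ⟨L, hL⟩ := hφ.cont.bounded_above_of_compact_support
    (HasCompactSupport.intro (h.isCompact_ball r₀) fun g hg => hφ.supp g (not_le.1 hg))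
  exact ⟨L, hφ.cont.measurable, hL, hφ.supp⟩

theorem Bump.r_nonneg (hφ : Bump μ h φ r₀) : 0 ≤ r₀ := not_lt.1 fun h0 => by
  have h1 := hφ.int
  simp [fun g => hφ.supp g (h0.trans_le (h.rr_nonneg g))] at h1

variable (h) (B : Bim C c)

/-- the displacement of `η` under the unit ball is at most `e` -/
def En (η : B.X) (e : ℝ) : Prop := ∀ g, h.rr g ≤ 1 → ‖B.σ g η - η‖ ≤ e

/-- the action of a function -/
noncomputable def Zf (η : B.X) (ψ : G → ℝ) : B.X := ∫ v, ψ v • B.σ v η ∂μ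

/-- smooth combinations -/
def Sm (η : B.X) (L R : ℝ) (ζ : B.X) : Prop :=
  ∃ ψ, Tb h ψ L R ∧ ∫ v, ψ v ∂μ = 0 ∧ ζ = Zf B η ψ

variable {h B} {η ζ : B.X}

theorem En.nonneg (hη : En h B η e) : 0 ≤ e :=
  (norm_nonneg _).trans (hη 1 (by rw [h.rr_one]; exact zero_le_one))

theorem coc_le (g u : G) (η : B.X) :
    ‖B.σ (g * u) η - η‖ ≤ ‖B.σ g η - η‖ + c * ‖B.σ u η - η‖ := by
  rw [← sub_add_sub_cancel' (B.σ g η) η, ← σ_σ, ← map_sub]
  exact (norm_add_le _ _).trans (add_le_add le_rfl (B.nσ _ _))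

theorem En.grow (hη : En h B η e) (g : G) : ‖B.σ g η - η‖ ≤ c * e * (1 + h.rr g) := by
  have h0 := hη.nonneg
  have hc := B.one_le
  have h1 : ∀ (N : ℕ) g, h.rr g ≤ N + 1 → ‖B.σ g η - η‖ ≤ c * e * (N + 1) := fun N => by
    induction N with
    | zero => exact fun g hg => (hη g (by simpa using hg)).trans (by simp; nlinarith)
    | succ N ih =>
      intro g hg
      obtain ⟨κ, hκ, κ', hκ', e1⟩ := h.kak_rr g
      have h2 := h.rr_nonneg g
      have h3 : h.rr g / (N + 2) ≤ 1 := div_le_one_of_le₀ (by push_cast at hg; linarith)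
        (by positivity)
      have h4 : h.rr g - h.rr g / (N + 2) = h.rr g / (N + 2) * (N + 1) := by field_simp; ring
      have h5 : 0 ≤ h.rr g / (N + 2) := by positivity
      have e2 : g = κ * h.a (h.rr g - h.rr g / (N + 2)) * (h.a (h.rr g / (N + 2)) * κ') := by
        rw [mul_assoc, ← mul_assoc (h.a _), ← h.a_add, sub_add_cancel, ← mul_assoc, ← e1]
      have h6 := ih (κ * h.a (h.rr g - h.rr g / (N + 2))) (by
        rw [h.rr_K_mul hκ, h.rr_a, h4, abs_of_nonneg (by positivity)]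
        exact mul_le_of_le_one_left (by positivity) h3)
      have h7 := hη (h.a (h.rr g / (N + 2)) * κ') (by
        rw [h.rr_mul_K _ hκ', h.rr_a, abs_of_nonneg h5]; exact h3)
      rw [e2]
      refine (coc_le _ _ η).trans ?_
      push_cast
      nlinarith [mul_le_mul_of_nonneg_left h7 (b_c B)]
  refine (h1 ⌊h.rr g⌋₊ g (Nat.lt_floor_add_one _).le).trans
    (mul_le_mul_of_nonneg_left ?_ (by positivity))
  linarith [Nat.floor_le (h.rr_nonneg g)]

theorem En.J (hη : En h B η e) : En h B (B.J η) (c * e) := fun g hg => by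
  rw [B.σJ, ← map_sub]
  exact (B.nJ _).trans (mul_le_mul_of_nonneg_left (hη g hg) (b_c B))

theorem En.mono {e' : ℝ} (hη : En h B η e) (he : e ≤ e') : En h B η e' := fun g hg =>
  (hη g hg).trans he

theorem σ_Zf (hψ : Tb h ψ L R) (g : G) :
    B.σ g (Zf B η ψ) = ∫ v, ψ v • B.σ (g * v) η ∂μ := by
  rw [Zf, ← (B.σ g).integral_comp_comm (hψ.int (B.cσ η))]
  simp only [map_smul_of_tower, σ_σ]

theorem σ_Zf' (hψ : Tb h ψ L R) (g : G) : B.σ g (Zf B η ψ) = Zf B η fun v => ψ (g⁻¹ * v) := by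
  rw [σ_Zf hψ, Zf, ← integral_mul_left_eq_self _ g⁻¹]
  simp only [mul_inv_cancel_left]

theorem J_Zf (hψ : Tb h ψ L R) : B.J (Zf B η ψ) = Zf B (B.J η) ψ := by
  rw [Zf, J_int B (hψ.int (B.cσ η))]
  simp only [J_smul, ← B.σJ, Zf]

theorem Sm.σ (hζ : Sm h B η L R ζ) (g : G) : Sm h B η L (R + h.rr g) (B.σ g ζ) := by
  obtain ⟨ψ, h1, h2, rfl⟩ := hζ
  exact ⟨_, h1.shift g, (integral_mul_left_eq_self ψ g⁻¹).trans h2, σ_Zf' h1 g⟩

theorem Sm.J (hζ : Sm h B η L R ζ) : Sm h B (B.J η) L R (B.J ζ) := by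
  obtain ⟨ψ, h1, h2, rfl⟩ := hζ
  exact ⟨ψ, h1, h2, J_Zf h1⟩

theorem Sm.mono (hζ : Sm h B η L R ζ) (hR : R ≤ R') : Sm h B η L R' ζ :=
  hζ.imp fun _ h1 => ⟨h1.1.mono hR, h1.2⟩

theorem Sm.nonneg (hζ : Sm h B η L R ζ) : 0 ≤ L :=
  hζ.elim fun _ h1 => (abs_nonneg _).trans (h1.1.bd 1)

theorem Zf_eq (hψ : Tb h ψ L R) (h0 : ∫ v, ψ v ∂μ = 0) :
    Zf B η ψ = ∫ v, ψ v • (B.σ v η - η) ∂μ := by
  simp only [smul_sub]
  rw [integral_sub (hψ.int (B.cσ η)) (hψ.int continuous_const), integral_smul_const, h0, zero_smul,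
    sub_zero, Zf]

theorem Sm.le (hζ : Sm h B η L R ζ) (T : B.X →L[ℂ] B.X) :
    ‖T ζ‖ ≤ L * ∫ v in {g | h.rr g ≤ R}, ‖T (B.σ v η - η)‖ ∂μ := by
  obtain ⟨ψ, h1, h2, rfl⟩ := hζ
  have hc : Continuous fun v => B.σ v η - η := (B.cσ η).sub continuous_const
  rw [Zf_eq h1 h2, ← T.integral_comp_comm (h1.int hc), ← integral_const_mul,
    ← setIntegral_eq_integral_of_forall_compl_eq_zero (s := {g | h.rr g ≤ R})
      fun v hv => by rw [h1.supp v (not_le.1 hv), zero_smul, map_zero]]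
  refine norm_integral_le_of_norm_le (((T.continuous.comp hc).norm.continuousOn.integrableOn_compact
    (h.isCompact_ball R)).const_mul L) (Eventually.of_forall fun v => ?_)
  rw [map_smul_of_tower, norm_smul]
  exact mul_le_mul_of_nonneg_right (h1.bd v) (norm_nonneg _)

variable (h B)

/-- a density which dominates the smooth combinations, with a cutoff -/
structure Lv (k : ℝ → ℝ) (N : ℕ) (η : B.X) (a E : K →L[ℂ] K) : Prop where
  en : En h B η c
  k0 : ∀ R, 0 ≤ k R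
  mem : C.t.M a
  le : ‖a C.t.Ω‖ ≤ c ^ 2
  dom : ∀ L R ζ, Sm h B η L R ζ → ∀ x, C.t.M x → ‖B.l x ζ‖ ≤ L * k R * ‖a (adjoint x C.t.Ω)‖
  cut : Cut C a E N

/-- `x` is almost invariant on the smooth combinations -/
def Ai (k : ℝ → ℝ) (θ : ℝ) (η : B.X) (x : K →L[ℂ] K) : Prop :=
  ∀ g L R ζ, Sm h B η L R ζ →
    ‖B.l (sg C g x) (B.σ g ζ) - B.l x (B.σ g ζ)‖ ≤ L * k (R + h.rr g) * θ

variable {h B} {k : ℝ → ℝ} {N : ℕ} {a E x : K →L[ℂ] K} {θ : ℝ}

theorem exists_lv {ω : Measure G} (hω : Wt h μ ω k) (hη : En h B η c) {Λ : ℝ} (hΛ : 0 ≤ Λ)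
    (hb : ∀ g x, C.t.M x → ‖B.l x (B.σ g η)‖ ≤ Λ * ‖x C.t.Ω‖) (hN : 1 ≤ N) :
    ∃ a E, Lv h B k N η a E := by
  have := hω.fin
  have hc : Continuous fun v => B.σ v η - η := (B.cσ η).sub continuous_const
  have hb' : ∀ v x, C.t.M x → ‖B.l x (B.σ v η - η)‖ ≤ 2 * Λ * ‖x C.t.Ω‖ := fun v x hx => by
    have h1 := hb 1 x hx
    rw [map_one, one_apply_eq_self] at h1
    rw [map_sub]
    exact (norm_sub_le _ _).trans (by linarith [hb v x hx])
  obtain ⟨a, h1, h2, h3⟩ := exists_dens B ω hc.aestronglyMeasurable (by positivity) hb'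
  obtain ⟨E, hE⟩ := exists_cut C h1 h2 hN
  refine ⟨a, E, hη, hω.nonneg, h1, ?_, fun L R ζ hζ x hx => (hζ.le _).trans ?_, hE⟩
  · have h4 := h3 1 C.t.M_one
    simp only [adjoint_one, one_apply_eq_self, b_one] at h4
    refine (abs_le_of_sq_le_sq' (h4.trans_le ((integral_mono_of_nonneg (Eventually.of_forall
      fun v => sq_nonneg _) (hω.int.const_mul ((c ^ 2) ^ 2)) (Eventually.of_forall fun v =>
        (pow_le_pow_left₀ (norm_nonneg _) (hη.grow v) 2).trans_eq (by ring))).trans ?_))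
      (sq_nonneg _)).2
    rw [integral_const_mul]
    exact mul_le_of_le_one_right (sq_nonneg _) hω.le
  · have h4 := ((B.l x).continuous.comp hc).norm
    rw [mul_assoc, ← Real.sqrt_sq (norm_nonneg (a _)), h3 x hx]
    refine mul_le_mul_of_nonneg_left (hω.cs R _ h4 (Integrable.of_bound
      (h4.pow 2).aestronglyMeasurable ((2 * Λ * ‖x C.t.Ω‖) ^ 2) (Eventually.of_forall fun v => ?_)))
      hζ.nonneg
    rw [Real.norm_of_nonneg (sq_nonneg _)]
    exact pow_le_pow_left₀ (norm_nonneg _) (hb' v x hx) 2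

theorem Lv.ai (hL : Lv h B k N η a E) : Ai h B k (th c N) η E := fun g _ _ _ hζ =>
  cut_ai B hL.cut hL.le (mul_nonneg hζ.nonneg (hL.k0 _)) g
    (hL.dom _ _ _ (hζ.mono (le_add_of_nonneg_right (h.rr_nonneg g)))) (hL.dom _ _ _ (hζ.σ g))

theorem sg_one (g : G) : sg C g 1 = 1 := by rw [sg, mul_one, pi_mul_inv]

theorem ai_one (hk : ∀ R, 0 ≤ k R) (hθ : 0 ≤ θ) : Ai h B k θ η 1 := fun g L R ζ hζ => by
  rw [sg_one, sub_self, norm_zero]
  exact mul_nonneg (mul_nonneg hζ.nonneg (hk _)) hθ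

theorem Ai.one_sub (hx : Ai h B k θ η x) (hm : C.t.M x) : Ai h B k θ η (1 - x) :=
  fun g L R ζ hζ => by
    rw [show sg C g (1 - x) = 1 - sg C g x by rw [sg, mul_sub, sub_mul, mul_one, pi_mul_inv],
      b_sub B C.t.M_one (C.M_σ hm g), b_sub B C.t.M_one hm, sub_sub_sub_cancel_left, norm_sub_rev]
    exact hx g L R ζ hζ

theorem Lv.norm_le (hL : Lv h B k N η a E) (hζ : Sm h B η L R ζ) : ‖ζ‖ ≤ L * k R * c ^ 2 := by
  have h1 := hL.dom L R ζ hζ 1 C.t.M_one
  rw [b_one, adjoint_one, one_apply_eq_self] at h1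
  exact h1.trans (mul_le_mul_of_nonneg_left hL.le (mul_nonneg hζ.nonneg (hL.k0 _)))

end Vale.Agent.P092UB
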