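import Vale.Agent.P092UB.Mod

/-!
P092, rank one, block A (helper90): the convex set of the columns of bounded variation.
-/

set_option linter.unusedSectionVars false

open scoped InnerProductSpace ENNReal NNReal Pointwise
open MeasureTheory Filter Topology ContinuousLinearMap

namespace Vale.Agent.P092UB

open Vale.Agent.P092CP
open Vale.Agent.P092.RC (Cm)
open Vale.Agent.P092.H108 (inner_ext inner_nonneg_of_nonneg)

variable {G G' K : Type} [Group G] [TopologicalSpace G] [IsTopologicalGroup G]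
  [LocallyCompactSpace G] [SecondCountableTopology G] [T2Space G] [MeasurableSpace G] [BorelSpace G]
  [Group G'] [TopologicalSpace G'] [IsTopologicalGroup G'] [LocallyCompactSpace G']
  [SecondCountableTopology G'] [T2Space G'] [MeasurableSpace G'] [BorelSpace G']
  [NormedAddCommGroup K] [InnerProductSpace ℂ K] [CompleteSpace K] {μ : Measure G}
  [μ.IsHaarMeasure] {μ' : Measure G'} [μ'.IsHaarMeasure] {W : Set (K →L[ℂ] K)}
  {C : Cpl μ μ' W}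

/-- a closed convex invariant set of bounded vectors on whose right bounded elements the source
acts almost isometrically -/
structure Vs {c : ℝ} (B : Bim C c) (N : Set G → ℝ → ℝ) (V : Set B.X) : Prop where
  convex : Convex ℝ V
  closed : IsClosed V
  σ : ∀ g, ∀ ξ ∈ V, B.σ g ξ ∈ V
  l : ∀ x, C.t.M x → ‖x‖ ≤ 1 → ∀ ξ ∈ V, B.l x ξ ∈ V
  J : ∀ ξ ∈ V, B.J ξ ∈ V
  lb : ∃ Λ, 0 ≤ Λ ∧ ∀ ξ ∈ V, ∀ x, C.t.M x → ‖B.l x ξ‖ ≤ Λ * ‖x C.t.Ω‖
  nrm : ∀ L, IsCompact L → ∀ ε > 0, ∀ g ∈ L, ∀ ξ ∈ V, ∀ l : ℝ,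
    (∀ y, C.t.M y → ‖B.l y (B.J ξ)‖ ≤ l * ‖y C.t.Ω‖) →
    |‖B.σ g ξ‖ ^ 2 - ‖ξ‖ ^ 2| ≤ N L ε + ε * l ^ 2

variable {r : G' → ℝ} {c Λ : ℝ} {D : ℝ → ℝ} (C) (O : Orb r c D Λ) {ι ι' : Type} [Countable ι]
  [Countable ι'] (e : HilbertBasis ι ℝ O.H) (e' : HilbertBasis ι' ℝ O.H')

/-- columns which extend to the factors of the defect -/
structure Vc (ζ : O.H → K →L[ℂ] K) : Prop where
  cv : Cv C O ζ
  bb : Bb e ζ (ENNReal.ofReal Λ ^ 2)
  ext : ∀ h, ∃ a b : O.H' → K →L[ℂ] K, Bb e' a (ENNReal.ofReal (D (r h)) ^ 2) ∧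
    Bb e' b (ENNReal.ofReal (D (r h)) ^ 2) ∧ ∀ v u u',
    (∀ y, ⟪v, O.F y⟫_ℝ + ⟪u, O.α h y⟫_ℝ + ⟪u', O.β h y⟫_ℝ = 0) → ζ v + a u + b u' = 0

theorem vc_mc : Vc C O e e' (mc C.t O.F) := by
  have h1 := bb_mc C.t O.mF O.nF e
  refine ⟨⟨h1.rl, fun v => C.t.cm_m (bd_co O.mF O.nF v), fun h v => ?_⟩, h1, fun h =>
    ⟨_, _, bb_mc C.t (O.mα h) (O.nα h) e', bb_mc C.t (O.mβ h) (O.nβ h) e', fun v u u' h0 => ?_⟩⟩
  · have h2 := C.t.cov (bd_co O.mF O.nF v) h⁻¹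
    rw [inv_inv] at h2
    rw [mc, h2, mc]
    simp only [O.cov, adjoint_inner_left]
  · have b1 := bd_co O.mF O.nF v
    have b2 := bd_co (O.mα h) (O.nα h) u
    rw [mc, mc, mc, ← C.t.m_add b1 b2, ← C.t.m_add (b1.add b2) (bd_co (O.mβ h) (O.nβ h) u'),
      ← C.t.m_zero]
    congr 1
    funext y
    simp only [Pi.add_apply, Pi.zero_apply]
    exact_mod_cast h0 y

variable {C O e e'} {ζ ζ' : O.H → K →L[ℂ] K}

theorem Vc.mem (h : Vc C O e e' ζ) : ζ ∈ Cs C O e := ⟨h.cv, _, by finiteness, h.bb⟩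

theorem Vc.mul (h : Vc C O e e' ζ) {x y : K →L[ℂ] K} (hx : Cp C.t.π x) (hy : Cp C.t.π y)
    (hc : ∀ T, Cm W T → Cm W (x * T * y)) (nx : ‖x‖ ≤ 1) (ny : ‖y‖ ≤ 1) :
    Vc C O e e' fun v => x * ζ v * y :=
  ⟨h.cv.mul hx hy hc, h.bb.mul' nx ny, fun g => by
    obtain ⟨a, b, h1, h2, h3⟩ := h.ext g
    exact ⟨_, _, h1.mul' nx ny, h2.mul' nx ny, fun v u u' h0 => by
      rw [← add_mul, ← add_mul, ← mul_add, ← mul_add, h3 v u u' h0, mul_zero, zero_mul]⟩⟩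

theorem Vc.adj (h : Vc C O e e' ζ) : Vc C O e e' (star ζ) :=
  ⟨h.cv.adj, h.bb.adj, fun g => by
    obtain ⟨a, b, h1, h2, h3⟩ := h.ext g
    exact ⟨_, _, h1.adj, h2.adj, fun v u u' h0 => by
      simp only [Pi.star_apply]
      rw [← star_add, ← star_add, h3 v u u' h0, star_zero]⟩⟩

theorem Vc.convex (h : Vc C O e e' ζ) (h' : Vc C O e e' ζ') {s t : ℝ} (hs : 0 ≤ s) (ht : 0 ≤ t)
    (hst : s + t = 1) : Vc C O e e' ((s : ℂ) • ζ + (t : ℂ) • ζ') :=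
  ⟨((Cs C O e).add_mem ((Cs C O e).smul_mem _ h.mem) ((Cs C O e).smul_mem _ h'.mem)).1,
    h.bb.convex h'.bb hs ht hst, fun g => by
    obtain ⟨a, b, h1, h2, h3⟩ := h.ext g
    obtain ⟨a', b', h4, h5, h6⟩ := h'.ext g
    refine ⟨_, _, h1.convex h4 hs ht hst, h2.convex h5 hs ht hst, fun v u u' h0 => ?_⟩
    have h7 := congrArg₂ (fun x y => (s : ℂ) • x + (t : ℂ) • y) (h3 v u u' h0) (h6 v u u' h0)
    simp only [smul_add, smul_zero, add_zero] at h7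
    simp only [Pi.add_apply, Pi.smul_apply]
    rw [← h7]
    abel⟩

theorem vc_lim {J : Type} (U : Ultrafilter J) {ζ : J → O.H → K →L[ℂ] K}
    (h : ∀ j, Vc C O e e' (ζ j)) :
    ∃ ζ', Vc C O e e' ζ' ∧ ∀ v η ξ, Tendsto (fun j => ⟪η, ζ j v ξ⟫_ℂ) U (𝓝 ⟪η, ζ' v ξ⟫_ℂ) := by
  obtain ⟨ζ', h1, h2⟩ := exists_col_lim U (fun j => (h j).bb) (by finiteness)
  refine ⟨ζ', ⟨⟨h1.rl, fun v => cm_of_weak (Eventually.of_forall fun j => (h j).cv.cm v)
    fun ξ η => h2 v η ξ, fun g v => inner_ext fun η ξ => tendsto_nhds_unique ?_ (h2 _ η ξ)⟩, h1,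
    fun g => ?_⟩, h2⟩
  · simp only [← (h _).cv.cov, mul_ap, ← adjoint_inner_left (C.t.π g⁻¹)]
    exact h2 v _ _
  · choose a b h3 h4 h5 using fun j => (h j).ext g
    obtain ⟨a', h6, h7⟩ := exists_col_lim U h3 (by finiteness)
    obtain ⟨b', h8, h9⟩ := exists_col_lim U h4 (by finiteness)
    refine ⟨a', b', h6, h8, fun v u u' h0 => inner_ext fun η ξ => ?_⟩
    have h10 := ((h2 v η ξ).add (h7 u η ξ)).add (h9 u' η ξ)
    simp only [← inner_add_right, ← add_apply, h5 _ v u u' h0] at h10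
    exact tendsto_nhds_unique h10 tendsto_const_nhds

theorem Vc.gram (h : Vc C O e e' ζ) : ∃ T : K →L[ℂ] K, 0 ≤ T ∧ Cm W T ∧
    (∀ ξ, ENNReal.ofReal (⟪ξ, T ξ⟫_ℂ).re = hs e fun v => ζ v ξ) ∧
    ∀ x, ‖C.t.π x⁻¹ * T * C.t.π x - T‖ ≤ 2 * max (D (r x)) 0 ^ 2 := by
  let _ : MeasurableSpace ι := ⊤
  obtain ⟨T, h0, h1, h2⟩ := exists_gram (Measure.count : Measure ι) (fun i => ζ (e i))
    (s := ENNReal.ofReal Λ ^ 2) (by finiteness)
    (fun ξ => StronglyMeasurable.of_discrete.aestronglyMeasurable) fun ξ => by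
      rw [lintegral_count]; exact h.bb.col ξ
  simp only [lintegral_count] at h1
  have hsa := IsSelfAdjoint.of_nonneg h0
  refine ⟨T, h0, fun w hw => h2 w (fun i => h.cv.cm _ w hw) fun i => h.cv.cm _ _ (C.Wadj w hw), h1,
    fun x => norm_le_of_quad (IsSelfAdjoint.sub ?_ hsa) (by positivity) fun ξ => ?_⟩
  · rw [IsSelfAdjoint, star_mul, star_mul, C.t.star_π, C.t.star_π, inv_inv, hsa.star_eq, mul_assoc]
  obtain ⟨a, b, h3, h4, h5⟩ := h.ext x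
  have h6 := hs_lc (F := O.F) (α := O.α x) (β := O.β x) (ρ := O.ρ x)
    (fun y y' => by rw [← O.cov, ← O.cov, O.lc]) (h.cv.rl.ap ξ) (h3.rl.ap ξ) (h4.rl.ap ξ)
    (fun v u u' h0 => ap_eq (h5 v u u' h0) ξ) e e'
  have h7 : (hs e' fun u => a u ξ) + (hs e' fun u => b u ξ) ≤
      ENNReal.ofReal (2 * max (D (r x)) 0 ^ 2 * ‖ξ‖ ^ 2) := by
    refine (add_le_add (h3.col ξ) (h4.col ξ)).trans_eq ?_
    rw [ENNReal.ofReal_mul (by positivity), ENNReal.ofReal_mul (by positivity), ← enorm_sq_eq,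
      ENNReal.ofReal_pow (le_max_right _ _), ENNReal.ofReal_max, ENNReal.ofReal_zero,
      max_eq_left zero_le, ENNReal.ofReal_ofNat]
    ring
  have h8 : (hs e fun v => ζ (adjoint (O.ρ x) v) ξ) =
      ENNReal.ofReal (⟪C.t.π x ξ, T (C.t.π x ξ)⟫_ℂ).re := by
    rw [h1]
    exact tsum_congr fun i => by simp only [← h.cv.cov, mul_ap, C.t.enorm_π]
  have h9 : (hs e fun v => ζ v ξ) = ENNReal.ofReal (⟪ξ, T ξ⟫_ℂ).re := (h1 ξ).symm
  have p1 := inner_nonneg_of_nonneg h0 ξ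
  have p2 := inner_nonneg_of_nonneg h0 (C.t.π x ξ)
  have k1 := h6.1.trans (add_le_add le_rfl h7)
  have k2 := h6.2.trans (add_le_add le_rfl h7)
  rw [h8, h9, ← ENNReal.ofReal_add (by assumption) (by positivity),
    ENNReal.ofReal_le_ofReal_iff (by positivity)] at k1 k2
  rw [sub_apply, inner_sub_right, Complex.sub_re, mul_ap, mul_ap, ← adjoint_inner_left, C.t.adj,
    inv_inv, abs_le]
  constructor <;> linarith

variable (C O e e')

/-- the convex set in the model -/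
def Vm : Set (mdl C O e).X := {ξ | ∃ ζ : Cs C O e, Vc C O e e' ζ.1 ∧ ev C O e ζ = ξ}

theorem enorm_l_ev {x : K →L[ℂ] K} (hx : C.t.M x) (ζ : Cs C O e) :
    ‖(mdl C O e).l x (ev C O e ζ)‖ₑ ^ 2 = hs e fun v => x (ζ.1 v C.t.Ω) := by
  change ‖lX C O e x _‖ₑ ^ 2 = _
  rw [lX_ev C O e hx, enorm_ev]
  rfl

theorem sq_ev (ζ : Cs C O e) {t : ℝ} (ht : 0 ≤ t)
    (h : ENNReal.ofReal t = hs e fun v => ζ.1 v C.t.Ω) : ‖ev C O e ζ‖ ^ 2 = t := by
  rw [← enorm_ev, enorm_sq_eq] at h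
  exact ((ENNReal.ofReal_eq_ofReal_iff ht (sq_nonneg _)).1 h).symm

theorem vs_mdl {N : Set G → ℝ → ℝ} (hN : ∀ L, IsCompact L → ∀ ε > 0, ∀ T, Cm W T →
      (∀ x, ‖C.t.π x⁻¹ * T * C.t.π x - T‖ ≤ 2 * max (D (r x)) 0 ^ 2) → ∀ g ∈ L,
      |(⟪C.s.π g⁻¹ C.t.Ω, T (C.s.π g⁻¹ C.t.Ω)⟫_ℂ).re - (⟪C.t.Ω, T C.t.Ω⟫_ℂ).re| ≤
        N L ε + ε / (c ^ 2 + 1) * ‖T‖) : Vs (mdl C O e) N (Vm C O e e') where
  convex := by
    rintro _ ⟨ζ, h, rfl⟩ _ ⟨ζ', h', rfl⟩ s t hs ht hst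
    refine ⟨(s : ℂ) • ζ + (t : ℂ) • ζ', h.convex h' hs ht hst, ?_⟩
    rw [map_add, map_smul, map_smul]
    rfl
  closed := IsSeqClosed.isClosed fun x ξ hx hξ => by
    choose ζ h1 h2 using hx
    obtain ⟨ζ', h3, h4⟩ := vc_lim (hyperfilter ℕ) h1
    refine ⟨⟨ζ', h3.mem⟩, h3, Subtype.ext (lp.ext (funext fun i => ext_inner_left ℂ fun η => ?_))⟩
    refine tendsto_nhds_unique (h4 (e i) η C.t.Ω) ?_
    have h5 := (((innerSL ℂ η).comp ((mdl C O e).co i)).continuous.tendsto ξ).comp hξ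
    simp only [← funext h2] at h5
    exact h5.mono_left Nat.hyperfilter_le_atTop
  σ := by
    rintro g _ ⟨ζ, h, rfl⟩
    exact ⟨sC C O e g ζ, h.mul (C.comm g) (C.comm g⁻¹) (fun T hT => C.s.conj T hT g)
      (C.s.norm_π_le _) (C.s.norm_π_le _), (sX_ev C O e g ζ).symm⟩
  l := by
    rintro x hx nx _ ⟨ζ, h, rfl⟩
    exact ⟨lC C O e hx ζ, h.mul hx.2 C.t.M_one.2 (fun _ hT => cm_mul (cm_mul hx.1 hT) cm_one) nx
      norm_id_le, (lX_ev C O e hx ζ).symm⟩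
  J := by
    rintro _ ⟨ζ, h, rfl⟩
    exact ⟨JC C O e ζ, h.adj, (JX_ev C O e ζ).symm⟩
  lb := ⟨|c| * |Λ|, by positivity, by
    rintro _ ⟨ζ, h, rfl⟩ x hx
    refine norm_le_of_enorm_sq (by positivity) ?_
    have h1 := ((lC C O e hx ζ).2.1.le_star' (e := e)).trans (mul_le_mul_right
      (le_trans (le_of_eq ?_) (h.bb.row (adjoint x C.t.Ω))) _)
    · rw [enorm_l_ev C O e hx]
      refine h1.trans ?_
      rw [← ofReal_norm, C.norm_adj_Ω hx, ofReal_norm, ENNReal.ofReal_mul (abs_nonneg _), mul_pow,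
        mul_assoc]
      gcongr <;> exact le_abs_self _
    · simp only [lC, mulC, LinearMap.coe_mk, AddHom.coe_mk, Pi.star_apply, mul_one, star_mul]
      rfl⟩
  nrm := by
    rintro L hL ε hε g hg _ ⟨ζ, h, rfl⟩ l hl
    obtain ⟨T, h0, h1, h2, h3⟩ := h.gram
    have h4 : Bn e ζ.1 (ENNReal.ofReal c ^ 2 * ENNReal.ofReal (l ^ 2)) :=
      h.cv.bn h.bb.col (by finiteness) fun y hy => by
        have h5 := pow_le_pow_left₀ (norm_nonneg _) (hl _ (C.M_adj hy)) 2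
        rw [C.norm_adj_Ω hy, mul_pow] at h5
        have h6 := ENNReal.ofReal_le_ofReal h5
        rw [ENNReal.ofReal_mul (sq_nonneg _), ← enorm_sq_eq, ← enorm_sq_eq] at h6
        refine le_trans (le_of_eq ?_) h6
        exact ((congrArg (fun ξ => ‖(mdl C O e).l (adjoint y) ξ‖ₑ ^ 2) (JX_ev C O e ζ)).trans
          (enorm_l_ev C O e (C.M_adj hy) _)).symm
    have h5 : ‖T‖ ≤ (c ^ 2 + 1) * l ^ 2 :=
      norm_le_of_quad (IsSelfAdjoint.of_nonneg h0) (by positivity) fun ξ => by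
        rw [abs_of_nonneg (inner_nonneg_of_nonneg h0 ξ),
          ← ENNReal.ofReal_le_ofReal_iff (by positivity), h2, ENNReal.ofReal_mul (by positivity),
          ENNReal.ofReal_mul (by positivity), ← enorm_sq_eq]
        exact (h4 ξ).trans (mul_le_mul_left (mul_le_mul_left (ofReal_sq_le c) _) _)
    have h6 := hN L hL ε hε T h1 h3 g hg
    have h7 := sq_ev C O e (sC C O e g ζ) (inner_nonneg_of_nonneg h0 (C.s.π g⁻¹ C.t.Ω))
      ((h2 _).trans (tsum_congr fun i => congrArg (· ^ 2) (C.s.enorm_π g _).symm))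
    rw [← h7, ← sq_ev C O e ζ (inner_nonneg_of_nonneg h0 _) (h2 _), ← sX_ev] at h6
    refine h6.trans (add_le_add le_rfl ((mul_le_mul_of_nonneg_left h5 (by positivity)).trans_eq ?_))
    field_simp

theorem exists_N (hr : Measurable r) (hr' : ∀ R, μ' {x | r x ≤ R} ≠ ∞) (hD : Monotone D) (c : ℝ) :
    ∃ N : Set G → ℝ → ℝ, ∀ L, IsCompact L → ∀ ε > 0, ∀ T, Cm W T →
      (∀ x, ‖C.t.π x⁻¹ * T * C.t.π x - T‖ ≤ 2 * max (D (r x)) 0 ^ 2) → ∀ g ∈ L,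
      |(⟪C.s.π g⁻¹ C.t.Ω, T (C.s.π g⁻¹ C.t.Ω)⟫_ℂ).re - (⟪C.t.Ω, T C.t.Ω⟫_ℂ).re| ≤
        N L ε + ε / (c ^ 2 + 1) * ‖T‖ := by
  have h1 := fun (L : Set G) (ε : ℝ) (hL : IsCompact L) (hε : 0 < ε) =>
    normal_op C hr hr' (D := fun R => 2 * max (D R) 0 ^ 2)
      (fun R R' h => by
        have := max_le_max_right 0 (hD h)
        have := le_max_right (D R) 0
        dsimp only
        gcongr) (fun R => by positivity) hL.inv (ε := ε / (c ^ 2 + 1)) (by positivity)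
  choose! N hN using h1
  exact ⟨N, fun L hL ε hε T hT hd g hg => (hN L ε hL hε).2 T hT hd _ (Set.inv_mem_inv.2 hg)⟩

theorem tail_small (hr : Measurable r) {S : Set K} (hS : IsCompact S) {ε : ℝ} (hε : 0 < ε) :
    ∃ n : ℕ, ∀ ξ ∈ S, ‖C.t.P {x | r x ≤ n}ᶜ ξ‖ₑ ^ 2 ≤ ENNReal.ofReal ε := by
  have hm : Antitone fun n : ℕ => {x | r x ≤ n}ᶜ := fun m n h x hx hx' =>
    hx (le_trans (b := (m : ℝ)) hx' (Nat.cast_le.2 h))
  have hM : ∀ n : ℕ, MeasurableSet {x | r x ≤ n}ᶜ := fun n =>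
    (measurableSet_le hr measurable_const).compl
  have h0 : ∀ ξ, Tendsto (fun n : ℕ => ‖C.t.P {x | r x ≤ n}ᶜ ξ‖ₑ ^ 2) atTop (𝓝 0) := fun ξ => by
    have h1 := C.t.tendsto_m (l := atTop) (F := fun n : ℕ => {x | r x ≤ n}ᶜ.indicator 1) (C := 1)
      (fun n => (Bd.ind (hM n)).meas) (fun n x => by
        by_cases hx : x ∈ {x | r x ≤ n}ᶜ <;> simp [hx]) Bd.zero
      (Eventually.of_forall fun x => tendsto_const_nhds.congr' (by
        filter_upwards [eventually_ge_atTop ⌈r x⌉₊] with n hn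
        exact (Set.indicator_of_notMem (not_not.2 (Nat.ceil_le.1 hn)) _).symm)) ξ
    simpa [C.t.m_zero, Function.comp_def, Side.P] using
      ((ENNReal.continuous_pow 2).tendsto _).comp h1.enorm
  obtain ⟨n, hn⟩ := unif_small (p := fun n ξ => ‖C.t.P {x | r x ≤ n}ᶜ ξ‖ₑ ^ 2)
    (fun n => (ENNReal.continuous_pow 2).comp (C.t.P _).continuous.enorm)
    (fun ξ m n h => by
      simp only [C.t.enorm_P (hM _)]
      exact lintegral_mono_set (hm h)) h0 hS (ENNReal.ofReal_pos.2 hε)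
  exact ⟨n, fun ξ h => (hn ξ h).le⟩

theorem hs_ctr (hr : Measurable r) (hD : Monotone D) (R : ℝ) (η : K) :
    hs e (fun v => mc C.t (fun y => O.F y - O.F 1) v η) ≤ ENNReal.ofReal (D R) ^ 2 * ‖η‖ₑ ^ 2 +
      ENNReal.ofReal (2 * Λ) ^ 2 * ‖C.t.P {x | r x ≤ R}ᶜ η‖ₑ ^ 2 := by
  have hM : MeasurableSet {x | r x ≤ R}ᶜ := (measurableSet_le hr measurable_const).compl
  have h1 : ∀ y, ‖O.F y - O.F 1‖ ≤ 2 * Λ := fun y =>
    (norm_sub_le _ _).trans (by linarith [O.nF y, O.nF 1])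
  rw [hs_mc C.t (fun v => by simpa only [inner_sub_right] using (O.mF v).sub_const _) h1,
    C.t.enorm_P hM, C.t.enorm_U, ← lintegral_indicator hM,
    ← lintegral_const_mul' _ _ (by finiteness), ← lintegral_const_mul' _ _ (by finiteness),
    ← lintegral_add_left' ((meas_sq _).const_mul _)]
  refine lintegral_mono fun y => ?_
  by_cases hy : r y ≤ R
  · refine le_add_right (mul_le_mul_left (pow_le_pow_left' ?_ 2) _)
    rw [← ofReal_norm]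
    exact ENNReal.ofReal_le_ofReal ((O.pt y).trans (hD hy))
  · rw [Set.indicator_of_mem (show y ∈ {x | r x ≤ R}ᶜ from hy)]
    refine le_add_left (mul_le_mul_left (pow_le_pow_left' ?_ 2) _)
    rw [← ofReal_norm]
    exact ENNReal.ofReal_le_ofReal (h1 y)

theorem mc_ctr (v : O.H) : mc C.t O.F v =
    mc C.t (fun y => O.F y - O.F 1) v + ((⟪v, O.F 1⟫_ℝ : ℝ) : ℂ) • (1 : K →L[ℂ] K) := by
  have b1 := bd_co O.mF O.nF v
  have h1 : (fun y => ((⟪v, O.F y - O.F 1⟫_ℝ : ℝ) : ℂ)) =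
      (fun y => ((⟪v, O.F y⟫_ℝ : ℝ) : ℂ)) - fun _ => ((⟪v, O.F 1⟫_ℝ : ℝ) : ℂ) :=
    funext fun y => by simp [inner_sub_right]
  rw [mc, mc, h1, C.t.m_sub b1 (Bd.const _), C.t.m_const, sub_add_cancel]

/-- **the model of an orbit map** -/
theorem exists_model (hr : Measurable r) (hr' : ∀ R, μ' {x | r x ≤ R} ≠ ∞) (hD : Monotone D)
    (c : ℝ) : ∃ N : Set G → ℝ → ℝ, ∀ L : Set G, IsCompact L → ∀ ε > 0, ∃ C₁ : ℝ, ∀ (Λ : ℝ)
    (O : Orb r c D Λ), ∃ (B : Bim C (c ^ 2 + 1)) (V : Set B.X) (ξ₀ : B.X)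
    (e : HilbertBasis B.I ℝ O.H), Vs B N V ∧ ξ₀ ∈ V ∧
    (∀ g i, B.co i (B.σ g ξ₀) = sg C g (C.t.m (O.co (e i))) C.t.Ω) ∧
    ∀ g ∈ L, ‖B.σ g ξ₀ - ξ₀‖ ≤ ε * Λ + C₁ := by
  obtain ⟨N, hN⟩ := exists_N C hr hr' hD c
  refine ⟨N, fun L hL ε hε => ?_⟩
  obtain ⟨n, hn⟩ := tail_small C hr ((hL.inv.image (C.s.cont C.t.Ω)).insert C.t.Ω)
    (ε := ε ^ 2 / 16) (by positivity)
  refine ⟨2 * |D n|, fun Λ O => ?_⟩
  obtain ⟨w, e, -⟩ := exists_hilbertBasis ℝ O.H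
  obtain ⟨w', e', -⟩ := exists_hilbertBasis ℝ O.H'
  have := countable_of_on e.orthonormal
  have := countable_of_on e'.orthonormal
  have hΛ := (norm_nonneg _).trans (O.nF 1)
  have hv := vc_mc C O e e'
  refine ⟨mdl C O e, Vm C O e e', ev C O e ⟨_, hv.mem⟩, e, vs_mdl C O e e' hN, ⟨_, hv, rfl⟩,
    fun g i => congrArg ((mdl C O e).co i) (sX_ev C O e g _), fun g hg => ?_⟩
  have h1 : ∀ η ∈ insert C.t.Ω ((fun g => C.s.π g C.t.Ω) '' L⁻¹), ‖η‖ₑ = 1 →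
      hs e (fun v => mc C.t (fun y => O.F y - O.F 1) v η) ≤
        ENNReal.ofReal (|D n| ^ 2 + (ε * Λ) ^ 2 / 4) := fun η h1 h2 => by
    refine (hs_ctr C O e hr hD n η).trans ?_
    rw [h2, one_pow, mul_one, ENNReal.ofReal_add (by positivity) (by positivity),
      ENNReal.ofReal_pow (abs_nonneg _)]
    refine add_le_add (by gcongr; exact le_abs_self _)
      ((mul_le_mul_right (hn η h1) _).trans_eq ?_)
    rw [← ENNReal.ofReal_pow (by positivity), ← ENNReal.ofReal_mul (by positivity)]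
    congr 1
    ring
  have h2 := h1 _ (Set.mem_insert_of_mem _ ⟨g⁻¹, Set.inv_mem_inv.2 hg, rfl⟩)
    ((C.s.enorm_π _ _).trans C.t.enorm_Ω)
  have h3 := h1 _ (Set.mem_insert _ _) C.t.enorm_Ω
  change ‖xt C O e (sC C O e g) _ - _‖ ≤ _
  rw [sX_ev, ← map_sub, ← ENNReal.ofReal_le_ofReal_iff (by positivity), ofReal_norm,
    ← ENNReal.pow_le_pow_left_iff two_ne_zero, enorm_ev]
  refine le_trans (le_of_eq ?_) ((hs_add (e := e)
    (fun v => C.s.π g (mc C.t (fun y => O.F y - O.F 1) v (C.s.π g⁻¹ C.t.Ω)))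
    fun v => -mc C.t (fun y => O.F y - O.F 1) v C.t.Ω).trans ?_)
  · congr 1
    funext v
    simp [sC, mulC, mc_ctr C O v, pi_ap_inv, sub_eq_add_neg]
  · rw [hs_neg]
    refine (add_le_add (mul_le_mul_right ((tsum_congr fun i => by rw [C.s.enorm_π]).trans_le h2) _)
      (mul_le_mul_right h3 _)).trans ?_
    rw [← ENNReal.ofReal_ofNat, ← ENNReal.ofReal_mul zero_le_two,
      ← ENNReal.ofReal_add (by positivity) (by positivity), ← ENNReal.ofReal_pow (by positivity)]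
    exact ENNReal.ofReal_le_ofReal (by nlinarith [mul_nonneg (mul_nonneg hε.le hΛ) (abs_nonneg (D n))])

end Vale.Agent.P092UB
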